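import Vale.Agent.P142.MathlibUsed
import Vale.Agent.P142.Defs

set_option linter.all false

namespace AFast041c7cx6a
theorem a0 : ContinuousSMul ℂ ℂ := inferInstance
@[reducible] noncomputable def a1 : SMulZeroClass ℝ ℂ := inferInstance
@[reducible] noncomputable def a2 : DistribMulAction ℝ ℂ := inferInstance
@[reducible] noncomputable def a3 : DistribSMul ℝ ℂ := inferInstance
theorem a4 : ContinuousSMul ℝ ℂ := inferInstance
theorem a5 : IsTopologicalRing ℂ := inferInstance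
theorem a6 : ContinuousAdd ℂ := inferInstance
theorem a7 : IsTopologicalSemiring ℂ := inferInstance
theorem a8 : IsSemitopologicalSemiring ℂ := inferInstance
theorem a9 : IsSemitopologicalRing ℂ := inferInstance
theorem a10 : CovariantClass ℝ ℝ (Function.swap fun x1 x2 => x1 + x2) fun x1 x2 => x1 ≤ x2 := inferInstance
theorem a11 : IsModuleTopology ℂ ℂ := inferInstance
@[reducible] noncomputable def a12 : MeasureTheory.MeasureSpace ℂ := inferInstance
theorem a13 : AddRightReflectLE ℝ := inferInstance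
@[reducible] def a14 : SMulZeroClass ℂ ℂ := inferInstance
theorem a15 : CharZero ℝ := inferInstance
theorem a16 : AddRightStrictMono ℝ := inferInstance
theorem a17 : IsRightCancelAdd ℝ := inferInstance
theorem a18 : ClosedIicTopology ℝ := inferInstance
theorem a19 : AddLeftMono ℝ := inferInstance
theorem a20 : AddLeftReflectLE ℝ := inferInstance
@[reducible] def a21 : DistribMulAction ℂ ℂ := inferInstance
theorem a22 : IsTopologicalDivisionRing ℂ := inferInstance
theorem a23 : IsTopologicalAddGroup ℂ := inferInstance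
theorem a24 : ContravariantClass ℝ ℝ (fun x1 x2 => x1 + x2) fun x1 x2 => x1 < x2 := inferInstance
@[reducible] def a25 : Monoid ℂ := inferInstance
theorem a26 : ContravariantClass ℝ ℝ (Function.swap fun x1 x2 => x1 + x2) fun x1 x2 => x1 < x2 := inferInstance
theorem a27 : ContinuousMul ℂ := inferInstance
@[reducible] noncomputable def a28 : NormedSpace ℝ ℂ := inferInstance
theorem a29 : IsLeftCancelAdd ℝ := inferInstance
@[reducible] def a30 : Pow ℂ ℕ := inferInstance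
theorem a31 : OrderClosedTopology ℝ := inferInstance
theorem a32 : SeparatelyContinuousMul ℂ := inferInstance
@[reducible] def a33 : NPow ℂ := inferInstance
theorem a34 : ContinuousSub ℂ := inferInstance
@[reducible] noncomputable def a35 : NormedSpace ℝ ℝ := inferInstance
theorem a36 : ContinuousSMul ℝ ℝ := inferInstance
theorem a37 : IsCancelMulZero ℂ := inferInstance
theorem a38 : ContinuousSub ℝ := inferInstance
theorem a39 : IsLeftCancelMulZero ℂ := inferInstance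
theorem a40 : PosMulReflectLT ℝ := inferInstance
@[reducible] noncomputable def a41 : TopologicalSpace (ℂ →L[ℝ] ℂ) := inferInstance
theorem a42 : PosMulReflectLE ℝ := inferInstance
theorem a43 : PosMulStrictMono ℝ := inferInstance
theorem a44 : LinearMap.CompatibleSMul ℂ ℂ ℝ ℂ := inferInstance
theorem a45 : SecondCountableTopology ℂ := inferInstance
theorem a46 : IsBoundedSMul ℂ ℂ := inferInstance
theorem a47 : T2Space ℝ := inferInstance
theorem a48 : IsCancelMulZero ℝ := inferInstance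
theorem a49 : IsLeftCancelMulZero ℝ := inferInstance
theorem a50 : IsBoundedSMul ℝ ℂ := inferInstance
@[reducible] noncomputable def a51 : SMul ℝ ℂ := inferInstance
@[reducible] def a52 : SMulZeroClass ℝ ℝ := inferInstance
@[reducible] noncomputable def a53 : MulAction ℝ ℂ := inferInstance
theorem a54 : @MeasureTheory.SFinite Real (@MeasureTheory.MeasureSpace.toMeasurableSpace Real Real.measureSpace) (@MeasureTheory.volume Real Real.measureSpace) := inferInstance
@[reducible] noncomputable def a55 : Add (ℂ →L[ℝ] ℂ) := inferInstance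
theorem a56 : @MeasureTheory.SigmaFinite Real Real.measurableSpace (@MeasureTheory.volume Real Real.measureSpace) := inferInstance
theorem a57 : SeparatelyContinuousAdd ℂ := inferInstance
theorem a58 : IsRightCancelAdd ℂ := inferInstance
theorem a59 : MulHomClass (ℂ →+* ℂ) ℂ ℂ := inferInstance
theorem a60 : ClosedIciTopology ℝ := inferInstance
theorem a61 : TopologicalSpace.SeparableSpace ℂ := inferInstance
theorem a62 : SigmaCompactSpace ℝ := inferInstance
@[reducible] noncomputable def a63 : AddCommMonoid (ℂ →L[ℝ] ℂ) := inferInstance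
theorem a64 : ContinuousConstSMul ℝ ℂ := inferInstance
theorem a65 : DenselyOrdered ℝ := inferInstance
@[reducible] def a66 : DistribMulAction ℝ ℝ := inferInstance
theorem a67 : MeasurableDiv₂ ℝ := inferInstance
theorem a68 : IsScalarTower ℝ ℂ ℂ := inferInstance
theorem a69 : MeasurableMul₂ ℝ := inferInstance
theorem a70 : NonUnitalRingHomClass (ℂ →+* ℂ) ℂ ℂ := inferInstance
theorem a71 : SeparatelyContinuousMul ℝ := inferInstance
theorem a72 : MonoidHomClass (ℂ →+* ℂ) ℂ ℂ := inferInstance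
theorem a73 : MeasurableDiv ℝ := inferInstance
theorem a74 : IsReduced ℂ := inferInstance
theorem a75 : Algebra.IsIntegral ℝ ℂ := inferInstance
theorem a76 : MonoidWithZeroHomClass (ℂ →+* ℂ) ℂ ℂ := inferInstance
theorem a77 : StandardBorelSpace ℝ := inferInstance
theorem a78 : ContinuousInv₀ ℂ := inferInstance
theorem a79 : WeaklyLocallyCompactSpace ℝ := inferInstance
theorem a80 : LocallyCompactSpace ℝ := inferInstance
theorem a81 : MulPosReflectLT ℝ := inferInstance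
theorem a82 : OneHomClass (ℂ →+* ℂ) ℂ ℂ := inferInstance
@[reducible] noncomputable def a83 : MulActionWithZero ℝ ℂ := inferInstance
end AFast041c7cx6a
attribute [local instance] AFast041c7cx6a.a0 AFast041c7cx6a.a1 AFast041c7cx6a.a2 AFast041c7cx6a.a3
  AFast041c7cx6a.a4 AFast041c7cx6a.a5 AFast041c7cx6a.a6 AFast041c7cx6a.a7 AFast041c7cx6a.a8
  AFast041c7cx6a.a9 AFast041c7cx6a.a10 AFast041c7cx6a.a11 AFast041c7cx6a.a12 AFast041c7cx6a.a13
  AFast041c7cx6a.a14 AFast041c7cx6a.a15 AFast041c7cx6a.a16 AFast041c7cx6a.a17 AFast041c7cx6a.a18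
  AFast041c7cx6a.a19 AFast041c7cx6a.a20 AFast041c7cx6a.a21 AFast041c7cx6a.a22 AFast041c7cx6a.a23
  AFast041c7cx6a.a24 AFast041c7cx6a.a25 AFast041c7cx6a.a26 AFast041c7cx6a.a27 AFast041c7cx6a.a28
  AFast041c7cx6a.a29 AFast041c7cx6a.a30 AFast041c7cx6a.a31 AFast041c7cx6a.a32 AFast041c7cx6a.a33
  AFast041c7cx6a.a34 AFast041c7cx6a.a35 AFast041c7cx6a.a36 AFast041c7cx6a.a37 AFast041c7cx6a.a38
  AFast041c7cx6a.a39 AFast041c7cx6a.a40 AFast041c7cx6a.a41 AFast041c7cx6a.a42 AFast041c7cx6a.a43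
  AFast041c7cx6a.a44 AFast041c7cx6a.a45 AFast041c7cx6a.a46 AFast041c7cx6a.a47 AFast041c7cx6a.a48
  AFast041c7cx6a.a49 AFast041c7cx6a.a50 AFast041c7cx6a.a51 AFast041c7cx6a.a52 AFast041c7cx6a.a53
  AFast041c7cx6a.a54 AFast041c7cx6a.a55 AFast041c7cx6a.a56 AFast041c7cx6a.a57 AFast041c7cx6a.a58
  AFast041c7cx6a.a59 AFast041c7cx6a.a60 AFast041c7cx6a.a61 AFast041c7cx6a.a62 AFast041c7cx6a.a63
  AFast041c7cx6a.a64 AFast041c7cx6a.a65 AFast041c7cx6a.a66 AFast041c7cx6a.a67 AFast041c7cx6a.a68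
  AFast041c7cx6a.a69 AFast041c7cx6a.a70 AFast041c7cx6a.a71 AFast041c7cx6a.a72 AFast041c7cx6a.a73
  AFast041c7cx6a.a74 AFast041c7cx6a.a75 AFast041c7cx6a.a76 AFast041c7cx6a.a77 AFast041c7cx6a.a78
  AFast041c7cx6a.a79 AFast041c7cx6a.a80 AFast041c7cx6a.a81 AFast041c7cx6a.a82 AFast041c7cx6a.a83
namespace AFast041c7cx6b
@[reducible] noncomputable def a0 : Module ℝ ℂ := inferInstance
@[reducible] noncomputable def a1 : Module ℝ (ℂ →L[ℝ] ℂ) := inferInstance
theorem a2 : @Filter.NeBot Complex (@nhdsWithin Complex (@UniformSpace.toTopologicalSpace Complex (@PseudoMetricSpace.toUniformSpace Complex (@SeminormedRing.toPseudoMetricSpace Complex (@SeminormedCommRing.toSeminormedRing Complex (@NormedCommRing.toSeminormedCommRing Complex (@CommCStarAlgebra.toNormedCommRing Complex instCommCStarAlgebraComplex)))))) (@OfNat.ofNat Complex (nat_lit 0) (@Zero.toOfNat0 Complex (@NegZeroClass.toZero Complex (@SubNegZeroMonoid.toNegZeroClass Complex (@SubtractionMonoid.toSubNegZeroMonoid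 Complex (@AddGroup.toSubtractionMonoid Complex (@AddGroupWithOne.toAddGroup Complex Complex.addGroupWithOne))))))) (@compl (Set Complex) (@Set.instCompl Complex) (@singleton Complex (Set Complex) (@Set.instSingletonSet Complex) (@OfNat.ofNat Complex (nat_lit 0) (@Zero.toOfNat0 Complex (@NegZeroClass.toZero Complex (@SubNegZeroMonoid.toNegZeroClass Complex (@SubtractionMonoid.toSubNegZeroMonoid Complex (@AddGroup.toSubtractionMonoid Complex (@AddGroupWithOne.toAddGroup Complex Complex.addGroupWithOne)))))))))) := inferInstance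
theorem a3 : SMulCommClass ℝ ℝ ℂ := inferInstance
theorem a4 : @MeasureTheory.NullSingletonClass Complex (@MeasureTheory.MeasureSpace.toMeasurableSpace Complex (@measureSpaceOfInnerProductSpace Complex Complex.instNormedAddCommGroup instInnerProductSpaceRealComplex Complex.instFiniteDimensionalReal Complex.measurableSpace Complex.borelSpace)) (@MeasureTheory.volume Complex (@measureSpaceOfInnerProductSpace Complex Complex.instNormedAddCommGroup instInnerProductSpaceRealComplex Complex.instFiniteDimensionalReal Complex.measurableSpace Complex.borelSpace)) := inferInstance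
theorem a5 : MeasurableMul₂ ℂ := inferInstance
theorem a6 : Module.Free ℝ ℂ := inferInstance
theorem a7 : Module.Flat ℝ ℂ := inferInstance
theorem a8 {x1 : ℂ} : (nhdsWithin x1 {x1}ᶜ).NeBot := inferInstance
@[reducible] noncomputable def a9 : Module ℝ (ℂ →ₗ[ℝ] ℂ) := inferInstance
theorem a10 : MeasurableDiv₂ ℂ := inferInstance
theorem a11 : SecondCountableTopologyEither ℝ ℂ := inferInstance
theorem a12 : StandardBorelSpace ℂ := inferInstance
theorem a13 : MeasurableEq ℂ := inferInstance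
theorem a14 : MeasurableSingletonClass ℂ := inferInstance
end AFast041c7cx6b
attribute [local instance] AFast041c7cx6b.a0 AFast041c7cx6b.a1 AFast041c7cx6b.a2 AFast041c7cx6b.a3
  AFast041c7cx6b.a4 AFast041c7cx6b.a5 AFast041c7cx6b.a6 AFast041c7cx6b.a7 AFast041c7cx6b.a8
  AFast041c7cx6b.a9 AFast041c7cx6b.a10 AFast041c7cx6b.a11 AFast041c7cx6b.a12 AFast041c7cx6b.a13
  AFast041c7cx6b.a14
section

/-!
# Brennan's conjecture: definitions and block statements (interface file)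

`tau z = (1 - |z|^2)/2`, `EE f z = f z + tau z * f' z / conj z`, `XX f z = |f' z| / |z|`,
`JJ f` = real Jacobian of `EE f`, `PHI f w z = |f z - w| / tau z`.
-/

open Complex MeasureTheory Metric Set Filter Topology
open scoped Real ComplexConjugate ENNReal

namespace Vale.Agent.P142.Brn

noncomputable section

/-- Real-linear map `h ↦ a * h + b * conj h`. -/
def wrt (a b : ℂ) : ℂ →L[ℝ] ℂ :=
  ContinuousLinearMap.mul ℝ ℂ a + (ContinuousLinearMap.mul ℝ ℂ b).comp
    (conjCLE : ℂ →L[ℝ] ℂ)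

@[simp] lemma wrt_apply (a b v : ℂ) : wrt a b v = a * v + b * conj v := by
  simp only [wrt, add_apply, ContinuousLinearMap.mul_apply', ContinuousLinearMap.comp_apply, ContinuousLinearEquiv.coe_coe, ContinuousAlgEquiv.coeCLE_apply, conjCAE_apply]

/-- Half the distance-like function `(1 - |z|^2)/2`. -/
def tau (z : ℂ) : ℝ := (1 - ‖z‖ ^ 2) / 2

/-- The map `E`. -/
def EE (f : ℂ → ℂ) (z : ℂ) : ℂ := f z + (tau z : ℂ) * deriv f z / conj z

/-- The critical value. -/
def XX (f : ℂ → ℂ) (z : ℂ) : ℝ := ‖deriv f z‖ / ‖z‖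

/-- `∂E`. -/
def Ez (f : ℂ → ℂ) (z : ℂ) : ℂ := deriv f z / 2 + (tau z : ℂ) * deriv (deriv f) z / conj z

/-- `∂̄E`. -/
def Ezb (f : ℂ → ℂ) (z : ℂ) : ℂ := -(deriv f z) / (2 * (conj z) ^ 2)

/-- Jacobian of `E`. -/
def JJ (f : ℂ → ℂ) (z : ℂ) : ℝ := ‖Ez f z‖ ^ 2 - ‖Ezb f z‖ ^ 2

/-- The function whose critical points are counted. -/
def PHI (f : ℂ → ℂ) (w z : ℂ) : ℝ := ‖f z - w‖ / tau z

/-- Punctured unit disc. -/
def PD : Set ℂ := ball (0 : ℂ) 1 \ {0}

/-- `f` is holomorphic and injective on a disc of radius `R > 1`. -/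
structure Nice (f : ℂ → ℂ) (R : ℝ) : Prop where
  one_lt : 1 < R
  diff : DifferentiableOn ℂ f (ball 0 R)
  inj : InjOn f (ball 0 R)

/-- Four-sector condition at a saddle `s` of `Φ` (inside the unit disc). -/
def SaddleAt (Φ : ℂ → ℝ) (s : ℂ) : Prop :=
  ∃ e : ℂ, ‖e‖ = 1 ∧ ∃ δ : ℝ, 0 < δ ∧ ∀ x : ℝ, 0 < x → x ≤ δ →
    (s + x * e ∈ ball (0 : ℂ) 1 ∧ s - x * e ∈ ball (0 : ℂ) 1 ∧
      s + x * (I * e) ∈ ball (0 : ℂ) 1 ∧ s - x * (I * e) ∈ ball (0 : ℂ) 1) ∧
    Φ (s + x * e) < Φ s ∧ Φ (s - x * e) < Φ s ∧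
    Φ s < Φ (s + x * (I * e)) ∧ Φ s < Φ (s - x * (I * e))

/-- Weak maximum principle. -/
def WeakMax (Φ : ℂ → ℝ) : Prop :=
  ∀ O : Set ℂ, IsOpen O → closure O ⊆ ball (0 : ℂ) 1 → ∀ p ∈ O, ∃ q ∈ frontier O, Φ p ≤ Φ q

/-- Block T (809 + 221): counting. -/
def BlockT : Prop := ∀ (Φ : ℂ → ℝ) (t : ℝ) (S N : Finset ℂ),
  ContinuousOn Φ (ball 0 1) →
  (∀ c : ℝ, IsCompact {z | z ∈ ball (0 : ℂ) 1 ∧ Φ z ≤ c}) →
  WeakMax Φ →
  (∀ s ∈ S, s ∈ ball (0 : ℂ) 1 ∧ Φ s < t ∧ SaddleAt Φ s) →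
  (∀ z ∈ ball (0 : ℂ) 1, Φ z < t → IsLocalMin Φ z → z ∈ N) →
  S.Nonempty → S.card < N.card

/-- Block H1 (935): derivative of `E`, determinant, continuity. -/
def BlockH1 : Prop :=
  (∀ a b : ℂ, (wrt a b).det = ‖a‖ ^ 2 - ‖b‖ ^ 2) ∧
  ∀ (f : ℂ → ℂ) (R : ℝ), Nice f R →
    (∀ z ∈ closedBall (0 : ℂ) 1, deriv f z ≠ 0) ∧
    (∀ z ∈ PD, HasStrictFDerivAt (EE f) (wrt (Ez f z) (Ezb f z)) z) ∧
    ContinuousOn (EE f) (closedBall 0 1 \ {0}) ∧
    ContinuousOn (XX f) (closedBall 0 1 \ {0}) ∧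
    ContinuousOn (JJ f) (closedBall 0 1 \ {0})

/-- Block H2 (73): `PHI f w` is continuous, proper and satisfies the weak maximum principle. -/
def BlockH2 : Prop := ∀ (f : ℂ → ℂ) (R : ℝ), Nice f R → ∀ w : ℂ, w ∉ f '' sphere (0 : ℂ) 1 →
  ContinuousOn (PHI f w) (ball 0 1) ∧
  (∀ c : ℝ, IsCompact {z | z ∈ ball (0 : ℂ) 1 ∧ PHI f w z ≤ c}) ∧ WeakMax (PHI f w)

/-- Block H3 (393): local structure of `PHI f w`. -/
def BlockH3 : Prop := ∀ (f : ℂ → ℂ) (R : ℝ), Nice f R → ∀ w z : ℂ, z ∈ ball (0 : ℂ) 1 →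
  (f z ≠ w → IsLocalMin (PHI f w) z → z ≠ 0 ∧ EE f z = w ∧ JJ f z ≤ 0) ∧
  (z ≠ 0 → EE f z = w → f z ≠ w ∧ PHI f w z = XX f z) ∧
  (z ≠ 0 → EE f z = w → 0 < JJ f z → SaddleAt (PHI f w) z)

/-- Block H4 (942): the fibre count. -/
def BlockH4 : Prop := ∀ (f : ℂ → ℂ) (R : ℝ), Nice f R → ∀ w : ℂ, w ∉ f '' sphere (0 : ℂ) 1 →
  (∀ z ∈ PD, EE f z = w → JJ f z ≠ 0) → ∀ t : ℝ, 0 < t →
  {z | z ∈ PD ∧ EE f z = w ∧ 0 < JJ f z ∧ XX f z < t}.encard ≤
  {z | z ∈ PD ∧ EE f z = w ∧ JJ f z < 0 ∧ XX f z < t}.encard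

/-- Block A2 (113): almost every `w` is good. -/
def BlockA2 : Prop := ∀ (f : ℂ → ℂ) (R : ℝ), Nice f R →
  (∀ᵐ w : ℂ, w ∉ f '' sphere (0 : ℂ) 1) ∧ (∀ᵐ w : ℂ, ∀ z ∈ PD, EE f z = w → JJ f z ≠ 0)

/-- Block A3 (113): comparison of the two parts of the Jacobian below a level. -/
def BlockA3 : Prop := ∀ (f : ℂ → ℂ) (R : ℝ), Nice f R → ∀ t : ℝ, 0 < t →
  ∫⁻ z in {z | z ∈ PD ∧ 0 < JJ f z ∧ XX f z < t}, ENNReal.ofReal (JJ f z) ≤
  ∫⁻ z in {z | z ∈ PD ∧ JJ f z < 0 ∧ XX f z < t}, ENNReal.ofReal (-JJ f z)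

/-- Block I (383): layer cake. -/
def BlockI : Prop := ∀ (f : ℂ → ℂ) (R : ℝ), Nice f R → ∀ p : ℝ, 0 < p →
  IntegrableOn (fun z => XX f z ^ (-p - 2) * JJ f z) (ball 0 1) ∧
  ∫ z in ball (0 : ℂ) 1, XX f z ^ (-p - 2) * JJ f z ≤ 0

/-- Block P (344): Parseval computation. -/
def BlockP : Prop := ∀ (f : ℂ → ℂ) (R : ℝ), Nice f R → ∀ p : ℝ, 0 < p → p < 2 →
  IntegrableOn (fun z => (‖z‖ / ‖deriv f z‖) ^ p * (4 * ‖z‖ ^ 2 - 2 - p)) (ball (0 : ℂ) 1) ∧
  ∫ z in ball (0 : ℂ) 1, XX f z ^ (-p - 2) * JJ f z =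
    (1 / p ^ 2) * ∫ z in ball (0 : ℂ) 1, (‖z‖ / ‖deriv f z‖) ^ p * (4 * ‖z‖ ^ 2 - 2 - p)

/-- Block F (164 / 178 / 585): the final estimate for every univalent function. -/
def BlockF : Prop := ∀ f : ℂ → ℂ, DifferentiableOn ℂ f (ball 0 1) → InjOn f (ball 0 1) →
  ∀ p : ℝ, 0 < p → p < 2 → ∫⁻ z in ball (0 : ℂ) 1, ENNReal.ofReal (‖deriv f z‖ ^ (-p)) < ⊤

end

end Vale.Agent.P142.Brn
end

section

/-!
# Brennan's conjecture, block H1

The strict real derivative of `EE f`, its determinant, and continuity of `EE f`, `XX f`, `JJ f`.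
-/

open Complex MeasureTheory Metric Set Filter Topology
open scoped Real ENNReal ComplexConjugate

namespace Vale.Agent.P142.Brn

namespace H1

variable {f : ℂ → ℂ}

/-- An injective holomorphic function has nonvanishing derivative. -/
theorem injOn_deriv_ne_zero {U : Set ℂ} (hU : IsOpen U) (hf1 : DifferentiableOn ℂ f U)
    (hf2 : InjOn f U) {z₀ : ℂ} (hz : z₀ ∈ U) : deriv f z₀ ≠ 0 := by
  intro hd
  have hnhds : U ∈ 𝓝 z₀ := hU.mem_nhds hz
  have hfa : AnalyticAt ℂ f z₀ := hf1.analyticAt hnhds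
  have hφ : AnalyticAt ℂ (fun z => f z - f z₀) z₀ := hfa.sub analyticAt_const
  have hnz : ¬ ∀ᶠ z in 𝓝 z₀, f z - f z₀ = 0 := by
    intro h
    have h2 : ∀ᶠ z in 𝓝[≠] z₀, f z - f z₀ = 0 ∧ z ∈ U :=
      (h.and hnhds).filter_mono nhdsWithin_le_nhds
    obtain ⟨z, ⟨h3, h4⟩, h5⟩ := (h2.and self_mem_nhdsWithin).exists
    exact h5 (hf2 h4 hz (sub_eq_zero.mp h3))
  obtain ⟨n, g, hg, hg0, hgn⟩ := (hφ.exists_eventuallyEq_pow_smul_nonzero_iff).mpr hnz
  have hn0 : n ≠ 0 := by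
    rintro rfl
    have := hgn.self_of_nhds
    simp at this
    exact hg0 this.symm
  have hn1 : n ≠ 1 := by
    rintro rfl
    have h1 : HasDerivAt (fun z => (z - z₀) ^ 1 • g z) (g z₀) z₀ := by
      have := ((hasDerivAt_id z₀).sub_const z₀).fun_mul hg.differentiableAt.hasDerivAt
      simpa using this
    have h2 : HasDerivAt (fun z => f z - f z₀) (g z₀) z₀ := h1.congr_of_eventuallyEq hgn
    have h3 : HasDerivAt (fun z => f z - f z₀) (deriv f z₀) z₀ :=
      (hfa.differentiableAt.hasDerivAt).sub_const _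
    exact hg0 ((h2.unique h3).trans hd)
  obtain ⟨c, hc⟩ := IsAlgClosed.exists_pow_nat_eq (g z₀) (Nat.pos_of_ne_zero hn0)
  have hc0 : c ≠ 0 := by
    rintro rfl
    rw [zero_pow hn0] at hc
    exact hg0 hc.symm
  set k : ℂ → ℂ := fun z => cexp (Complex.log (g z / g z₀) / n) with hk
  have hnC : (n : ℂ) ≠ 0 := by exact_mod_cast hn0
  have hkn : ∀ᶠ z in 𝓝 z₀, k z ^ n = g z / g z₀ := by
    have : ∀ᶠ z in 𝓝 z₀, g z ≠ 0 := hg.continuousAt.eventually_ne hg0
    filter_upwards [this] with z hz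
    rw [hk]
    simp only
    rw [← Complex.exp_nat_mul, mul_div_cancel₀ _ hnC, Complex.exp_log (div_ne_zero hz hg0)]
  have hk0 : k z₀ = 1 := by simp [hk, div_self hg0]
  have hkd : AnalyticAt ℂ k z₀ := by
    have h1 : AnalyticAt ℂ (fun z => g z / g z₀) z₀ := hg.div analyticAt_const hg0
    have h2 : AnalyticAt ℂ (fun z => Complex.log (g z / g z₀)) z₀ := by
      apply h1.clog
      rw [div_self hg0]
      exact Complex.one_mem_slitPlane
    exact (h2.div analyticAt_const hnC).cexp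
  set h : ℂ → ℂ := fun z => (z - z₀) * (c * k z) with hh
  have hha : AnalyticAt ℂ h z₀ := by
    exact (analyticAt_id.sub analyticAt_const).mul (analyticAt_const.mul hkd)
  have hhd : HasDerivAt h c z₀ := by
    have := ((hasDerivAt_id z₀).sub_const z₀).mul
      ((hasDerivAt_const z₀ c).mul hkd.differentiableAt.hasDerivAt)
    refine this.congr_deriv ?_
    simp [hk0]
  have hhs : HasStrictDerivAt h c z₀ := by
    have := hha.hasStrictDerivAt
    rwa [hhd.deriv] at this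
  have hmap : map h (𝓝 z₀) = 𝓝 (h z₀) := hhs.map_nhds_eq hc0
  have hh0 : h z₀ = 0 := by simp [hh]
  have hpow : ∀ᶠ z in 𝓝 z₀, f z - f z₀ = h z ^ n := by
    filter_upwards [hgn, hkn] with z h1 h2
    rw [h1, hh]
    simp only
    rw [mul_pow, mul_pow, h2, hc, smul_eq_mul]
    field_simp
  have hV : {z | f z - f z₀ = h z ^ n ∧ z ∈ U} ∈ 𝓝 z₀ := hpow.and hnhds
  have himg : h '' {z | f z - f z₀ = h z ^ n ∧ z ∈ U} ∈ 𝓝 (0 : ℂ) := by
    have h1 := image_mem_map (m := h) hV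
    rwa [hmap, hh0] at h1
  obtain ⟨ε, hε, hball⟩ := Metric.mem_nhds_iff.mp himg
  have hprim := Complex.isPrimitiveRoot_exp n hn0
  set ω := cexp (2 * π * I / n) with hω
  have hω1 : ω ≠ 1 := hprim.ne_one (by omega)
  have hωn : ω ^ n = 1 := hprim.pow_eq_one
  have hωnorm : ‖ω‖ = 1 := Complex.norm_eq_one_of_pow_eq_one hωn hn0
  set w : ℂ := ((ε / 2 : ℝ) : ℂ) with hw
  have hwn : ‖w‖ = ε / 2 := by
    rw [hw, Complex.norm_real, Real.norm_eq_abs, abs_of_pos (by (clear * - hε; positivity))]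
  have hw1 : w ∈ ball (0 : ℂ) ε := by rw [mem_ball_zero_iff, hwn]; linarith only [hε]
  have hw2 : ω * w ∈ ball (0 : ℂ) ε := by
    rw [mem_ball_zero_iff, norm_mul, hωnorm, one_mul, hwn]; linarith only [hε]
  obtain ⟨z1, ⟨h11, h12⟩, h13⟩ := hball hw1
  obtain ⟨z2, ⟨h21, h22⟩, h23⟩ := hball hw2
  have heq : f z1 = f z2 := by
    have : f z1 - f z₀ = f z2 - f z₀ := by
      rw [h11, h21, h13, h23, mul_pow, hωn, one_mul]
    exact sub_left_injective this
  have hz12 := hf2 h12 h22 heq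
  rw [hz12, h23] at h13
  have hw0 : w ≠ 0 := by
    intro h0
    rw [h0, norm_zero] at hwn
    linarith only [hε, hwn]
  exact hω1 (mul_right_cancel₀ hw0 (by rw [h13, one_mul]))

/-! ### Wirtinger calculus with strict derivatives -/

/-- `H` has strict Wirtinger derivatives `a`, `b` at `z`. -/
def SW (H : ℂ → ℂ) (a b z : ℂ) : Prop := HasStrictFDerivAt H (wrt a b) z

lemma SW.of_hasStrictDerivAt {H : ℂ → ℂ} {a z : ℂ} (h : HasStrictDerivAt H a z) : SW H a 0 z := by
  have h1 := h.hasStrictFDerivAt.restrictScalars ℝ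
  exact h1.congr_fderiv (ContinuousLinearMap.ext fun v => by simp [mul_comm])

lemma SW.congr_coeff {H : ℂ → ℂ} {a b a' b' z : ℂ} (h : SW H a b z) (ha : a = a')
    (hb : b = b') : SW H a' b' z := by
  subst ha; subst hb; exact h

lemma SW.const (c z : ℂ) : SW (fun _ => c) 0 0 z :=
  SW.of_hasStrictDerivAt (hasStrictDerivAt_const z c)

lemma SW.conj {H : ℂ → ℂ} {a b z : ℂ} (h : SW H a b z) :
    SW (fun z => conj (H z)) (conj b) (conj a) z := by
  have h1 := (conjCLE : ℂ →L[ℝ] ℂ).hasStrictFDerivAt.comp z h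
  exact h1.congr_fderiv (ContinuousLinearMap.ext fun v => by simp [add_comm])

lemma SW.mul {H K : ℂ → ℂ} {a b c d z : ℂ} (h : SW H a b z) (k : SW K c d z) :
    SW (fun z => H z * K z) (a * K z + H z * c) (b * K z + H z * d) z := by
  have h1 := HasStrictFDerivAt.mul h k
  exact h1.congr_fderiv (ContinuousLinearMap.ext fun v => by simp only [add_apply, smul_apply, wrt_apply, smul_eq_mul]; ring)

lemma SW.add {H K : ℂ → ℂ} {a b c d z : ℂ} (h : SW H a b z) (k : SW K c d z) :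
    SW (fun z => H z + K z) (a + c) (b + d) z := by
  have h1 := HasStrictFDerivAt.add h k
  exact h1.congr_fderiv (ContinuousLinearMap.ext fun v => by simp only [add_apply, wrt_apply]; ring)

lemma SW.comp {H φ : ℂ → ℂ} {a b c z : ℂ} (hφ : HasStrictDerivAt φ c (H z)) (h : SW H a b z) :
    SW (fun z => φ (H z)) (c * a) (c * b) z := by
  have h1 := (hφ.hasStrictFDerivAt.restrictScalars ℝ).comp z h
  exact h1.congr_fderiv (ContinuousLinearMap.ext fun v => by simp; ring)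

lemma SW.inv {H : ℂ → ℂ} {a b z : ℂ} (h : SW H a b z) (h0 : H z ≠ 0) :
    SW (fun z => (H z)⁻¹) (-a / (H z) ^ 2) (-b / (H z) ^ 2) z := by
  refine (SW.comp (hasStrictDerivAt_inv h0) h).congr_coeff ?_ ?_ <;> field_simp

/-- The determinant of the real linear map `v ↦ a v + b conj v`. -/
theorem det_wrt (a b : ℂ) : (wrt a b).det = ‖a‖ ^ 2 - ‖b‖ ^ 2 := by
  have h1 : LinearMap.toMatrix basisOneI basisOneI ((wrt a b : ℂ →L[ℝ] ℂ) : ℂ →ₗ[ℝ] ℂ) =
      !![a.re + b.re, -a.im + b.im; a.im + b.im, a.re - b.re] := by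
    ext i j
    rw [LinearMap.toMatrix_apply]
    fin_cases i <;> fin_cases j <;> simp [wrt_apply, sub_eq_add_neg]
  change LinearMap.det ((wrt a b : ℂ →L[ℝ] ℂ) : ℂ →ₗ[ℝ] ℂ) = _
  rw [← LinearMap.det_toMatrix basisOneI, h1, Matrix.det_fin_two_of, ← Complex.normSq_eq_norm_sq,
    ← Complex.normSq_eq_norm_sq, Complex.normSq_apply, Complex.normSq_apply]
  ring

lemma tau_eq (z : ℂ) : (tau z : ℂ) = (1 - z * conj z) / 2 := by
  rw [tau, Complex.mul_conj, Complex.normSq_eq_norm_sq]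
  push_cast
  ring

theorem sw_tau (z : ℂ) : SW (fun z => (tau z : ℂ)) (-conj z / 2) (-z / 2) z := by
  have h1 : SW (fun z : ℂ => z) 1 0 z := SW.of_hasStrictDerivAt (hasStrictDerivAt_id z)
  have h2 := (SW.const (1 / 2) z).add ((SW.const (-1 / 2) z).mul (h1.mul h1.conj))
  have h3 : (fun z : ℂ => (tau z : ℂ)) = fun z : ℂ => 1 / 2 + -1 / 2 * (z * conj z) := by
    funext z
    rw [tau_eq]
    ring
  rw [h3]
  refine h2.congr_coeff ?_ ?_ <;> simp <;> ring

theorem sw_EE {z : ℂ} (hf : AnalyticAt ℂ f z) (hz : z ≠ 0) :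
    SW (EE f) (Ez f z) (Ezb f z) z := by
  have hcz : conj z ≠ 0 := by simpa using hz
  have h0 : SW f (deriv f z) 0 z := SW.of_hasStrictDerivAt hf.hasStrictDerivAt
  have h1 : SW (deriv f) (deriv (deriv f) z) 0 z :=
    SW.of_hasStrictDerivAt hf.deriv.hasStrictDerivAt
  have h2 : SW (fun z : ℂ => z) 1 0 z := SW.of_hasStrictDerivAt (hasStrictDerivAt_id z)
  have h3 := h0.add (((sw_tau z).mul h1).mul (h2.conj.inv hcz))
  have h4 : EE f = fun z => f z + (tau z : ℂ) * deriv f z * (conj z)⁻¹ := by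
    funext z; rw [EE, div_eq_mul_inv]
  rw [h4]
  refine h3.congr_coeff ?_ ?_
  · rw [Ez]; simp only [map_zero, neg_zero, zero_div, mul_zero, add_zero]; field_simp; ring
  · rw [Ezb]; simp only [mul_zero, add_zero, map_one, zero_add]
    rw [tau_eq]; field_simp; ring

/-! ### Continuity -/

section cont

variable {R : ℝ}

lemma closedBall_subset_of_nice (hf : Nice f R) : closedBall (0 : ℂ) 1 ⊆ ball 0 R :=
  closedBall_subset_ball hf.one_lt

lemma nice_analyticAt (hf : Nice f R) {z : ℂ} (hz : z ∈ closedBall (0 : ℂ) 1) :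
    AnalyticAt ℂ f z :=
  hf.diff.analyticAt (isOpen_ball.mem_nhds (closedBall_subset_of_nice hf hz))

lemma nice_deriv_ne (hf : Nice f R) {z : ℂ} (hz : z ∈ closedBall (0 : ℂ) 1) : deriv f z ≠ 0 :=
  injOn_deriv_ne_zero isOpen_ball hf.diff hf.inj (closedBall_subset_of_nice hf hz)

lemma nice_continuousOn (hf : Nice f R) : ContinuousOn f (closedBall 0 1) := fun _ hz =>
  (nice_analyticAt hf hz).continuousAt.continuousWithinAt

lemma nice_continuousOn_deriv (hf : Nice f R) : ContinuousOn (deriv f) (closedBall 0 1) :=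
  fun _ hz => (nice_analyticAt hf hz).deriv.continuousAt.continuousWithinAt

lemma nice_continuousOn_deriv2 (hf : Nice f R) :
    ContinuousOn (deriv (deriv f)) (closedBall 0 1) :=
  fun _ hz => (nice_analyticAt hf hz).deriv.deriv.continuousAt.continuousWithinAt

lemma continuous_tau : Continuous tau := by
  unfold tau
  fun_prop

lemma conj_ne_of_mem {z : ℂ} (hz : z ∈ closedBall (0 : ℂ) 1 \ {0}) : conj z ≠ 0 := by
  have : z ≠ 0 := hz.2
  simpa using this

lemma nice_continuousOn_EE (hf : Nice f R) : ContinuousOn (EE f) (closedBall 0 1 \ {0}) := by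
  have h1 := (nice_continuousOn hf).mono (sdiff_subset (t := ({0} : Set ℂ)))
  have h2 := (nice_continuousOn_deriv hf).mono (sdiff_subset (t := ({0} : Set ℂ)))
  have h3 : ContinuousOn (fun z : ℂ => (tau z : ℂ)) (closedBall 0 1 \ {0}) :=
    (continuous_ofReal.comp continuous_tau).continuousOn
  exact h1.add ((h3.mul h2).div Complex.continuous_conj.continuousOn fun z hz => conj_ne_of_mem hz)

lemma nice_continuousOn_XX (hf : Nice f R) : ContinuousOn (XX f) (closedBall 0 1 \ {0}) := by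
  have h2 := (nice_continuousOn_deriv hf).mono (sdiff_subset (t := ({0} : Set ℂ)))
  exact h2.norm.div continuous_norm.continuousOn fun z hz => norm_ne_zero_iff.mpr hz.2

lemma nice_continuousOn_Ez (hf : Nice f R) : ContinuousOn (Ez f) (closedBall 0 1 \ {0}) := by
  have h1 := (nice_continuousOn_deriv2 hf).mono (sdiff_subset (t := ({0} : Set ℂ)))
  have h2 := (nice_continuousOn_deriv hf).mono (sdiff_subset (t := ({0} : Set ℂ)))
  have h3 : ContinuousOn (fun z : ℂ => (tau z : ℂ)) (closedBall 0 1 \ {0}) :=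
    (continuous_ofReal.comp continuous_tau).continuousOn
  exact (h2.div_const 2).add
    ((h3.mul h1).div Complex.continuous_conj.continuousOn fun z hz => conj_ne_of_mem hz)

lemma nice_continuousOn_Ezb (hf : Nice f R) : ContinuousOn (Ezb f) (closedBall 0 1 \ {0}) := by
  have h2 := (nice_continuousOn_deriv hf).mono (sdiff_subset (t := ({0} : Set ℂ)))
  refine h2.neg.div (continuousOn_const.mul (Complex.continuous_conj.pow 2).continuousOn) ?_
  intro z hz
  exact mul_ne_zero two_ne_zero (pow_ne_zero 2 (conj_ne_of_mem hz))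

lemma nice_continuousOn_JJ (hf : Nice f R) : ContinuousOn (JJ f) (closedBall 0 1 \ {0}) :=
  ((nice_continuousOn_Ez hf).norm.pow 2).sub ((nice_continuousOn_Ezb hf).norm.pow 2)

end cont

end H1

open H1 in
/-- Block H1. -/
theorem blockH1 : BlockH1 := by
  refine ⟨det_wrt, fun f R hf => ⟨fun z hz => nice_deriv_ne hf hz, fun z hz => ?_,
    nice_continuousOn_EE hf, nice_continuousOn_XX hf, nice_continuousOn_JJ hf⟩⟩
  exact sw_EE (nice_analyticAt hf (ball_subset_closedBall hz.1)) hz.2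

end Vale.Agent.P142.Brn
end

section

/-!
# Brennan's conjecture, block H2: `PHI f w` is continuous, proper and has the weak maximum
principle
-/

open Complex MeasureTheory Metric Set Filter Topology
open scoped Real ComplexConjugate ENNReal

namespace Vale.Agent.P142.Brn

theorem tau_pos_of_mem {z : ℂ} (hz : z ∈ ball (0 : ℂ) 1) : 0 < tau z := by
  have h : ‖z‖ < 1 := by simpa using hz
  have h0 : 0 ≤ ‖z‖ := norm_nonneg z
  unfold tau
  nlinarith

theorem continuous_tau : Continuous tau := by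
  unfold tau
  fun_prop

theorem nice_closedBall_sub {f : ℂ → ℂ} {R : ℝ} (h : Nice f R) :
    closedBall (0 : ℂ) 1 ⊆ ball 0 R := closedBall_subset_ball h.one_lt

/-- `|1 - conj p q|^2 >= (1 - |p|^2) (1 - |q|^2)` -/
theorem one_sub_conj_mul_sq (p q : ℂ) :
    (1 - ‖p‖ ^ 2) * (1 - ‖q‖ ^ 2) ≤ ‖1 - conj p * q‖ ^ 2 := by
  rw [Complex.sq_norm, Complex.sq_norm, Complex.sq_norm]
  simp only [Complex.normSq_apply, Complex.sub_re, Complex.sub_im, Complex.one_re, Complex.one_im,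
    Complex.mul_re, Complex.mul_im, Complex.conj_re, Complex.conj_im]
  nlinarith [sq_nonneg (p.re - q.re), sq_nonneg (p.im - q.im)]

theorem PHI_compact {f : ℂ → ℂ} {R : ℝ} (h : Nice f R) {w : ℂ}
    (hw : w ∉ f '' sphere (0 : ℂ) 1) (c : ℝ) :
    IsCompact {z | z ∈ ball (0 : ℂ) 1 ∧ PHI f w z ≤ c} := by
  have hcont : ContinuousOn f (closedBall (0 : ℂ) 1) :=
    h.diff.continuousOn.mono (nice_closedBall_sub h)
  have heq : {z | z ∈ ball (0 : ℂ) 1 ∧ PHI f w z ≤ c} =
      {z | z ∈ closedBall (0 : ℂ) 1 ∧ ‖f z - w‖ ≤ c * tau z} := by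
    ext z
    constructor
    · rintro ⟨hz, hz2⟩
      refine ⟨ball_subset_closedBall hz, ?_⟩
      have ht := tau_pos_of_mem hz
      unfold PHI at hz2
      rwa [div_le_iff₀ ht] at hz2
    · rintro ⟨hz, hz2⟩
      have hz1 : z ∈ ball (0 : ℂ) 1 := by
        by_contra hne
        have hs : z ∈ sphere (0 : ℂ) 1 := by
          rw [mem_sphere]
          rw [mem_closedBall] at hz
          rw [mem_ball, not_lt] at hne
          exact le_antisymm hz hne
        have h1 : ‖z‖ = 1 := by simpa using hs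
        have ht : tau z = 0 := by unfold tau; rw [h1]; norm_num
        rw [ht, mul_zero] at hz2
        have h2 : f z - w = 0 := norm_le_zero_iff.1 hz2
        exact hw ⟨z, hs, sub_eq_zero.1 h2⟩
      refine ⟨hz1, ?_⟩
      have ht := tau_pos_of_mem hz1
      unfold PHI
      rwa [div_le_iff₀ ht]
  rw [heq]
  have hclosed : IsClosed {z | z ∈ closedBall (0 : ℂ) 1 ∧ ‖f z - w‖ ≤ c * tau z} := by
    have h1 : ContinuousOn (fun z => ‖f z - w‖) (closedBall (0 : ℂ) 1) :=
      (hcont.sub continuousOn_const).norm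
    have h2 : ContinuousOn (fun z => c * tau z) (closedBall (0 : ℂ) 1) :=
      (continuous_const.mul continuous_tau).continuousOn
    exact isClosed_closedBall.isClosed_le h1 h2
  exact (isCompact_closedBall (0 : ℂ) 1).of_isClosed_subset hclosed (fun z hz => hz.1)

theorem PHI_weakMax {f : ℂ → ℂ} {R : ℝ} (h : Nice f R) (w : ℂ) : WeakMax (PHI f w) := by
  intro O hO hcl p hp
  have hOb : O ⊆ ball (0 : ℂ) 1 := subset_closure.trans hcl
  have hp1 : p ∈ ball (0 : ℂ) 1 := hOb hp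
  have hpn : ‖p‖ < 1 := by simpa using hp1
  have hden : ∀ z ∈ closure O, (1 : ℂ) - conj p * z ≠ 0 := by
    intro z hz h0
    have hz1 : ‖z‖ < 1 := by simpa using hcl hz
    have h1 : conj p * z = 1 := (sub_eq_zero.1 h0).symm
    have h2 : ‖p‖ * ‖z‖ = 1 := by
      have := congrArg norm h1
      rwa [norm_mul, RCLike.norm_conj, norm_one] at this
    have := norm_nonneg p
    have := norm_nonneg z
    nlinarith
  let P : ℂ → ℂ := fun z => (f z - w) * (((1 - ‖p‖ ^ 2 : ℝ) : ℂ) / (1 - conj p * z)) ^ 2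
  have hPd : DifferentiableOn ℂ P (closure O) := by
    have hf : DifferentiableOn ℂ f (closure O) :=
      h.diff.mono (hcl.trans (ball_subset_closedBall.trans (nice_closedBall_sub h)))
    have h1 : DifferentiableOn ℂ (fun z : ℂ => (1 : ℂ) - conj p * z) (closure O) := by
      fun_prop
    exact (hf.sub (differentiableOn_const w)).mul
      (((differentiableOn_const _).div h1 hden).pow 2)
  have hdiff : DiffContOnCl ℂ P O := hPd.diffContOnCl
  have hbdd : Bornology.IsBounded O := isBounded_ball.subset hOb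
  obtain ⟨q, hq, hmax⟩ := Complex.exists_mem_frontier_isMaxOn_norm hbdd ⟨p, hp⟩ hdiff
  refine ⟨q, hq, ?_⟩
  have hqc : q ∈ closure O := frontier_subset_closure hq
  have hq1 : q ∈ ball (0 : ℂ) 1 := hcl hqc
  have hle : ‖P p‖ ≤ ‖P q‖ := hmax (subset_closure hp)
  have htp := tau_pos_of_mem hp1
  have htq := tau_pos_of_mem hq1
  have hPp : ‖P p‖ = ‖f p - w‖ := by
    have h1 : (1 : ℂ) - conj p * p = ((1 - ‖p‖ ^ 2 : ℝ) : ℂ) := by
      rw [Complex.conj_mul']
      push_cast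
      ring
    have h2 : (((1 - ‖p‖ ^ 2 : ℝ) : ℂ)) ≠ 0 := by
      rw [← h1]; exact hden p (subset_closure hp)
    show ‖(f p - w) * (((1 - ‖p‖ ^ 2 : ℝ) : ℂ) / (1 - conj p * p)) ^ 2‖ = _
    rw [h1, div_self h2, one_pow, mul_one]
  have hPq : ‖P q‖ = ‖f q - w‖ * ((1 - ‖p‖ ^ 2) ^ 2 / ‖1 - conj p * q‖ ^ 2) := by
    show ‖(f q - w) * (((1 - ‖p‖ ^ 2 : ℝ) : ℂ) / (1 - conj p * q)) ^ 2‖ = _
    rw [norm_mul, norm_pow, norm_div, div_pow, Complex.norm_real, Real.norm_eq_abs, sq_abs]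
  have hA : 0 < 1 - ‖p‖ ^ 2 := by
    have : 0 < (1 - ‖p‖ ^ 2) / 2 := htp
    linarith only [this]
  have hB : 0 < 1 - ‖q‖ ^ 2 := by
    have : 0 < (1 - ‖q‖ ^ 2) / 2 := htq
    linarith only [this]
  have hD : 0 < ‖1 - conj p * q‖ ^ 2 := by
    have := norm_pos_iff.2 (hden q hqc)
    positivity
  have hI := one_sub_conj_mul_sq p q
  have hkey : ‖f p - w‖ ≤ ‖f q - w‖ * ((1 - ‖p‖ ^ 2) / (1 - ‖q‖ ^ 2)) := by
    rw [← hPp]
    refine hle.trans ?_
    rw [hPq]
    refine mul_le_mul_of_nonneg_left ?_ (norm_nonneg _)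
    rw [div_le_div_iff₀ hD hB]
    nlinarith only [hA, hI]
  unfold PHI tau
  rw [div_le_div_iff₀ (by linarith only [hA]) (by linarith only [hB])]
  have h3 : ‖f p - w‖ * (1 - ‖q‖ ^ 2) ≤ ‖f q - w‖ * (1 - ‖p‖ ^ 2) := by
    have := mul_le_mul_of_nonneg_right hkey hB.le
    rwa [mul_assoc, div_mul_cancel₀ _ hB.ne'] at this
  linarith only [h3]

/-- Block H2. -/
theorem blockH2 : BlockH2 := by
  intro f R h w hw
  refine ⟨?_, fun c => PHI_compact h hw c, PHI_weakMax h w⟩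
  have hf : ContinuousOn f (ball (0 : ℂ) 1) :=
    h.diff.continuousOn.mono (ball_subset_closedBall.trans (nice_closedBall_sub h))
  unfold PHI
  exact ((hf.sub continuousOn_const).norm).div continuous_tau.continuousOn
    (fun z hz => (tau_pos_of_mem hz).ne')

end Vale.Agent.P142.Brn
end

section

open Complex MeasureTheory Metric Set Filter Topology
open scoped Real ComplexConjugate ENNReal

namespace Vale.Agent.P142.Brn

/-- Second order expansion of a holomorphic function. -/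
lemma h3_expand {f : ℂ → ℂ} {U : Set ℂ} (hU : IsOpen U) (hf : DifferentiableOn ℂ f U) {q : ℂ}
    (hq : q ∈ U) : ∃ F : ℂ → ℂ, ContinuousAt F 0 ∧ F 0 = deriv (deriv f) q / 2 ∧
      ∀ h, f (q + h) = f q + deriv f q * h + h ^ 2 * F h := by
  have hfa : DifferentiableAt ℂ f q := hf.differentiableAt (hU.mem_nhds hq)
  -- first slope
  set g : ℂ → ℂ := dslope f q with hg
  have hgd : DifferentiableOn ℂ g U := (differentiableOn_dslope (hU.mem_nhds hq)).mpr hf
  set k : ℂ → ℂ := dslope g q with hk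
  have hkd : DifferentiableOn ℂ k U := (differentiableOn_dslope (hU.mem_nhds hq)).mpr hgd
  have hgq : g q = deriv f q := dslope_same f q
  have hkq : k q = deriv g q := dslope_same g q
  have e1 : ∀ z, f z = f q + (z - q) * g z := by
    intro z
    have := sub_smul_dslope f q z
    simp only [smul_eq_mul] at this
    rw [hg, this]; ring
  have e2 : ∀ z, g z = g q + (z - q) * k z := by
    intro z
    have := sub_smul_dslope g q z
    simp only [smul_eq_mul] at this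
    rw [hk, this]; ring
  have e3 : ∀ z, f z = f q + deriv f q * (z - q) + (z - q) ^ 2 * k z := by
    intro z
    rw [e1 z, e2 z, hgq]; ring
  -- second derivative
  have hkc : ContinuousAt k q := (hkd.differentiableAt (hU.mem_nhds hq)).continuousAt
  have hd2 : deriv (deriv f) q = 2 * k q := by
    have h1 : ∀ᶠ z in 𝓝 q, deriv f z = deriv f q + 2 * (z - q) * k z + (z - q) ^ 2 * deriv k z := by
      filter_upwards [hU.mem_nhds hq] with z hz
      have hkz : HasDerivAt k (deriv k z) z := (hkd.differentiableAt (hU.mem_nhds hz)).hasDerivAt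
      have h2 : HasDerivAt (fun z => f q + deriv f q * (z - q) + (z - q) ^ 2 * k z)
          (deriv f q * 1 + ((2 : ℕ) * (z - q) ^ (2 - 1) * 1 * k z + (z - q) ^ 2 * deriv k z)) z := by
        have a1 : HasDerivAt (fun z : ℂ => z - q) 1 z := (hasDerivAt_id z).sub_const q
        have a2 := (a1.const_mul (deriv f q)).const_add (f q)
        exact a2.add ((a1.pow 2).mul hkz)
      have h3 : f = fun z => f q + deriv f q * (z - q) + (z - q) ^ 2 * k z := funext e3
      have h4 := h2.deriv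
      rw [← h3] at h4
      rw [h4]; push_cast; ring
    have hk1 : HasDerivAt k (deriv k q) q := (hkd.differentiableAt (hU.mem_nhds hq)).hasDerivAt
    have hdk : DifferentiableAt ℂ (deriv k) q :=
      ((hkd.deriv hU).differentiableAt (hU.mem_nhds hq))
    have a1 : HasDerivAt (fun z : ℂ => z - q) 1 q := (hasDerivAt_id q).sub_const q
    have h2 : HasDerivAt (fun z => deriv f q + 2 * (z - q) * k z + (z - q) ^ 2 * deriv k z)
        (2 * 1 * k q + 2 * (q - q) * deriv k q +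
          ((2 : ℕ) * (q - q) ^ (2 - 1) * 1 * deriv k q + (q - q) ^ 2 * deriv (deriv k) q)) q := by
      have b1 := ((a1.const_mul 2).mul hk1).const_add (deriv f q)
      exact b1.add ((a1.pow 2).mul hdk.hasDerivAt)
    have h3 := (h2.congr_of_eventuallyEq h1).deriv
    rw [h3]; simp
  refine ⟨fun h => k (q + h), ?_, ?_, ?_⟩
  · have : ContinuousAt (fun h : ℂ => q + h) 0 := by fun_prop
    exact ContinuousAt.comp (g := k) (by simpa using hkc) this
  · simp [hd2]
  · intro h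
    rw [e3 (q + h)]; ring

/-- The key algebraic identity. -/
lemma h3_tau {q z : ℂ} :
    (1 - ‖z‖ ^ 2) * (1 - ‖q‖ ^ 2) = ‖1 - conj q * z‖ ^ 2 - ‖z - q‖ ^ 2 := by
  have e : ∀ a : ℂ, ‖a‖ ^ 2 = a.re * a.re + a.im * a.im := fun a => by
    rw [← Complex.normSq_eq_norm_sq, Complex.normSq_apply]
  rw [e, e, e, e]
  simp only [sub_re, one_re, mul_re, conj_re, conj_im, neg_mul, sub_neg_eq_add, sub_im, one_im, mul_im, zero_sub, neg_add_rev, neg_neg]
  ring


lemma h3_den {q : ℂ} (hq : q ∈ ball (0 : ℂ) 1) : 0 < 1 - ‖q‖ ^ 2 := by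
  have : ‖q‖ < 1 := mem_ball_zero_iff.mp hq
  nlinarith [norm_nonneg q]

/-- The normalised function `P`. -/
noncomputable def h3P (f : ℂ → ℂ) (w q h : ℂ) : ℂ :=
  (f (q + h) - w) / (f q - w) * ((1 - ‖q‖ ^ 2 : ℝ) / (1 - conj q * (q + h))) ^ 2

/-- The factor `S`. -/
noncomputable def h3S (q h : ℂ) : ℝ := 1 - ‖h‖ ^ 2 / ‖1 - conj q * (q + h)‖ ^ 2

lemma h3_ne {q z : ℂ} (hq : q ∈ ball (0 : ℂ) 1) (hz : z ∈ ball (0 : ℂ) 1) :
    1 - conj q * z ≠ 0 := by
  intro h
  have h1 : conj q * z = 1 := by linear_combination -h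
  have h2 : ‖q‖ * ‖z‖ = 1 := by
    have := congrArg norm h1
    rwa [norm_mul, Complex.norm_conj, norm_one] at this
  have h3 : ‖q‖ < 1 := mem_ball_zero_iff.mp hq
  have h4 : ‖z‖ < 1 := mem_ball_zero_iff.mp hz
  nlinarith only [h2, h4, h3, norm_nonneg z]

lemma h3_phi {f : ℂ → ℂ} {w q h : ℂ} (hq : q ∈ ball (0 : ℂ) 1) (hz : q + h ∈ ball (0 : ℂ) 1)
    (hw : f q ≠ w) : PHI f w (q + h) * h3S q h = PHI f w q * ‖h3P f w q h‖ := by
  have hne := h3_ne hq hz
  have hm : 0 < ‖1 - conj q * (q + h)‖ := norm_pos_iff.mpr hne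
  have hq1 := h3_den hq
  have hz1 := h3_den hz
  have h0 : 0 < ‖f q - w‖ := norm_pos_iff.mpr (sub_ne_zero.mpr hw)
  have hS : h3S q h = (1 - ‖q + h‖ ^ 2) * (1 - ‖q‖ ^ 2) / ‖1 - conj q * (q + h)‖ ^ 2 := by
    rw [h3S, h3_tau]
    have : q + h - q = h := by ring
    rw [this]
    (clear * - hne; field_simp)
  rw [hS, h3P, norm_mul, norm_div, norm_pow, norm_div, Complex.norm_real, Real.norm_eq_abs,
    abs_of_pos hq1]
  unfold PHI tau
  (clear * - hz1 h0 hq1; field_simp)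

lemma h3_S_pos {q h : ℂ} (hq : q ∈ ball (0 : ℂ) 1) (hz : q + h ∈ ball (0 : ℂ) 1) :
    0 < h3S q h := by
  have hne := h3_ne hq hz
  have hm : 0 < ‖1 - conj q * (q + h)‖ := norm_pos_iff.mpr hne
  have hS : h3S q h = (1 - ‖q + h‖ ^ 2) * (1 - ‖q‖ ^ 2) / ‖1 - conj q * (q + h)‖ ^ 2 := by
    rw [h3S, h3_tau]
    have : q + h - q = h := by ring
    rw [this]
    field_simp
  rw [hS]
  have := h3_den hq
  have := h3_den hz
  (clear hm hS; positivity)

lemma h3_phi_pos {f : ℂ → ℂ} {w q : ℂ} (hq : q ∈ ball (0 : ℂ) 1) (hw : f q ≠ w) :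
    0 < PHI f w q := by
  have h0 : 0 < ‖f q - w‖ := norm_pos_iff.mpr (sub_ne_zero.mpr hw)
  have := h3_den hq
  unfold PHI tau
  positivity

lemma h3_lt {f : ℂ → ℂ} {w q h : ℂ} (hq : q ∈ ball (0 : ℂ) 1) (hz : q + h ∈ ball (0 : ℂ) 1)
    (hw : f q ≠ w) (h1 : ‖h3P f w q h‖ ^ 2 - h3S q h ^ 2 < 0) : PHI f w (q + h) < PHI f w q := by
  have hS := h3_S_pos hq hz
  have hlt : ‖h3P f w q h‖ < h3S q h := by
    by_contra hc
    rw [not_lt] at hc
    nlinarith [norm_nonneg (h3P f w q h)]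
  have e := h3_phi hq hz hw
  have hp := h3_phi_pos hq hw
  have : PHI f w (q + h) * h3S q h < PHI f w q * h3S q h := by
    rw [e]; exact mul_lt_mul_of_pos_left hlt hp
  exact lt_of_mul_lt_mul_right this hS.le

lemma h3_gt {f : ℂ → ℂ} {w q h : ℂ} (hq : q ∈ ball (0 : ℂ) 1) (hz : q + h ∈ ball (0 : ℂ) 1)
    (hw : f q ≠ w) (h1 : 0 < ‖h3P f w q h‖ ^ 2 - h3S q h ^ 2) : PHI f w q < PHI f w (q + h) := by
  have hS := h3_S_pos hq hz
  have hlt : h3S q h < ‖h3P f w q h‖ := by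
    by_contra hc
    rw [not_lt] at hc
    nlinarith only [h1, hc, norm_nonneg (h3P f w q h)]
  have e := h3_phi hq hz hw
  have hp := h3_phi_pos hq hw
  have : PHI f w q * h3S q h < PHI f w (q + h) * h3S q h := by
    rw [e]; exact mul_lt_mul_of_pos_left hlt hp
  exact lt_of_mul_lt_mul_right this hS.le

/-- Expansion of `P`. -/
lemma h3_P_expand {f : ℂ → ℂ} {R : ℝ} (hf : Nice f R) {w q : ℂ} (hq : q ∈ ball (0 : ℂ) 1)
    (hw : f q ≠ w) : ∃ T : ℂ → ℂ, ContinuousAt T 0 ∧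
      T 0 = deriv (deriv f) q / (2 * (f q - w)) + 3 * (conj q / (1 - ‖q‖ ^ 2 : ℝ)) ^ 2 +
        2 * (conj q / (1 - ‖q‖ ^ 2 : ℝ)) * (deriv f q / (f q - w)) ∧
      ∀ h, q + h ∈ ball (0 : ℂ) 1 → h3P f w q h =
        1 + (deriv f q / (f q - w) + 2 * (conj q / (1 - ‖q‖ ^ 2 : ℝ))) * h + h ^ 2 * T h := by
  have hball : ball (0 : ℂ) 1 ⊆ ball 0 R := ball_subset_ball hf.one_lt.le
  obtain ⟨F, hF1, hF2, hF3⟩ := h3_expand isOpen_ball hf.diff (hball hq)
  have hq1 := h3_den hq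
  have hs : ((1 - ‖q‖ ^ 2 : ℝ) : ℂ) ≠ 0 := by exact_mod_cast hq1.ne'
  have hN : f q - w ≠ 0 := sub_ne_zero.mpr hw
  set u : ℂ := conj q / (1 - ‖q‖ ^ 2 : ℝ) with hu
  set a : ℂ := deriv f q / (f q - w) with ha
  set b : ℂ → ℂ := fun h => F h / (f q - w) with hb
  set d : ℂ → ℂ := fun h => (3 * u ^ 2 - 2 * u ^ 3 * h) / (1 - u * h) ^ 2 with hd
  have hbc : ContinuousAt b 0 := hF1.div_const _
  have hdc : ContinuousAt d 0 := by
    apply ContinuousAt.div
    · fun_prop
    · fun_prop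
    · simp
  refine ⟨fun h => b h + d h + 2 * u * a + h * (a * d h + 2 * u * b h) + h ^ 2 * (b h * d h),
    ?_, ?_, ?_⟩
  · have hid : ContinuousAt (fun h : ℂ => h) 0 := continuousAt_id
    exact (((hbc.add hdc).add continuousAt_const).add
      (hid.mul ((continuousAt_const.mul hdc).add (continuousAt_const.mul hbc)))).add
      ((hid.pow 2).mul (hbc.mul hdc))
  · simp only [hb, hd, hF2]
    field_simp
    ring
  · intro h hz
    have hne := h3_ne hq hz
    have hcq : conj q * q = ((‖q‖ ^ 2 : ℝ) : ℂ) := by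
      rw [mul_comm, Complex.mul_conj, Complex.normSq_eq_norm_sq]
    have e1 : 1 - conj q * (q + h) = ((1 - ‖q‖ ^ 2 : ℝ) : ℂ) * (1 - u * h) := by
      rw [hu, mul_add, hcq]
      push_cast
      push_cast at hs
      field_simp
      ring
    have hne2 : 1 - u * h ≠ 0 := by
      intro h2
      rw [e1, h2, mul_zero] at hne
      exact hne rfl
    have e2 : (1 - ‖q‖ ^ 2 : ℝ) / (1 - conj q * (q + h)) = 1 / (1 - u * h) := by
      rw [e1]; field_simp
    have e3 : (f (q + h) - w) / (f q - w) = 1 + a * h + h ^ 2 * b h := by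
      rw [hF3 h, ha, hb]; field_simp; ring
    have hd' : d h * (1 - u * h) ^ 2 = 3 * u ^ 2 - 2 * u ^ 3 * h :=
      div_mul_cancel₀ _ (pow_ne_zero 2 hne2)
    rw [h3P, e2, e3, div_pow, one_pow, mul_one_div, div_eq_iff (pow_ne_zero 2 hne2)]
    linear_combination (-(h ^ 2 * (1 + a * h + h ^ 2 * b h))) * hd'


lemma h3_norm_sq (a : ℂ) : ‖a‖ ^ 2 = a.re * a.re + a.im * a.im := by
  rw [← Complex.normSq_eq_norm_sq, Complex.normSq_apply]

lemma h3_one_add (y : ℝ) (v : ℂ) :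
    ‖1 + (y : ℂ) * v‖ ^ 2 = 1 + 2 * y * v.re + y ^ 2 * ‖v‖ ^ 2 := by
  rw [h3_norm_sq, h3_norm_sq v]
  simp
  ring

lemma h3_inball {q : ℂ} (hq : q ∈ ball (0 : ℂ) 1) (e : ℂ) :
    ∀ᶠ x : ℝ in 𝓝 0, q + x * e ∈ ball (0 : ℂ) 1 := by
  have : ContinuousAt (fun x : ℝ => q + x * e) 0 := by (clear * -; fun_prop)
  apply this.eventually_mem
  simpa using isOpen_ball.mem_nhds hq

/-- First order: a descending direction exists when the linear coefficient is not zero. -/
lemma h3_first {f : ℂ → ℂ} {R : ℝ} (hf : Nice f R) {w q : ℂ} (hq : q ∈ ball (0 : ℂ) 1)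
    (hw : f q ≠ w) {e : ℂ} (he : ‖e‖ = 1)
    (hc : ((deriv f q / (f q - w) + 2 * (conj q / (1 - ‖q‖ ^ 2 : ℝ))) * e).re < 0) :
    ∀ᶠ x : ℝ in 𝓝 0, 0 < x → PHI f w (q + x * e) < PHI f w q := by
  obtain ⟨T, hT1, -, hT3⟩ := h3_P_expand hf hq hw
  set c : ℂ := deriv f q / (f q - w) + 2 * (conj q / (1 - ‖q‖ ^ 2 : ℝ)) with hcdef
  have hq1 := h3_den hq
  set G : ℝ → ℝ := fun x => 2 * (e * (c + x * e * T (x * e))).re +
    x * ‖e * (c + x * e * T (x * e))‖ ^ 2 +
    x * (2 / ‖1 - conj q * (q + x * e)‖ ^ 2 - x ^ 2 / (‖1 - conj q * (q + x * e)‖ ^ 2) ^ 2) with hG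
  have hx : ContinuousAt (fun x : ℝ => ((x : ℂ) * e)) 0 := by (clear * -; fun_prop)
  have hTx : ContinuousAt (fun x : ℝ => T (x * e)) 0 :=
    ContinuousAt.comp (g := T) (by simpa using hT1) hx
  have hTT : ContinuousAt (fun x : ℝ => e * (c + x * e * T (x * e))) 0 :=
    continuousAt_const.mul (continuousAt_const.add (hx.mul hTx))
  have hm : ContinuousAt (fun x : ℝ => ‖1 - conj q * (q + x * e)‖ ^ 2) 0 := by (clear * -; fun_prop)
  have hne0 : ‖1 - conj q * (q + (0 : ℝ) * e)‖ ^ 2 ≠ 0 := by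
    have := h3_ne hq hq
    simpa using this
  have hGc : ContinuousAt G 0 := by
    apply ContinuousAt.add
    · apply ContinuousAt.add
      · exact continuousAt_const.mul (Complex.continuous_re.continuousAt.comp hTT)
      · exact continuousAt_id.mul ((hTT.norm).pow 2)
    · apply ContinuousAt.mul continuousAt_id
      apply ContinuousAt.sub
      · exact continuousAt_const.div hm hne0
      · exact (continuousAt_id.pow 2).div (hm.pow 2) (pow_ne_zero 2 hne0)
  have hG0 : G 0 < 0 := by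
    simp only [hG]
    have : (e * c).re = (c * e).re := by rw [mul_comm]
    simp
    rw [← Complex.mul_re, this]
    linarith only [hc]
  filter_upwards [hGc.eventually_lt_const hG0, h3_inball hq e] with x hxG hxb hx0
  apply h3_lt hq hxb hw
  have hP := hT3 (x * e) hxb
  have hform : h3P f w q (x * e) = 1 + x * (e * (c + x * e * T (x * e))) := by
    rw [hP]; ring
  have hS : h3S q (x * e) = 1 - x ^ 2 / ‖1 - conj q * (q + x * e)‖ ^ 2 := by
    rw [h3S, norm_mul, he, Complex.norm_real, Real.norm_eq_abs, mul_one, sq_abs]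
  have hpos : 0 < ‖1 - conj q * (q + x * e)‖ ^ 2 := by
    have := h3_ne hq hxb
    positivity
  have key : ‖h3P f w q (x * e)‖ ^ 2 - h3S q (x * e) ^ 2 = x * G x := by
    rw [hform, hS]
    simp only [hG]
    set v : ℂ := e * (c + x * e * T (x * e))
    set m : ℝ := ‖1 - conj q * (q + x * e)‖ ^ 2
    have h1 : ‖1 + x * v‖ ^ 2 = 1 + 2 * x * v.re + x ^ 2 * ‖v‖ ^ 2 := by
      rw [h3_norm_sq, h3_norm_sq v]
      simp
      ring
    rw [h1]
    field_simp
    ring
  rw [key]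
  exact mul_neg_of_pos_of_neg hx0 hxG

/-- Second order comparison along a direction. -/
lemma h3_second {f : ℂ → ℂ} {R : ℝ} (hf : Nice f R) {w q : ℂ} (hq : q ∈ ball (0 : ℂ) 1)
    (hw : f q ≠ w) (hc : deriv f q / (f q - w) + 2 * (conj q / (1 - ‖q‖ ^ 2 : ℝ)) = 0)
    {e : ℂ} (he : ‖e‖ = 1) :
    (((e ^ 2 * (deriv (deriv f) q / (2 * (f q - w)) -
        (conj q / (1 - ‖q‖ ^ 2 : ℝ)) ^ 2)).re + 1 / (1 - ‖q‖ ^ 2) ^ 2 < 0) →
      ∀ᶠ x : ℝ in 𝓝 0, x ≠ 0 → PHI f w (q + x * e) < PHI f w q) ∧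
    ((0 < (e ^ 2 * (deriv (deriv f) q / (2 * (f q - w)) -
        (conj q / (1 - ‖q‖ ^ 2 : ℝ)) ^ 2)).re + 1 / (1 - ‖q‖ ^ 2) ^ 2) →
      ∀ᶠ x : ℝ in 𝓝 0, x ≠ 0 → PHI f w q < PHI f w (q + x * e)) := by
  obtain ⟨T, hT1, hT2, hT3⟩ := h3_P_expand hf hq hw
  have hq1 := h3_den hq
  have hT0 : T 0 = deriv (deriv f) q / (2 * (f q - w)) - (conj q / (1 - ‖q‖ ^ 2 : ℝ)) ^ 2 := by
    rw [hT2]
    have : deriv f q / (f q - w) = -(2 * (conj q / (1 - ‖q‖ ^ 2 : ℝ))) :=
      eq_neg_of_add_eq_zero_left hc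
    rw [this]; ring
  rw [← hT0]
  set G : ℝ → ℝ := fun x => 2 * (e ^ 2 * T (x * e)).re +
    x ^ 2 * ‖e ^ 2 * T (x * e)‖ ^ 2 +
    (2 / ‖1 - conj q * (q + x * e)‖ ^ 2 - x ^ 2 / (‖1 - conj q * (q + x * e)‖ ^ 2) ^ 2) with hG
  have hx : ContinuousAt (fun x : ℝ => ((x : ℂ) * e)) 0 := by (clear * -; fun_prop)
  have hTx : ContinuousAt (fun x : ℝ => T (x * e)) 0 :=
    ContinuousAt.comp (g := T) (by simpa using hT1) hx
  have hTT : ContinuousAt (fun x : ℝ => e ^ 2 * T (x * e)) 0 := continuousAt_const.mul hTx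
  have hm : ContinuousAt (fun x : ℝ => ‖1 - conj q * (q + x * e)‖ ^ 2) 0 := by (clear * -; fun_prop)
  have hne0 : ‖1 - conj q * (q + (0 : ℝ) * e)‖ ^ 2 ≠ 0 := by
    have := h3_ne hq hq
    simpa using this
  have hGc : ContinuousAt G 0 := by
    apply ContinuousAt.add
    · apply ContinuousAt.add
      · exact continuousAt_const.mul (Complex.continuous_re.continuousAt.comp hTT)
      · exact (continuousAt_id.pow 2).mul ((hTT.norm).pow 2)
    · apply ContinuousAt.sub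
      · exact continuousAt_const.div hm hne0
      · exact (continuousAt_id.pow 2).div (hm.pow 2) (pow_ne_zero 2 hne0)
  have hcq : conj q * q = ((‖q‖ ^ 2 : ℝ) : ℂ) := by
    rw [mul_comm, Complex.mul_conj, Complex.normSq_eq_norm_sq]
  have hG0 : G 0 = 2 * ((e ^ 2 * T 0).re + 1 / (1 - ‖q‖ ^ 2) ^ 2) := by
    simp only [hG]
    have h1 : ‖1 - conj q * (q + ((0 : ℝ) : ℂ) * e)‖ = 1 - ‖q‖ ^ 2 := by
      rw [Complex.ofReal_zero, zero_mul, add_zero, hcq, ← Complex.ofReal_one,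
        ← Complex.ofReal_sub, Complex.norm_real, Real.norm_eq_abs, abs_of_pos hq1]
    rw [h1, Complex.ofReal_zero, zero_mul]
    ring
  have key : ∀ x : ℝ, q + x * e ∈ ball (0 : ℂ) 1 →
      ‖h3P f w q (x * e)‖ ^ 2 - h3S q (x * e) ^ 2 = x ^ 2 * G x := by
    intro x hxb
    have hP := hT3 (x * e) hxb
    have hform : h3P f w q (x * e) = 1 + x ^ 2 * (e ^ 2 * T (x * e)) := by
      rw [hP, hc]; ring
    have hS : h3S q (x * e) = 1 - x ^ 2 / ‖1 - conj q * (q + x * e)‖ ^ 2 := by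
      rw [h3S, norm_mul, he, Complex.norm_real, Real.norm_eq_abs, mul_one, sq_abs]
    have hpos : 0 < ‖1 - conj q * (q + x * e)‖ ^ 2 := by
      have := h3_ne hq hxb
      positivity
    rw [hform, hS]
    simp only [hG]
    set v : ℂ := e ^ 2 * T (x * e)
    set m : ℝ := ‖1 - conj q * (q + x * e)‖ ^ 2
    have h1 : ‖1 + (x : ℂ) ^ 2 * v‖ ^ 2 = 1 + 2 * x ^ 2 * v.re + x ^ 4 * ‖v‖ ^ 2 := by
      rw [← Complex.ofReal_pow, h3_one_add]
      ring
    rw [h1]
    field_simp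
    ring
  constructor
  · intro hneg
    have hG0' : G 0 < 0 := by rw [hG0]; linarith only [hneg]
    filter_upwards [hGc.eventually_lt_const hG0', h3_inball hq e] with x hxG hxb hx0
    apply h3_lt hq hxb hw
    rw [key x hxb]
    exact mul_neg_of_pos_of_neg (by (clear * - hx0; positivity)) hxG
  · intro hpos
    have hG0' : 0 < G 0 := by rw [hG0]; linarith only [hpos]
    filter_upwards [hGc.eventually_const_lt hG0', h3_inball hq e] with x hxG hxb hx0
    apply h3_gt hq hxb hw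
    rw [key x hxb]
    (clear * - hx0 hxG; positivity)


lemma h3_crit {f : ℂ → ℂ} {w z : ℂ} (hz : z ∈ ball (0 : ℂ) 1) (h0 : z ≠ 0)
    (hd : deriv f z ≠ 0) (hE : EE f z = w) :
    f z ≠ w ∧ PHI f w z = XX f z ∧ f z - w = -((tau z : ℂ) * deriv f z / conj z) ∧
      deriv f z / (f z - w) + 2 * (conj z / (1 - ‖z‖ ^ 2 : ℝ)) = 0 := by
  have hq1 := h3_den hz
  have ht : 0 < tau z := by unfold tau; linarith
  have htc : (tau z : ℂ) ≠ 0 := by exact_mod_cast ht.ne'
  have hcz : conj z ≠ 0 := by simpa using h0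
  have e1 : f z - w = -((tau z : ℂ) * deriv f z / conj z) := by
    rw [← hE, EE]; ring
  have hne : f z - w ≠ 0 := by
    rw [e1]
    exact neg_ne_zero.mpr (div_ne_zero (mul_ne_zero htc hd) hcz)
  refine ⟨sub_ne_zero.mp hne, ?_, e1, ?_⟩
  · unfold PHI XX
    rw [e1, norm_neg, norm_div, norm_mul, Complex.norm_real, Real.norm_eq_abs, abs_of_pos ht,
      Complex.norm_conj]
    have : 0 < ‖z‖ := norm_pos_iff.mpr h0
    field_simp
  · rw [e1]
    have h2 : ((1 - ‖z‖ ^ 2 : ℝ) : ℂ) = 2 * (tau z : ℂ) := by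
      unfold tau; push_cast; ring
    rw [h2]
    field_simp
    ring

/-- The second order coefficient in terms of `Ez`. -/
lemma h3_beta {f : ℂ → ℂ} {w z : ℂ} (hz : z ∈ ball (0 : ℂ) 1) (h0 : z ≠ 0)
    (hd : deriv f z ≠ 0) (hE : EE f z = w) (hJ : 0 < JJ f z) :
    1 / (1 - ‖z‖ ^ 2) ^ 2 <
      ‖deriv (deriv f) z / (2 * (f z - w)) - (conj z / (1 - ‖z‖ ^ 2 : ℝ)) ^ 2‖ := by
  obtain ⟨-, -, e1, -⟩ := h3_crit hz h0 hd hE
  have hq1 := h3_den hz
  have ht : 0 < tau z := by unfold tau; linarith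
  have htc : (tau z : ℂ) ≠ 0 := by exact_mod_cast ht.ne'
  have hcz : conj z ≠ 0 := by simpa using h0
  have hz0 : 0 < ‖z‖ := norm_pos_iff.mpr h0
  have hd0 : 0 < ‖deriv f z‖ := norm_pos_iff.mpr hd
  have h2 : ((1 - ‖z‖ ^ 2 : ℝ) : ℂ) = 2 * (tau z : ℂ) := by
    unfold tau; push_cast; ring
  have h2' : 1 - ‖z‖ ^ 2 = 2 * tau z := by unfold tau; ring
  have e2 : deriv (deriv f) z / (2 * (f z - w)) - (conj z / (1 - ‖z‖ ^ 2 : ℝ)) ^ 2 =
      -((conj z) ^ 2 / (2 * (tau z : ℂ) ^ 2 * deriv f z)) * Ez f z := by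
    rw [e1, h2, Ez]
    field_simp
    ring
  rw [e2, norm_mul, norm_neg, norm_div, norm_mul, norm_mul, norm_pow, norm_pow,
    Complex.norm_conj, Complex.norm_real, Real.norm_eq_abs, abs_of_pos ht, h2']
  have h3 : ‖Ezb f z‖ < ‖Ez f z‖ := by
    unfold JJ at hJ
    by_contra hc
    rw [not_lt] at hc
    nlinarith only [hJ, hc, norm_nonneg (Ez f z)]
  have h4 : ‖Ezb f z‖ = ‖deriv f z‖ / (2 * ‖z‖ ^ 2) := by
    unfold Ezb
    rw [norm_div, norm_neg, norm_mul, norm_pow, Complex.norm_conj]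
    norm_num
  rw [h4] at h3
  have h5 : ‖(2 : ℂ)‖ = 2 := by norm_num
  rw [h5]
  calc 1 / (2 * tau z) ^ 2 = ‖z‖ ^ 2 / (2 * tau z ^ 2 * ‖deriv f z‖) *
        (‖deriv f z‖ / (2 * ‖z‖ ^ 2)) := by field_simp
    _ < _ := mul_lt_mul_of_pos_left h3 (by positivity)

lemma h3_dir (b : ℂ) : ∃ e : ℂ, ‖e‖ = 1 ∧ e ^ 2 * b = -(‖b‖ : ℂ) := by
  refine ⟨cexp (((π - b.arg) / 2 : ℝ) * I), Complex.norm_exp_ofReal_mul_I _, ?_⟩
  have h1 : b = ‖b‖ * cexp (b.arg * I) := (Complex.norm_mul_exp_arg_mul_I b).symm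
  rw [← Complex.exp_nat_mul]
  calc cexp ((2 : ℕ) * (((π - b.arg) / 2 : ℝ) * I)) * b
      = cexp ((2 : ℕ) * (((π - b.arg) / 2 : ℝ) * I)) * (‖b‖ * cexp (b.arg * I)) := by
        rw [← h1]
    _ = ‖b‖ * (cexp ((2 : ℕ) * (((π - b.arg) / 2 : ℝ) * I)) * cexp (b.arg * I)) := by ring
    _ = ‖b‖ * cexp (π * I) := by
        rw [← Complex.exp_add]; congr 2; push_cast; ring
    _ = _ := by rw [Complex.exp_pi_mul_I]; ring

lemma h3_saddle {f : ℂ → ℂ} {R : ℝ} (hf : Nice f R) (hdf : ∀ z ∈ ball (0 : ℂ) 1, deriv f z ≠ 0)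
    {w z : ℂ} (hz : z ∈ ball (0 : ℂ) 1) (h0 : z ≠ 0) (hE : EE f z = w) (hJ : 0 < JJ f z) :
    SaddleAt (PHI f w) z := by
  obtain ⟨hw, -, -, hc⟩ := h3_crit hz h0 (hdf z hz) hE
  have hb := h3_beta hz h0 (hdf z hz) hE hJ
  set b : ℂ := deriv (deriv f) z / (2 * (f z - w)) - (conj z / (1 - ‖z‖ ^ 2 : ℝ)) ^ 2 with hbdef
  obtain ⟨e, he, heb⟩ := h3_dir b
  have heI : ‖I * e‖ = 1 := by rw [norm_mul, Complex.norm_I, one_mul, he]
  have hlow := (h3_second hf hz hw hc he).1 (by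
    rw [← hbdef, heb, Complex.neg_re, Complex.ofReal_re]; linarith only [hb])
  have hup := (h3_second hf hz hw hc heI).2 (by
    have : (I * e) ^ 2 * b = ‖b‖ := by rw [mul_pow, Complex.I_sq]; linear_combination -heb
    rw [← hbdef, this, Complex.ofReal_re]
    have := h3_den hz
    (clear * - this; positivity))
  have h1 := h3_inball hz e
  have h2 := h3_inball hz (I * e)
  have hall : ∀ᶠ x : ℝ in 𝓝 0, z + x * e ∈ ball (0 : ℂ) 1 ∧ z + x * (I * e) ∈ ball (0 : ℂ) 1 ∧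
      (x ≠ 0 → PHI f w (z + x * e) < PHI f w z) ∧
      (x ≠ 0 → PHI f w z < PHI f w (z + x * (I * e))) := by
    filter_upwards [hlow, hup, h1, h2] with x a1 a2 a3 a4
    exact ⟨a3, a4, a1, a2⟩
  obtain ⟨δ, hδ, hδ2⟩ := Metric.eventually_nhds_iff.mp hall
  refine ⟨e, he, δ / 2, by positivity, ?_⟩
  intro x hx0 hx
  have p1 := @hδ2 x (by rw [Real.dist_eq, sub_zero, abs_of_pos hx0]; linarith only [hx0, hx])
  have p2 := @hδ2 (-x) (by rw [Real.dist_eq, sub_zero, abs_neg, abs_of_pos hx0]; linarith only [hx0, hx])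
  have e1 : z + ((-x : ℝ) : ℂ) * e = z - x * e := by push_cast; ring
  have e2 : z + ((-x : ℝ) : ℂ) * (I * e) = z - x * (I * e) := by push_cast; ring
  rw [e1, e2] at p2
  have hxne : x ≠ 0 := hx0.ne'
  exact ⟨⟨p1.1, p2.1, p1.2.1, p2.2.1⟩, p1.2.2.1 hxne, p2.2.2.1 (neg_ne_zero.mpr hxne),
    p1.2.2.2 hxne, p2.2.2.2 (neg_ne_zero.mpr hxne)⟩

/-- **Block H3** from the non-vanishing of the derivative. -/
theorem blockH3b_of (hH1 : BlockH1) : BlockH3 := by
  intro f R hf w z hz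
  have hdf : ∀ z ∈ ball (0 : ℂ) 1, deriv f z ≠ 0 := fun z hz =>
    (hH1.2 f R hf).1 z (ball_subset_closedBall hz)
  refine ⟨?_, ?_, ?_⟩
  · intro hw hmin
    -- the linear coefficient vanishes
    have hc : deriv f z / (f z - w) + 2 * (conj z / (1 - ‖z‖ ^ 2 : ℝ)) = 0 := by
      by_contra hne
      set c : ℂ := deriv f z / (f z - w) + 2 * (conj z / (1 - ‖z‖ ^ 2 : ℝ)) with hcdef
      have hcn : 0 < ‖c‖ := norm_pos_iff.mpr hne
      have he : ‖-(conj c / ‖c‖)‖ = 1 := by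
        rw [norm_neg, norm_div, Complex.norm_conj, Complex.norm_real, norm_norm, div_self hcn.ne']
      have hre : (c * -(conj c / ‖c‖)).re < 0 := by
        have : c * -(conj c / ‖c‖) = ((-‖c‖ : ℝ) : ℂ) := by
          rw [mul_neg, ← mul_div_assoc, Complex.mul_conj, Complex.normSq_eq_norm_sq]
          have : (‖c‖ : ℂ) ≠ 0 := by exact_mod_cast hcn.ne'
          push_cast
          field_simp
        rw [this, Complex.ofReal_re]; linarith only [hcn]
      have h1 := h3_first hf hz hw he hre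
      have h2 : ∀ᶠ x : ℝ in 𝓝 0, PHI f w z ≤ PHI f w (z + x * -(conj c / ‖c‖)) := by
        have hcont : ContinuousAt (fun x : ℝ => z + x * -(conj c / ‖c‖)) 0 := by (clear * -; fun_prop)
        have := hcont.tendsto
        simp only [Complex.ofReal_zero, zero_mul, add_zero] at this
        exact this.eventually hmin
      obtain ⟨x, hx0, hx⟩ := ((h1.and h2).filter_mono (nhdsWithin_le_nhds (s := Ioi 0))).and
        self_mem_nhdsWithin |>.exists
      exact absurd (hx0.1 hx) (not_lt.mpr hx0.2)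
    have hq1 := h3_den hz
    have hs : ((1 - ‖z‖ ^ 2 : ℝ) : ℂ) ≠ 0 := by exact_mod_cast hq1.ne'
    have hN : f z - w ≠ 0 := sub_ne_zero.mpr hw
    have h0 : z ≠ 0 := by
      rintro rfl
      simp only [map_zero, zero_div, mul_zero, add_zero] at hc
      exact div_ne_zero (hdf 0 hz) hN hc
    have hcz : conj z ≠ 0 := by simpa using h0
    have hE : EE f z = w := by
      have h2 : ((1 - ‖z‖ ^ 2 : ℝ) : ℂ) = 2 * (tau z : ℂ) := by
        unfold tau; push_cast; ring
      rw [h2] at hc hs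
      have ht : (tau z : ℂ) ≠ 0 := by
        intro h; rw [h] at hs; simp at hs
      rw [EE]
      field_simp at hc ⊢
      linear_combination hc
    refine ⟨h0, hE, ?_⟩
    by_contra hJ
    rw [not_le] at hJ
    obtain ⟨e, he, δ, hδ, hall⟩ := h3_saddle hf hdf hz h0 hE hJ
    have h2 : ∀ᶠ x : ℝ in 𝓝 0, PHI f w z ≤ PHI f w (z + x * e) := by
      have hcont : ContinuousAt (fun x : ℝ => z + x * e) 0 := by (clear * -; fun_prop)
      have := hcont.tendsto
      simp only [Complex.ofReal_zero, zero_mul, add_zero] at this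
      exact this.eventually hmin
    have h3 : ∀ᶠ x : ℝ in 𝓝[>] 0, x ≤ δ := by
      filter_upwards [Ioc_mem_nhdsGT hδ] with x hx using hx.2
    obtain ⟨x, hx0, hx⟩ := ((h2.filter_mono (nhdsWithin_le_nhds (s := Ioi 0))).and h3).and
        self_mem_nhdsWithin |>.exists
    exact absurd (hall x hx hx0.2).2.1 (not_lt.mpr hx0.1)
  · intro h0 hE
    obtain ⟨h1, h2, -, -⟩ := h3_crit hz h0 (hdf z hz) hE
    exact ⟨h1, h2⟩
  · intro h0 hE hJ
    exact h3_saddle hf hdf hz h0 hE hJ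

end Vale.Agent.P142.Brn
end

section

open Complex MeasureTheory Metric Set Filter Topology
open scoped Real ComplexConjugate ENNReal

namespace Vale.Agent.P142.Brn

theorem blockH4_of (hT : BlockT) (hH2 : BlockH2) (hH3 : BlockH3) : BlockH4 := by
  intro f R hf w hw hreg t ht
  set St : Set ℂ := {z | z ∈ PD ∧ EE f z = w ∧ 0 < JJ f z ∧ XX f z < t} with hSt
  set Mt : Set ℂ := {z | z ∈ PD ∧ EE f z = w ∧ JJ f z < 0 ∧ XX f z < t} with hMt
  by_cases hfin : Mt.Finite
  swap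
  · rw [Set.Infinite.encard_eq hfin]; exact le_top
  obtain ⟨hc, hp, hm⟩ := hH2 f R hf w hw
  -- the pole
  set P : Set ℂ := {z | z ∈ ball (0 : ℂ) 1 ∧ f z = w} with hP
  have hball : ball (0 : ℂ) 1 ⊆ ball 0 R := ball_subset_ball hf.one_lt.le
  have hPs : P.Subsingleton := by
    intro a ha b hb
    exact hf.inj (hball ha.1) (hball hb.1) (ha.2.trans hb.2.symm)
  have hPf : P.Finite := hPs.finite
  have hPc : hPf.toFinset.card ≤ 1 := by
    rw [Finset.card_le_one]
    intro a ha b hb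
    rw [Set.Finite.mem_toFinset] at ha hb
    exact hPs ha hb
  have key : ∀ S : Finset ℂ, (S : Set ℂ) ⊆ St → S.card ≤ hfin.toFinset.card := by
    intro S hS
    rcases S.eq_empty_or_nonempty with rfl | hne
    · simp
    have h := hT (PHI f w) t S (hfin.toFinset ∪ hPf.toFinset) hc hp hm ?_ ?_ hne
    · have h2 := Finset.card_union_le hfin.toFinset hPf.toFinset
      omega
    · intro s hs
      obtain ⟨h1, h2, h3, h4⟩ := hS hs
      have hs0 : s ≠ 0 := fun h => h1.2 (by simp [h])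
      obtain ⟨-, hb, hcc⟩ := hH3 f R hf w s h1.1
      exact ⟨h1.1, by rw [(hb hs0 h2).2]; exact h4, hcc hs0 h2 h3⟩
    · intro z hz hzt hmin
      rw [Finset.mem_union, Set.Finite.mem_toFinset, Set.Finite.mem_toFinset]
      by_cases hzw : f z = w
      · exact Or.inr ⟨hz, hzw⟩
      left
      obtain ⟨ha, hb, -⟩ := hH3 f R hf w z hz
      obtain ⟨h0, hE, hJ⟩ := ha hzw hmin
      have hzP : z ∈ PD := ⟨hz, h0⟩
      refine ⟨hzP, hE, lt_of_le_of_ne hJ (hreg z hzP hE), ?_⟩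
      rw [← (hb h0 hE).2]; exact hzt
  by_contra hcon
  rw [not_le] at hcon
  have hMcard : Mt.encard = (hfin.toFinset.card : ℕ∞) := hfin.encard_eq_coe_toFinset_card
  rw [hMcard] at hcon
  have h1 : ((hfin.toFinset.card + 1 : ℕ) : ℕ∞) ≤ St.encard := by
    have := Order.add_one_le_of_lt hcon
    simpa only [Nat.cast_add, Nat.cast_one, ge_iff_le] using this
  obtain ⟨T, hTS, hTc⟩ := Set.exists_subset_encard_eq h1
  have hTf : T.Finite := Set.finite_of_encard_eq_coe hTc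
  have h2 := key hTf.toFinset (by simpa using hTS)
  have h3 : hTf.toFinset.card = hfin.toFinset.card + 1 := by
    have := hTf.encard_eq_coe_toFinset_card
    rw [hTc] at this
    exact_mod_cast this.symm
  omega

end Vale.Agent.P142.Brn
end

section

/-!
Polygonal chains in a plane set and the logarithmic potential of a chain.
-/

namespace Vale.Agent.P142.Brn

open Set Filter Topology Metric

/-- `x` and `y` are joined by a polygonal line inside `F`. -/
def Ch (F : Set ℂ) (x y : ℂ) : Prop :=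
  Relation.ReflTransGen (fun a b => segment ℝ a b ⊆ F) x y

theorem Ch.refl (F : Set ℂ) (x : ℂ) : Ch F x x := Relation.ReflTransGen.refl

theorem Ch.trans {F : Set ℂ} {x y z : ℂ} (h : Ch F x y) (h' : Ch F y z) : Ch F x z :=
  Relation.ReflTransGen.trans h h'

theorem Ch.symm {F : Set ℂ} {x y : ℂ} (h : Ch F x y) : Ch F y x := by
  induction h with
  | refl => exact Ch.refl _ _
  | tail h1 h2 ih =>
    refine Relation.ReflTransGen.head ?_ ih
    rw [segment_symm]; exact h2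

theorem Ch.mono {F G : Set ℂ} {x y : ℂ} (h : F ⊆ G) (h1 : Ch F x y) : Ch G x y :=
  Relation.ReflTransGen.mono (fun _ _ (hab : segment ℝ _ _ ⊆ F) => hab.trans h) _ _ h1

theorem Ch.single {F : Set ℂ} {x y : ℂ} (h : segment ℝ x y ⊆ F) : Ch F x y :=
  Relation.ReflTransGen.single h

theorem slit_of_not_mem_segment {a b q : ℂ} (hq : q ∉ segment ℝ a b) :
    (b - q) / (a - q) ∈ Complex.slitPlane := by
  have ha : a - q ≠ 0 := by
    intro h
    exact hq (by rw [← sub_eq_zero.1 h]; exact left_mem_segment ℝ a b)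
  by_contra hn
  rw [Complex.mem_slitPlane_iff, not_or, not_lt, not_not] at hn
  obtain ⟨hre, him⟩ := hn
  set w := (b - q) / (a - q) with hw
  obtain ⟨r, hr, hwr⟩ : ∃ r : ℝ, 0 ≤ r ∧ w = -(r : ℂ) := by
    refine ⟨-w.re, by linarith, ?_⟩
    apply Complex.ext <;> simp [him]
  have hb : b - q = -(r : ℂ) * (a - q) := by
    rw [← hwr, hw]; field_simp
  apply hq
  refine ⟨r / (1 + r), 1 / (1 + r), by positivity, by positivity, by field_simp; ring, ?_⟩
  have h1 : (1 + (r : ℂ)) ≠ 0 := by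
    have : (1 + r : ℝ) ≠ 0 := by positivity
    exact_mod_cast this
  have hq' : (1 + (r : ℂ)) * q = r * a + b := by linear_combination -hb
  simp only [Complex.real_smul]
  push_cast
  field_simp
  linear_combination -hq'

theorem seg_fun (a b : ℂ) : ∃ g : ℂ → ℂ,
    g = (fun q => Complex.log ((b - q) / (a - q))) ∧
    (∀ q, q ∉ segment ℝ a b → HasDerivAt g (1 / (a - q) - 1 / (b - q)) q) ∧
    Tendsto g (cocompact ℂ) (𝓝 0) := by
  refine ⟨_, rfl, ?_, ?_⟩
  · intro q hq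
    have ha : a - q ≠ 0 := by
      intro h
      exact hq (by rw [← sub_eq_zero.1 h]; exact left_mem_segment ℝ a b)
    have hb : b - q ≠ 0 := by
      intro h
      exact hq (by rw [← sub_eq_zero.1 h]; exact right_mem_segment ℝ a b)
    have h1 : HasDerivAt (fun q : ℂ => b - q) (-1) q := by
      simpa using (hasDerivAt_id q).const_sub b
    have h2 : HasDerivAt (fun q : ℂ => a - q) (-1) q := by
      simpa using (hasDerivAt_id q).const_sub a
    have h3 : HasDerivAt (fun q : ℂ => (b - q) / (a - q))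
        ((-1 * (a - q) - (b - q) * -1) / (a - q) ^ 2) q := h1.div h2 ha
    refine (h3.clog (slit_of_not_mem_segment hq)).congr_deriv ?_
    field_simp
    ring
  · have h1 : Tendsto (fun q : ℂ => (a - q)⁻¹) (cocompact ℂ) (𝓝 0) := by
      rw [← Metric.cobounded_eq_cocompact]
      exact tendsto_inv₀_cobounded.comp (tendsto_const_sub_cobounded a)
    have h2 : Tendsto (fun q : ℂ => 1 + (b - a) * (a - q)⁻¹) (cocompact ℂ) (𝓝 1) := by
      simpa only [mul_zero, add_zero] using (h1.const_mul (b - a)).const_add 1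
    have h3 : Tendsto (fun q : ℂ => Complex.log (1 + (b - a) * (a - q)⁻¹)) (cocompact ℂ)
        (𝓝 0) := by
      have := (continuousAt_clog (x := 1) (by simp)).tendsto.comp h2
      simpa only [Function.comp_def, Complex.log_one] using this
    refine h3.congr' ?_
    have h4 : ∀ᶠ q in cocompact ℂ, q ∈ ({a} : Set ℂ)ᶜ := isCompact_singleton.compl_mem_cocompact
    filter_upwards [h4] with q hq
    have ha : a - q ≠ 0 := by
      intro h
      exact hq (by simpa using (sub_eq_zero.1 h).symm)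
    congr 1
    field_simp
    ring

theorem chain_fun {F : Set ℂ} {x y : ℂ} (h : Ch F x y) : ∃ K ⊆ F, IsCompact K ∧ ∃ g : ℂ → ℂ,
    (∀ q, q ∉ K → HasDerivAt g (1 / (x - q) - 1 / (y - q)) q) ∧
    Tendsto g (cocompact ℂ) (𝓝 0) := by
  induction h with
  | refl =>
    refine ⟨∅, empty_subset _, isCompact_empty, fun _ => 0, ?_, tendsto_const_nhds⟩
    intro q _
    simpa using hasDerivAt_const q (0 : ℂ)
  | @tail b c h1 h2 ih =>
    obtain ⟨K, hKF, hK, g, hg, hg0⟩ := ih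
    obtain ⟨g', -, hg', hg0'⟩ := seg_fun b c
    refine ⟨K ∪ segment ℝ b c, union_subset hKF h2, hK.union ?_, fun q => g q + g' q, ?_, ?_⟩
    · rw [segment_eq_image ℝ b c]
      exact isCompact_Icc.image (by fun_prop)
    · intro q hq
      rw [mem_union, not_or] at hq
      exact ((hg q hq.1).add (hg' q hq.2)).congr_deriv (by ring)
    · simpa only [add_zero] using hg0.add hg0'

/-- a function with derivative `0` off a closed set is locally constant there -/
theorem locConst {K : Set ℂ} (hK : IsClosed K) {G : ℂ → ℂ} (hG : ∀ q, q ∉ K → HasDerivAt G 0 q)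
    {q : ℂ} (hq : q ∉ K) : ∀ᶠ z in 𝓝 q, G z = G q := by
  obtain ⟨ε, hε, hb⟩ := Metric.isOpen_iff.1 hK.isOpen_compl q hq
  filter_upwards [ball_mem_nhds q hε] with z hz
  have hd : DifferentiableOn ℂ G (ball q ε) := fun w hw =>
    (hG w (hb hw)).differentiableAt.differentiableWithinAt
  exact isOpen_ball.is_const_of_deriv_eq_zero (convex_ball q ε).isPreconnected hd
    (fun w hw => (hG w (hb hw)).deriv) hz (mem_ball_self hε)

/-- it vanishes outside a disc containing the set, if it tends to zero -/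
theorem zeroOut {K : Set ℂ} {ρ : ℝ} (hρ : 0 ≤ ρ) (hK : K ⊆ closedBall 0 ρ) {G : ℂ → ℂ}
    (hG : ∀ q, q ∉ K → HasDerivAt G 0 q) (h0 : Tendsto G (cocompact ℂ) (𝓝 0))
    {q : ℂ} (hq : ρ < ‖q‖) : G q = 0 := by
  set H : Set ℂ := {z | ρ * ‖q‖ < (z * (starRingEnd ℂ) q).re} with hH
  have hHo : IsOpen H := isOpen_lt continuous_const (by fun_prop)
  have hHc : Convex ℝ H := by
    have : H = (fun z : ℂ => (z * (starRingEnd ℂ) q).re) ⁻¹' (Ioi (ρ * ‖q‖)) := rfl
    rw [this]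
    have hl : IsLinearMap ℝ (fun z : ℂ => (z * (starRingEnd ℂ) q).re) := by
      constructor
      · intro x y; simp [add_mul]
      · intro c x; simp; ring
    exact (convex_Ioi _).is_linear_preimage hl
  have hHK : ∀ z ∈ H, z ∉ K := by
    intro z hz hzK
    have h1 : ‖z‖ ≤ ρ := by simpa using hK hzK
    have h2 : (z * (starRingEnd ℂ) q).re ≤ ‖z‖ * ‖q‖ := by
      calc (z * (starRingEnd ℂ) q).re ≤ ‖z * (starRingEnd ℂ) q‖ := Complex.re_le_norm _
        _ = ‖z‖ * ‖q‖ := by rw [norm_mul, Complex.norm_conj]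
    have h3 : ‖z‖ * ‖q‖ ≤ ρ * ‖q‖ := mul_le_mul_of_nonneg_right h1 (norm_nonneg _)
    have h4 : ρ * ‖q‖ < (z * (starRingEnd ℂ) q).re := hz
    linarith
  have hqn : 0 < ‖q‖ := lt_of_le_of_lt hρ hq
  have hmem : ∀ t : ℝ, 1 ≤ t → ((t : ℂ) * q) ∈ H := by
    intro t ht
    show ρ * ‖q‖ < ((t : ℂ) * q * (starRingEnd ℂ) q).re
    have : ((t : ℂ) * q * (starRingEnd ℂ) q) = ((t * ‖q‖ ^ 2 : ℝ) : ℂ) := by
      rw [mul_assoc, Complex.mul_conj, Complex.normSq_eq_norm_sq]; push_cast; ring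
    rw [this, Complex.ofReal_re]
    nlinarith only [hq, hqn, ht]
  have hd : DifferentiableOn ℂ G H := fun w hw =>
    (hG w (hHK w hw)).differentiableAt.differentiableWithinAt
  have hconst : ∀ t : ℝ, 1 ≤ t → G ((t : ℂ) * q) = G q := by
    intro t ht
    have h1 : q ∈ H := by simpa using hmem 1 le_rfl
    exact hHo.is_const_of_deriv_eq_zero hHc.isPreconnected hd
      (fun w hw => (hG w (hHK w hw)).deriv) (hmem t ht) h1
  have ht : Tendsto (fun t : ℝ => (t : ℂ) * q) atTop (cocompact ℂ) := by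
    rw [← Metric.cobounded_eq_cocompact, ← tendsto_norm_atTop_iff_cobounded]
    have : (fun t : ℝ => ‖(t : ℂ) * q‖) = fun t : ℝ => |t| * ‖q‖ := by
      ext t; rw [norm_mul, Complex.norm_real, Real.norm_eq_abs]
    rw [this]
    exact (tendsto_abs_atTop_atTop).atTop_mul_const hqn
  have h5 : Tendsto (fun t : ℝ => G ((t : ℂ) * q)) atTop (𝓝 0) := h0.comp ht
  have h6 : Tendsto (fun t : ℝ => G ((t : ℂ) * q)) atTop (𝓝 (G q)) := by
    refine tendsto_const_nhds.congr' ?_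
    filter_upwards [eventually_ge_atTop (1 : ℝ)] with t ht
    exact (hconst t ht).symm
  exact tendsto_nhds_unique h6 h5

end Vale.Agent.P142.Brn
end

section

/-!
Critical points of an exhaustion function satisfying the weak maximum principle: the number of saddles
below a level is smaller than the number of minima below that level.
-/

namespace Vale.Agent.P142.Brn

open Set Filter Topology Metric

section Jump

variable {v : ℂ → ℝ} {D : Set ℂ}

/-- The potential of a closed polygon contained in `{v ≤ c}` vanishes at all points with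
`v > c`. -/
theorem zero_above {c ρ : ℝ} (hρ : 0 ≤ ρ) (hD : closedBall 0 ρ ⊆ D) (hDo : IsOpen D)
    (hcont : ContinuousOn v D)
    (hwm : ∀ O : Set ℂ, IsOpen O → closure O ⊆ D → ∀ p ∈ O, ∃ q ∈ frontier O, v p ≤ v q)
    {K : Set ℂ} (hKc : IsClosed K) (hKρ : K ⊆ closedBall 0 ρ) (hKv : ∀ z ∈ K, v z ≤ c)
    {G : ℂ → ℂ} (hG : ∀ q, q ∉ K → HasDerivAt G 0 q) (h0 : Tendsto G (cocompact ℂ) (𝓝 0))
    {q : ℂ} (hqD : q ∈ D) (hq : c < v q) : G q = 0 := by
  by_contra hne
  set B : Set ℂ := {z | z ∈ D ∧ c < v z ∧ G z ≠ 0} with hB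
  have hnotK : ∀ z, c < v z → z ∉ K := fun z hz hzK => absurd (hKv z hzK) (not_le.2 hz)
  have hBρ : B ⊆ closedBall 0 ρ := by
    intro z hz
    by_contra hzρ
    have : ρ < ‖z‖ := by simpa using hzρ
    exact hz.2.2 (zeroOut hρ hKρ hG h0 this)
  have hcl : closure B ⊆ closedBall 0 ρ := closure_minimal hBρ isClosed_closedBall
  have hqB : q ∈ B := ⟨hqD, hq, hne⟩
  have hnear : ∀ m ∈ D, c < v m → G m ≠ 0 → B ∈ 𝓝 m := by
    intro m hmD hvm hGm
    have hcm : ContinuousAt v m := hcont.continuousAt (hDo.mem_nhds hmD)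
    have hloc := locConst hKc hG (hnotK m hvm)
    filter_upwards [hDo.mem_nhds hmD, hcm.eventually (lt_mem_nhds hvm), hloc] with z h1 h2 h3
    exact ⟨h1, h2, by rw [h3]; exact hGm⟩
  have hBo : IsOpen B := isOpen_iff_mem_nhds.2 fun m hm => hnear m hm.1 hm.2.1 hm.2.2
  obtain ⟨m, hm, hmq⟩ := hwm B hBo (hcl.trans hD) q hqB
  have hmcl : m ∈ closure B := frontier_subset_closure hm
  have hmD : m ∈ D := hD (hcl hmcl)
  have hvm : c < v m := lt_of_lt_of_le hq hmq
  have hloc := locConst hKc hG (hnotK m hvm)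
  have hGm : G m ≠ 0 := by
    intro h
    have h2 := (mem_closure_iff_frequently.1 hmcl).and_eventually hloc
    obtain ⟨z, hz, hz2⟩ := h2.exists
    exact hz.2.2 (by rw [hz2, h])
  rw [hBo.frontier_eq] at hm
  exact hm.2 ⟨hmD, hvm, hGm⟩

theorem log_im_pos {w : ℂ} (h1 : w.re < 0) (h2 : 0 < w.im) : Real.pi / 2 < (Complex.log w).im := by
  rw [Complex.log_im]
  by_contra h
  have := Complex.arg_le_pi_div_two_iff.1 (not_lt.1 h)
  rcases this with h3 | h3 <;> linarith

theorem log_im_neg {w : ℂ} (h1 : w.re < 0) (h2 : w.im < 0) :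
    (Complex.log w).im < -(Real.pi / 2) := by
  rw [Complex.log_im]
  by_contra h
  have := Complex.neg_pi_div_two_le_arg_iff.1 (not_lt.1 h)
  rcases this with h3 | h3 <;> linarith

/-- Jump lemma: the two lower rays at a saddle are not joined in `{v ≤ c} \ {s}`. -/
theorem jump {c ρ : ℝ} (hρ : 0 ≤ ρ) (hD : closedBall 0 ρ ⊆ D) (hDo : IsOpen D)
    (hcont : ContinuousOn v D)
    (hwm : ∀ O : Set ℂ, IsOpen O → closure O ⊆ D → ∀ p ∈ O, ∃ q ∈ frontier O, v p ≤ v q)
    (hsub : ∀ z ∈ D, v z ≤ c → ‖z‖ ≤ ρ)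
    {s u : ℂ} (hu : u ≠ 0)
    (hlow : ∀ x : ℝ, -1 ≤ x → x ≤ 1 → s + x * u ∈ D ∧ v (s + x * u) ≤ c)
    (hupp : ∀ x : ℝ, x ≠ 0 → -1 ≤ x → x ≤ 1 →
      s + x * (Complex.I * u) ∈ D ∧ c < v (s + x * (Complex.I * u)))
    (hch : Ch {z | z ∈ D ∧ v z ≤ c ∧ z ≠ s} (s + u) (s - u)) : False := by
  obtain ⟨K, hKF, hK, g, hg, hg0⟩ := chain_fun hch
  obtain ⟨g', hg'def, hg', hg0'⟩ := seg_fun (s - u) (s + u)
  set K' : Set ℂ := K ∪ segment ℝ (s - u) (s + u) with hK'
  have hseg : ∀ z ∈ segment ℝ (s - u) (s + u), z ∈ D ∧ v z ≤ c := by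
    rintro z ⟨a, b, ha, hb, hab, rfl⟩
    have h := hlow (b - a) (by linarith only [hb, hab]) (by linarith)
    have e : s + ((b - a : ℝ) : ℂ) * u = a • (s - u) + b • (s + u) := by
      have : (a : ℂ) + b = 1 := by exact_mod_cast hab
      simp only [Complex.real_smul]
      push_cast
      linear_combination (-s) * this
    rwa [e] at h
  have hsegc : IsCompact (segment ℝ (s - u) (s + u)) := by
    rw [segment_eq_image ℝ (s - u) (s + u)]
    exact isCompact_Icc.image (by fun_prop)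
  have hK'v : ∀ z ∈ K', z ∈ D ∧ v z ≤ c := by
    rintro z (hz | hz)
    · exact ⟨(hKF hz).1, (hKF hz).2.1⟩
    · exact hseg z hz
  have hK'ρ : K' ⊆ closedBall 0 ρ := by
    intro z hz
    simpa using hsub z (hK'v z hz).1 (hK'v z hz).2
  have hK'c : IsClosed K' := (hK.union hsegc).isClosed
  have hG : ∀ q, q ∉ K' → HasDerivAt (fun q => g q + g' q) 0 q := by
    intro q hq
    rw [hK', mem_union, not_or] at hq
    exact ((hg q hq.1).add (hg' q hq.2)).congr_deriv (by ring)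
  have hG0 : Tendsto (fun q => g q + g' q) (cocompact ℂ) (𝓝 0) := by
    simpa only [add_zero] using hg0.add hg0'
  have hz : ∀ x : ℝ, x ≠ 0 → -1 ≤ x → x ≤ 1 →
      g (s + x * (Complex.I * u)) + g' (s + x * (Complex.I * u)) = 0 := by
    intro x hx h1 h2
    exact zero_above hρ hD hDo hcont hwm hK'c hK'ρ (fun z hz => (hK'v z hz).2) hG hG0
      (hupp x hx h1 h2).1 (hupp x hx h1 h2).2
  -- values of g'
  have hval : ∀ x : ℝ, g' (s + x * (Complex.I * u)) =
      Complex.log ((1 - x * Complex.I) / (-1 - x * Complex.I)) := by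
    intro x
    rw [hg'def]
    simp only
    congr 1
    have h1 : s + u - (s + x * (Complex.I * u)) = u * (1 - x * Complex.I) := by ring
    have h2 : s - u - (s + x * (Complex.I * u)) = u * (-1 - x * Complex.I) := by ring
    rw [h1, h2, mul_div_mul_left _ _ hu]
  have hquot : ∀ x : ℝ, ((1 - x * Complex.I) / (-1 - x * Complex.I) : ℂ) =
      (((x ^ 2 - 1) / (1 + x ^ 2) : ℝ) : ℂ) + ((2 * x / (1 + x ^ 2) : ℝ) : ℂ) * Complex.I := by
    intro x
    have hne : (-1 - x * Complex.I : ℂ) ≠ 0 := by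
      intro h
      have := congrArg Complex.re h
      simp at this
    have hne2 : (1 + (x : ℂ) ^ 2) ≠ 0 := by
      have : (1 + x ^ 2 : ℝ) ≠ 0 := by (clear * -; positivity)
      exact_mod_cast this
    push_cast
    rw [div_eq_iff hne]
    field_simp
    linear_combination (2 * (x : ℂ) ^ 2 - x * Complex.I * (1 + (x : ℂ) ^ 2) * 0) * Complex.I_sq
  have hp : ∀ x : ℝ, 0 < x → x < 1 → Real.pi / 2 < (g' (s + x * (Complex.I * u))).im := by
    intro x hx hx1
    rw [hval, hquot]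
    apply log_im_pos
    · simp only [Complex.add_re, Complex.ofReal_re, Complex.mul_re, Complex.I_re, mul_zero,
        Complex.ofReal_im, Complex.I_im, mul_one, sub_self, add_zero]
      apply div_neg_of_neg_of_pos <;> nlinarith only [hx1, hx]
    · simp only [Complex.add_im, Complex.ofReal_im, Complex.mul_im, Complex.I_re, mul_zero,
        Complex.ofReal_re, Complex.I_im, mul_one, zero_add, add_zero]
      (clear * - hx; positivity)
  have hn : ∀ x : ℝ, 0 < x → x < 1 →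
      (g' (s + ((-x : ℝ) : ℂ) * (Complex.I * u))).im < -(Real.pi / 2) := by
    intro x hx hx1
    rw [hval, hquot]
    apply log_im_neg
    · simp only [Complex.add_re, Complex.ofReal_re, Complex.mul_re, Complex.I_re, mul_zero,
        Complex.ofReal_im, Complex.I_im, mul_one, sub_self, add_zero]
      apply div_neg_of_neg_of_pos <;> nlinarith only [hx1, hx]
    · simp only [Complex.add_im, Complex.ofReal_im, Complex.mul_im, Complex.I_re, mul_zero,
        Complex.ofReal_re, Complex.I_im, mul_one, zero_add, add_zero]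
      apply div_neg_of_neg_of_pos <;> nlinarith only [hx]
  -- continuity of g at s
  have hsK : s ∉ K := fun h => (hKF h).2.2 rfl
  have hgc : ContinuousAt g s := (hg s hsK).continuousAt
  have hlim1 : Tendsto (fun x : ℝ => (g (s + x * (Complex.I * u))).im) (𝓝[>] 0) (𝓝 (g s).im) := by
    have h1 : ContinuousAt (fun x : ℝ => (g (s + x * (Complex.I * u))).im) 0 := by
      have h2 : ContinuousAt (fun x : ℝ => s + x * (Complex.I * u)) 0 := by (clear * -; fun_prop)
      have h3 : ContinuousAt g ((fun x : ℝ => s + x * (Complex.I * u)) 0) := by simpa using hgc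
      exact Complex.continuous_im.continuousAt.comp (ContinuousAt.comp h3 h2)
    have := h1.tendsto.mono_left (nhdsWithin_le_nhds (s := Ioi (0 : ℝ)))
    simpa only [Complex.ofReal_zero, zero_mul, add_zero] using this
  have hlim2 : Tendsto (fun x : ℝ => (g (s + ((-x : ℝ) : ℂ) * (Complex.I * u))).im) (𝓝[>] 0)
      (𝓝 (g s).im) := by
    have h1 : ContinuousAt (fun x : ℝ => (g (s + ((-x : ℝ) : ℂ) * (Complex.I * u))).im) 0 := by
      have h2 : ContinuousAt (fun x : ℝ => s + ((-x : ℝ) : ℂ) * (Complex.I * u)) 0 := by (clear * -; fun_prop)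
      have h3 : ContinuousAt g ((fun x : ℝ => s + ((-x : ℝ) : ℂ) * (Complex.I * u)) 0) := by
        simpa using hgc
      exact Complex.continuous_im.continuousAt.comp (ContinuousAt.comp h3 h2)
    have := h1.tendsto.mono_left (nhdsWithin_le_nhds (s := Ioi (0 : ℝ)))
    simpa only [Complex.ofReal_neg, neg_mul, neg_zero, Complex.ofReal_zero, zero_mul, add_zero] using this
  have hlim := hlim1.sub hlim2
  rw [sub_self] at hlim
  have hev : ∀ᶠ x : ℝ in 𝓝[>] 0, (g (s + x * (Complex.I * u))).im -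
      (g (s + ((-x : ℝ) : ℂ) * (Complex.I * u))).im < -Real.pi := by
    have h1 : Ioo (0 : ℝ) 1 ∈ 𝓝[>] (0 : ℝ) := Ioo_mem_nhdsGT one_pos
    filter_upwards [h1] with x hx
    have e1 := hz x hx.1.ne' (by linarith [hx.1]) hx.2.le
    have e2 := hz (-x) (by linarith [hx.1]) (by linarith [hx.2]) (by linarith [hx.1])
    have e3 := congrArg Complex.im e1
    have e4 := congrArg Complex.im e2
    rw [Complex.add_im, Complex.zero_im] at e3 e4
    have := hp x hx.1 hx.2
    have := hn x hx.1 hx.2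
    linarith
  have hpos := Real.pi_pos
  have h4 : (0 : ℝ) ≤ -Real.pi := le_of_tendsto hlim (hev.mono fun x hx => hx.le)
  linarith

end Jump

end Vale.Agent.P142.Brn
end

section

/-!
Counting: an exhaustion of the disc without local maxima has fewer saddles than minima below
every level.
-/

namespace Vale.Agent.P142.Brn

open Set Filter Topology Metric

/-- Abstract forest lemma. -/
theorem forest {α β : Type*} [DecidableEq α] [DecidableEq β] (lev : β → ℝ) (m1 m2 : β → α)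
    (R : β → α → α → Prop) (hrefl : ∀ e x, R e x x) (hsymm : ∀ e x y, R e x y → R e y x)
    (htrans : ∀ e x y z, R e x y → R e y z → R e x z)
    (hne : ∀ e, ¬ R e (m1 e) (m2 e))
    (hR : ∀ e e', e' ≠ e → lev e' ≤ lev e → R e (m1 e') (m2 e')) :
    ∀ (n : ℕ) (E : Finset β) (V : Finset α), E.card = n → V.Nonempty →
      (∀ e ∈ E, m1 e ∈ V ∧ m2 e ∈ V) → E.card + 1 ≤ V.card := by
  classical
  intro n
  induction n using Nat.strong_induction_on with
  | _ n ih =>
    intro E V hn hV hEV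
    rcases E.eq_empty_or_nonempty with rfl | hE
    · simpa using hV.card_pos
    · obtain ⟨e, heE, hmax⟩ := E.exists_max_image lev hE
      set A := V.filter (fun x => R e (m1 e) x) with hA
      set B := V.filter (fun x => ¬ R e (m1 e) x) with hB
      have hAB : A.card + B.card = V.card := Finset.card_filter_add_card_filter_not _
      set E' := E.erase e with hE'
      set EA := E'.filter (fun e' => R e (m1 e) (m1 e')) with hEA
      set EB := E'.filter (fun e' => ¬ R e (m1 e) (m1 e')) with hEB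
      have hEAB : EA.card + EB.card = E'.card := Finset.card_filter_add_card_filter_not _
      have hE'c : E'.card + 1 = E.card := Finset.card_erase_add_one heE
      have hAne : A.Nonempty := ⟨m1 e, by
        rw [hA, Finset.mem_filter]; exact ⟨(hEV e heE).1, hrefl _ _⟩⟩
      have hBne : B.Nonempty := ⟨m2 e, by
        rw [hB, Finset.mem_filter]; exact ⟨(hEV e heE).2, hne e⟩⟩
      have hRe : ∀ e' ∈ E', R e (m1 e') (m2 e') := by
        intro e' he'
        rw [hE', Finset.mem_erase] at he'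
        exact hR e e' he'.1 (hmax e' he'.2)
      have h1 : EA.card + 1 ≤ A.card := by
        refine ih EA.card (by omega) EA A rfl hAne ?_
        intro e' he'
        rw [hEA, Finset.mem_filter] at he'
        have hm := hEV e' (Finset.mem_of_mem_erase he'.1)
        refine ⟨?_, ?_⟩
        · rw [hA, Finset.mem_filter]; exact ⟨hm.1, he'.2⟩
        · rw [hA, Finset.mem_filter]; exact ⟨hm.2, htrans _ _ _ _ he'.2 (hRe e' he'.1)⟩
      have h2 : EB.card + 1 ≤ B.card := by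
        refine ih EB.card (by omega) EB B rfl hBne ?_
        intro e' he'
        rw [hEB, Finset.mem_filter] at he'
        have hm := hEV e' (Finset.mem_of_mem_erase he'.1)
        refine ⟨?_, ?_⟩
        · rw [hB, Finset.mem_filter]; exact ⟨hm.1, he'.2⟩
        · rw [hB, Finset.mem_filter]
          exact ⟨hm.2, fun h => he'.2 (htrans _ _ _ _ h (hsymm _ _ _ (hRe e' he'.1)))⟩
      omega

variable {v : ℂ → ℝ} {D : Set ℂ}

/-- every point of an open sublevel set is joined inside it to a local minimum -/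
theorem to_min (hDo : IsOpen D) (hcont : ContinuousOn v D)
    (hprop : ∀ c : ℝ, ∃ ρ : ℝ, closedBall (0 : ℂ) ρ ⊆ D ∧ ∀ z ∈ D, v z ≤ c → ‖z‖ ≤ ρ)
    {c : ℝ} {p : ℂ} (hp : p ∈ D) (hpc : v p < c) :
    ∃ m ∈ D, v m < c ∧ IsLocalMin v m ∧ Ch {z | z ∈ D ∧ v z < c} p m := by
  set M : Set ℂ := {z | z ∈ D ∧ v z < c} with hM
  have hMo : IsOpen M := by
    have : M = D ∩ v ⁻¹' (Iio c) := rfl
    rw [this]
    exact hcont.isOpen_inter_preimage hDo isOpen_Iio
  set N : Set ℂ := {z | z ∈ M ∧ Ch M p z} with hN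
  have hpN : p ∈ N := ⟨⟨hp, hpc⟩, Ch.refl _ _⟩
  obtain ⟨ρ, hρD, hρ⟩ := hprop c
  have hNρ : N ⊆ closedBall 0 ρ := by
    intro z hz
    simpa using hρ z hz.1.1 hz.1.2.le
  have hcl : closure N ⊆ closedBall 0 ρ := closure_minimal hNρ isClosed_closedBall
  have hcomp : IsCompact (closure N) := (isCompact_closedBall 0 ρ).of_isClosed_subset
    isClosed_closure hcl
  obtain ⟨m, hm, hmin⟩ := hcomp.exists_isMinOn ⟨p, subset_closure hpN⟩
    (hcont.mono (hcl.trans hρD))
  have hmD : m ∈ D := hρD (hcl hm)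
  have hvm : v m < c := lt_of_le_of_lt (hmin (subset_closure hpN)) hpc
  obtain ⟨ε, hε, hb⟩ := Metric.isOpen_iff.1 hMo m ⟨hmD, hvm⟩
  obtain ⟨z, hzb, hzN⟩ := mem_closure_iff_nhds.1 hm _ (ball_mem_nhds m hε)
  have hball : ∀ w ∈ ball m ε, w ∈ N := by
    intro w hw
    refine ⟨hb hw, hzN.2.trans (Ch.single ?_)⟩
    exact ((convex_ball m ε).segment_subset hzb hw).trans hb
  refine ⟨m, hmD, hvm, ?_, (hball m (mem_ball_self hε)).2⟩
  filter_upwards [ball_mem_nhds m hε] with w hw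
  exact hmin (subset_closure (hball w hw))

/-- Data of a nondegenerate saddle: a vector `u` with `v < v s` on the punctured segment
`s + [-1,1] u` and `v > v s` on the punctured segment `s + [-1,1] i u`. -/
def IsSaddle (v : ℂ → ℝ) (D : Set ℂ) (s : ℂ) : Prop :=
  ∃ u : ℂ, u ≠ 0 ∧ (∀ x : ℝ, -1 ≤ x → x ≤ 1 → s + x * u ∈ D ∧ (x ≠ 0 → v (s + x * u) < v s)) ∧
    (∀ x : ℝ, x ≠ 0 → -1 ≤ x → x ≤ 1 →
      s + x * (Complex.I * u) ∈ D ∧ v s < v (s + x * (Complex.I * u)))

/-- **Lemma T.** -/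
theorem card_saddles (hDo : IsOpen D) (hcont : ContinuousOn v D)
    (hprop : ∀ c : ℝ, ∃ ρ : ℝ, closedBall (0 : ℂ) ρ ⊆ D ∧ ∀ z ∈ D, v z ≤ c → ‖z‖ ≤ ρ)
    (hwm : ∀ O : Set ℂ, IsOpen O → closure O ⊆ D → ∀ p ∈ O, ∃ q ∈ frontier O, v p ≤ v q)
    {t : ℝ} (S M : Finset ℂ)
    (hS : ∀ s ∈ S, s ∈ D ∧ v s < t ∧ IsSaddle v D s)
    (hM : ∀ m ∈ D, v m < t → IsLocalMin v m → m ∈ M) (hne : ∃ p ∈ D, v p < t) :
    S.card + 1 ≤ M.card := by
  classical
  -- a version where everything is indexed by the saddles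
  have hdata : ∀ s : {s // s ∈ S}, ∃ u : ℂ, ∃ a b : ℂ, u ≠ 0 ∧
      (∀ x : ℝ, -1 ≤ x → x ≤ 1 → s.1 + x * u ∈ D ∧ (x ≠ 0 → v (s.1 + x * u) < v s.1)) ∧
      (∀ x : ℝ, x ≠ 0 → -1 ≤ x → x ≤ 1 →
        s.1 + x * (Complex.I * u) ∈ D ∧ v s.1 < v (s.1 + x * (Complex.I * u))) ∧
      a ∈ M ∧ b ∈ M ∧ Ch {z | z ∈ D ∧ v z < v s.1} (s.1 + u) a ∧
      Ch {z | z ∈ D ∧ v z < v s.1} (s.1 - u) b := by
    rintro ⟨s, hs⟩
    obtain ⟨hsD, hst, u, hu, h1, h2⟩ := hS s hs
    have hp := h1 1 (by norm_num) le_rfl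
    have hm := h1 (-1) le_rfl (by norm_num)
    have hp1 : s + u ∈ D ∧ v (s + u) < v s := by
      have := hp.2 one_ne_zero
      constructor
      · simpa using hp.1
      · simpa using this
    have hm1 : s - u ∈ D ∧ v (s - u) < v s := by
      have := hm.2 (by norm_num)
      constructor
      · simpa [sub_eq_add_neg] using hm.1
      · simpa [sub_eq_add_neg] using this
    obtain ⟨a, haD, hac, hamin, ha⟩ := to_min hDo hcont hprop hp1.1 hp1.2
    obtain ⟨b, hbD, hbc, hbmin, hb⟩ := to_min hDo hcont hprop hm1.1 hm1.2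
    exact ⟨u, a, b, hu, h1, h2, hM a haD (hac.trans hst) hamin, hM b hbD (hbc.trans hst) hbmin,
      ha, hb⟩
  choose u a b hu h1 h2 ha hb hca hcb using hdata
  obtain ⟨p, hpD, hpt⟩ := hne
  obtain ⟨m0, hm0D, hm0t, hm0min, -⟩ := to_min hDo hcont hprop hpD hpt
  have hMne : M.Nonempty := ⟨m0, hM m0 hm0D hm0t hm0min⟩
  have hsub : ∀ s : {s // s ∈ S}, {z | z ∈ D ∧ v z < v s.1} ⊆
      {z | z ∈ D ∧ v z ≤ v s.1 ∧ z ≠ s.1} := by
    intro s z hz
    refine ⟨hz.1, hz.2.le, ?_⟩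
    rintro rfl
    exact lt_irrefl _ hz.2
  have key := forest (α := ℂ) (β := {s // s ∈ S}) (fun s => v s.1) a b
    (fun s x y => Ch {z | z ∈ D ∧ v z ≤ v s.1 ∧ z ≠ s.1} x y)
    (fun s x => Ch.refl _ _) (fun s x y h => h.symm) (fun s x y z h h' => h.trans h')
    (by
      intro s hch
      have hfull : Ch {z | z ∈ D ∧ v z ≤ v s.1 ∧ z ≠ s.1} (s.1 + u s) (s.1 - u s) :=
        ((hca s).mono (hsub s)).trans (hch.trans ((hcb s).symm.mono (hsub s)))
      obtain ⟨ρ, hρD, hρ⟩ := hprop (v s.1)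
      have hsD := (hS s.1 s.2).1
      have hρ0 : 0 ≤ ρ := (norm_nonneg _).trans (hρ s.1 hsD le_rfl)
      refine jump hρ0 hρD hDo hcont hwm hρ (hu s) ?_ (h2 s) hfull
      intro x hx1 hx2
      refine ⟨(h1 s x hx1 hx2).1, ?_⟩
      by_cases hx : x = 0
      · subst hx; simp
      · exact ((h1 s x hx1 hx2).2 hx).le)
    (by
      intro s s' hss' hlev
      have hss : s'.1 ≠ s.1 := fun h => hss' (Subtype.ext h)
      have hF : {z | z ∈ D ∧ v z < v s'.1} ⊆ {z | z ∈ D ∧ v z ≤ v s.1 ∧ z ≠ s.1} := by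
        intro z hz
        have hlt : v z < v s.1 := lt_of_lt_of_le hz.2 hlev
        refine ⟨hz.1, hlt.le, ?_⟩
        rintro rfl
        exact lt_irrefl _ hlt
      have hseg : segment ℝ (s'.1 + u s') (s'.1 - u s') ⊆
          {z | z ∈ D ∧ v z ≤ v s.1 ∧ z ≠ s.1} := by
        rintro z ⟨α, β, hα, hβ, hαβ, rfl⟩
        have e : α • (s'.1 + u s') + β • (s'.1 - u s') = s'.1 + ((α - β : ℝ) : ℂ) * u s' := by
          have : (α : ℂ) + β = 1 := by exact_mod_cast hαβ
          simp only [Complex.real_smul]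
          push_cast
          linear_combination s'.1 * this
        rw [e]
        have h := h1 s' (α - β) (by linarith) (by linarith)
        by_cases hx : α - β = 0
        · rw [hx]
          have e0 : s'.1 + ((0 : ℝ) : ℂ) * u s' = s'.1 := by simp
          rw [e0]
          exact ⟨(hS s'.1 s'.2).1, hlev, hss⟩
        · have hlt : v (s'.1 + ((α - β : ℝ) : ℂ) * u s') < v s.1 :=
            lt_of_lt_of_le (h.2 hx) hlev
          refine ⟨h.1, hlt.le, ?_⟩
          intro h3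
          rw [h3] at hlt
          exact lt_irrefl _ hlt
      exact (((hca s').mono hF).symm.trans (Ch.single hseg)).trans ((hcb s').mono hF))
    S.attach.card S.attach M rfl hMne (fun s _ => ⟨ha s, hb s⟩)
  simpa using key

end Vale.Agent.P142.Brn
end

section

/-!
Block T: the number of saddles below a level is smaller than the number of minima.
-/

open Complex MeasureTheory Metric Set Filter Topology
open scoped Real ComplexConjugate ENNReal

namespace Vale.Agent.P142.Brn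

theorem isSaddle_of_saddleAt {Φ : ℂ → ℝ} {s : ℂ} (hs : s ∈ ball (0 : ℂ) 1)
    (h : SaddleAt Φ s) : IsSaddle Φ (ball 0 1) s := by
  obtain ⟨e, he, δ, hδ, h⟩ := h
  have he0 : e ≠ 0 := by
    intro h0
    rw [h0, norm_zero] at he
    exact zero_ne_one he
  refine ⟨(δ : ℂ) * e, mul_ne_zero (by exact_mod_cast hδ.ne') he0, ?_, ?_⟩
  · intro x h1 h2
    rcases lt_trichotomy x 0 with hx | hx | hx
    · have hy : 0 < -x * δ := mul_pos (by linarith) hδ
      have hy2 : -x * δ ≤ δ := by nlinarith only [hδ, h1]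
      obtain ⟨h3, h4, h5, h6, h7⟩ := h _ hy hy2
      have e1 : s + (x : ℂ) * ((δ : ℂ) * e) = s - ((-x * δ : ℝ) : ℂ) * e := by push_cast; ring
      rw [e1]
      exact ⟨h3.2.1, fun _ => h5⟩
    · subst hx
      simpa only [ofReal_zero, zero_mul, add_zero, mem_ball, dist_zero_right, ne_eq, not_true_eq_false,     lt_self_iff_false, imp_self, and_true] using hs
    · have hy : 0 < x * δ := mul_pos hx hδ
      have hy2 : x * δ ≤ δ := by nlinarith only [hδ, h2]
      obtain ⟨h3, h4, h5, h6, h7⟩ := h _ hy hy2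
      have e1 : s + (x : ℂ) * ((δ : ℂ) * e) = s + ((x * δ : ℝ) : ℂ) * e := by push_cast; ring
      rw [e1]
      exact ⟨h3.1, fun _ => h4⟩
  · intro x hx0 h1 h2
    rcases lt_or_gt_of_ne hx0 with hx | hx
    · have hy : 0 < -x * δ := mul_pos (by linarith) hδ
      have hy2 : -x * δ ≤ δ := by nlinarith only [hδ, h1]
      obtain ⟨h3, h4, h5, h6, h7⟩ := h _ hy hy2
      have e1 : s + (x : ℂ) * (I * ((δ : ℂ) * e)) = s - ((-x * δ : ℝ) : ℂ) * (I * e) := by
        push_cast; ring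
      rw [e1]
      exact ⟨h3.2.2.2, h7⟩
    · have hy : 0 < x * δ := mul_pos hx hδ
      have hy2 : x * δ ≤ δ := by nlinarith only [hδ, h2]
      obtain ⟨h3, h4, h5, h6, h7⟩ := h _ hy hy2
      have e1 : s + (x : ℂ) * (I * ((δ : ℂ) * e)) = s + ((x * δ : ℝ) : ℂ) * (I * e) := by
        push_cast; ring
      rw [e1]
      exact ⟨h3.2.2.1, h6⟩

theorem blockT : BlockT := by
  intro Φ t S N hcont hcomp hwm hS hN hSne
  have hprop : ∀ c : ℝ, ∃ ρ : ℝ, closedBall (0 : ℂ) ρ ⊆ ball (0 : ℂ) 1 ∧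
      ∀ z ∈ ball (0 : ℂ) 1, Φ z ≤ c → ‖z‖ ≤ ρ := by
    intro c
    rcases ({z | z ∈ ball (0 : ℂ) 1 ∧ Φ z ≤ c} : Set ℂ).eq_empty_or_nonempty with he | hne
    · refine ⟨0, closedBall_subset_ball one_pos, ?_⟩
      intro z hz hzc
      exact absurd (show z ∈ ({z | z ∈ ball (0 : ℂ) 1 ∧ Φ z ≤ c} : Set ℂ) from ⟨hz, hzc⟩)
        (by rw [he]; exact notMem_empty z)
    · obtain ⟨m, hm, hmax⟩ := (hcomp c).exists_isMaxOn hne continuous_norm.continuousOn
      have hm1 : ‖m‖ < 1 := by simpa using hm.1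
      exact ⟨‖m‖, closedBall_subset_ball hm1, fun z hz hzc => hmax (⟨hz, hzc⟩ :
        z ∈ ({z | z ∈ ball (0 : ℂ) 1 ∧ Φ z ≤ c} : Set ℂ))⟩
  obtain ⟨s0, hs0⟩ := hSne
  have key := card_saddles isOpen_ball hcont hprop hwm S N
    (fun s hs => ⟨(hS s hs).1, (hS s hs).2.1, isSaddle_of_saddleAt (hS s hs).1 (hS s hs).2.2⟩)
    hN ⟨s0, (hS s0 hs0).1, (hS s0 hs0).2.1⟩
  omega

end Vale.Agent.P142.Brn
end

section

/-!
# P142 (Brennan), block A: area formula with multiplicity and comparison of fibres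
-/

open MeasureTheory Set Filter Topology
open scoped NNReal ENNReal

namespace Vale.Agent.P142.Brn

section General

variable {V : Type*} [NormedAddCommGroup V] [NormedSpace ℝ V] [FiniteDimensional ℝ V]

/-- A radius function `r` such that a map approximated by an invertible `A` up to `r A` is
injective. -/
theorem exists_radius_injOn :
    ∃ r : (V →L[ℝ] V) → ℝ≥0, (∀ A, r A ≠ 0) ∧
      ∀ A : V →L[ℝ] V, A.det ≠ 0 → ∀ (s : Set V) (f : V → V),
        ApproximatesLinearOn f A s (r A) → InjOn f s := by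
  have key : ∀ A : V →L[ℝ] V, ∃ r : ℝ≥0, r ≠ 0 ∧
      (A.det ≠ 0 → ∀ (s : Set V) (f : V → V), ApproximatesLinearOn f A s r → InjOn f s) := by
    intro A
    by_cases hA : A.det = 0
    · exact ⟨1, one_ne_zero, fun h => absurd hA h⟩
    · let B := A.toContinuousLinearEquivOfDetNeZero hA
      rcases subsingleton_or_nontrivial V with hV | hV
      · exact ⟨1, one_ne_zero, fun _ s f _ x _ y _ _ => Subsingleton.elim x y⟩
      · have hpos : 0 < ‖(B.symm : V →L[ℝ] V)‖₊ := by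
          rw [← NNReal.coe_pos]
          exact B.symm.norm_pos
        refine ⟨‖(B.symm : V →L[ℝ] V)‖₊⁻¹ / 2, ?_, ?_⟩
        · positivity
        · intro _ s f hf
          have hf' : ApproximatesLinearOn f (B : V →L[ℝ] V) s (‖(B.symm : V →L[ℝ] V)‖₊⁻¹ / 2) := hf
          refine hf'.injOn (Or.inr ?_)
          exact half_lt_self (by positivity)
  choose r hr1 hr2 using key
  exact ⟨r, hr1, hr2⟩

/-- The cardinality of a set as a sum over a countable disjoint cover. -/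
theorem encard_eq_tsum {α : Type*} (S : Set α) (t : ℕ → Set α)
    (hd : Pairwise (Function.onFun Disjoint t)) (hc : S ⊆ ⋃ n, t n) :
    ((S.encard : ℕ∞) : ℝ≥0∞) = ∑' n, (((S ∩ t n).encard : ℕ∞) : ℝ≥0∞) := by
  rw [← ENNReal.tsum_set_one]
  simp_rw [← ENNReal.tsum_set_one]
  have h1 : ∀ n, (∑' _ : (S ∩ t n : Set α), (1 : ℝ≥0∞))
      = ∑' x : α, (S ∩ t n).indicator (fun _ => (1 : ℝ≥0∞)) x := fun n =>
    tsum_subtype (S ∩ t n) (fun _ => (1 : ℝ≥0∞))
  have h2 : (∑' _ : S, (1 : ℝ≥0∞)) = ∑' x : α, S.indicator (fun _ => (1 : ℝ≥0∞)) x :=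
    tsum_subtype S (fun _ => (1 : ℝ≥0∞))
  rw [h2]
  simp_rw [h1]
  rw [ENNReal.tsum_comm]
  congr 1
  funext x
  by_cases hx : x ∈ S
  · obtain ⟨n, hn⟩ := mem_iUnion.1 (hc hx)
    rw [tsum_eq_single n]
    · simp [hx, hn]
    · intro m hm
      have : x ∉ t m := fun h => (Set.disjoint_left.1 (hd hm) h) hn
      simp [this]
  · simp [hx]

variable [MeasurableSpace V] [BorelSpace V] (μ : Measure V) [μ.IsAddHaarMeasure]

/-- Area formula with multiplicity. -/
theorem area_formula {s : Set V} {f : V → V} {f' : V → V →L[ℝ] V} (hs : MeasurableSet s)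
    (hf' : ∀ x ∈ s, HasFDerivWithinAt f (f' x) s x) (hdet : ∀ x ∈ s, (f' x).det ≠ 0) :
    ∫⁻ x in s, ENNReal.ofReal |(f' x).det| ∂μ
      = ∫⁻ y, (((s ∩ f ⁻¹' {y}).encard : ℕ∞) : ℝ≥0∞) ∂μ := by
  rcases s.eq_empty_or_nonempty with rfl | hne
  · simp only [Measure.restrict_empty, lintegral_zero_measure, empty_inter, encard_empty, ENat.toENNReal_zero, lintegral_const, zero_mul]
  obtain ⟨r, hr0, hr⟩ := exists_radius_injOn (V := V)
  obtain ⟨t, A, hd, ht, hcov, happ, hA⟩ :=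
    exists_partition_approximatesLinearOn_of_hasFDerivWithinAt f s f' hf' r hr0
  have hinj : ∀ n, InjOn f (s ∩ t n) := by
    intro n
    obtain ⟨y, hy, hAy⟩ := hA hne n
    exact hr (A n) (by rw [hAy]; exact hdet y hy) _ _ (happ n)
  have hmeas : ∀ n, MeasurableSet (s ∩ t n) := fun n => hs.inter (ht n)
  have hfd : ∀ n, ∀ x ∈ s ∩ t n, HasFDerivWithinAt f (f' x) (s ∩ t n) x := fun n x hx =>
    (hf' x hx.1).mono inter_subset_left
  have himg : ∀ n, MeasurableSet (f '' (s ∩ t n)) := fun n =>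
    measurable_image_of_fderivWithin (hmeas n) (hfd n) (hinj n)
  have hunion : s = ⋃ n, s ∩ t n := by
    rw [← inter_iUnion]; exact (inter_eq_self_of_subset_left hcov).symm
  have hdisj : Pairwise (Function.onFun Disjoint fun n => s ∩ t n) := by
    intro i j hij
    exact (hd hij).mono inter_subset_right inter_subset_right
  calc ∫⁻ x in s, ENNReal.ofReal |(f' x).det| ∂μ
      = ∫⁻ x in ⋃ n, s ∩ t n, ENNReal.ofReal |(f' x).det| ∂μ := by rw [← hunion]
    _ = ∑' n, ∫⁻ x in s ∩ t n, ENNReal.ofReal |(f' x).det| ∂μ :=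
        lintegral_iUnion hmeas hdisj _
    _ = ∑' n, μ (f '' (s ∩ t n)) := by
        congr 1
        funext n
        exact lintegral_abs_det_fderiv_eq_addHaar_image μ (hmeas n) (hfd n) (hinj n)
    _ = ∑' n, ∫⁻ y, (f '' (s ∩ t n)).indicator (fun _ => (1 : ℝ≥0∞)) y ∂μ := by
        congr 1
        funext n
        rw [lintegral_indicator (himg n)]
        simp only [lintegral_const, MeasurableSet.univ, Measure.restrict_apply, univ_inter, one_mul]
    _ = ∫⁻ y, ∑' n, (f '' (s ∩ t n)).indicator (fun _ => (1 : ℝ≥0∞)) y ∂μ := by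
        rw [lintegral_tsum]
        intro n
        exact (measurable_const.indicator (himg n)).aemeasurable
    _ = ∫⁻ y, (((s ∩ f ⁻¹' {y}).encard : ℕ∞) : ℝ≥0∞) ∂μ := by
        congr 1
        funext y
        rw [encard_eq_tsum (s ∩ f ⁻¹' {y}) t hd (inter_subset_left.trans hcov)]
        congr 1
        funext n
        by_cases hy : y ∈ f '' (s ∩ t n)
        · obtain ⟨x, hx, rfl⟩ := hy
          have : s ∩ f ⁻¹' {f x} ∩ t n = {x} := by
            ext z
            simp only [mem_inter_iff, mem_preimage, mem_singleton_iff]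
            constructor
            · rintro ⟨⟨hz1, hz2⟩, hz3⟩
              exact hinj n ⟨hz1, hz3⟩ hx hz2
            · rintro rfl
              exact ⟨⟨hx.1, rfl⟩, hx.2⟩
          rw [this]
          have hmem : f x ∈ f '' (s ∩ t n) := ⟨x, hx, rfl⟩
          simp [hmem]
        · have : s ∩ f ⁻¹' {y} ∩ t n = ∅ := by
            ext z
            simp only [mem_inter_iff, mem_preimage, mem_singleton_iff, mem_empty_iff_false,
              iff_false]
            rintro ⟨⟨hz1, hz2⟩, hz3⟩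
            exact hy ⟨z, ⟨hz1, hz3⟩, hz2⟩
          rw [this]
          simp [hy]

end General

end Vale.Agent.P142.Brn
end

section

/-!
# P142 (Brennan), blocks A2 and A3: almost every value is good, comparison of the two parts

Block A2: almost every `w` is outside `f '' sphere 0 1` and a regular value of `EE f` on the
punctured disc.  Block A3: comparison of the positive and the negative part of the Jacobian
below a level.
-/

open Complex MeasureTheory Metric Set Filter Topology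
open scoped Real ComplexConjugate ENNReal

namespace Vale.Agent.P142.Brn

theorem isOpen_PD : IsOpen PD := by
  unfold PD
  exact isOpen_ball.sdiff isClosed_singleton

theorem PD_subset : PD ⊆ closedBall (0 : ℂ) 1 \ {0} :=
  sdiff_subset_sdiff_left ball_subset_closedBall

theorem ae_notMem_image_sphere {f : ℂ → ℂ} {R : ℝ} (hf : Nice f R) :
    ∀ᵐ w : ℂ, w ∉ f '' sphere (0 : ℂ) 1 := by
  rw [← measure_eq_zero_iff_ae_notMem]
  refine addHaar_image_eq_zero_of_differentiableOn_of_addHaar_eq_zero volume ?_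
    (Measure.addHaar_sphere_of_ne_zero volume 0 one_ne_zero)
  have hsub : sphere (0 : ℂ) 1 ⊆ ball 0 R := by
    intro z hz
    rw [mem_sphere_zero_iff_norm] at hz
    rw [mem_ball_zero_iff, hz]
    exact hf.one_lt
  intro z hz
  have h1 : DifferentiableAt ℂ f z :=
    (hf.diff z (hsub hz)).differentiableAt (isOpen_ball.mem_nhds (hsub hz))
  exact (h1.restrictScalars ℝ).differentiableWithinAt

theorem ae_regular {E : ℂ → ℂ} {E' : ℂ → ℂ →L[ℝ] ℂ} {s : Set ℂ}
    (hE : ∀ z ∈ s, HasFDerivWithinAt E (E' z) s z) :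
    ∀ᵐ w : ℂ, ∀ z ∈ s, E z = w → (E' z).det ≠ 0 := by
  have h := addHaar_image_eq_zero_of_det_fderivWithin_eq_zero volume (f := E) (f' := E')
    (s := s ∩ {z | (E' z).det = 0}) (fun z hz => (hE z hz.1).mono inter_subset_left)
    (fun z hz => hz.2)
  filter_upwards [measure_eq_zero_iff_ae_notMem.1 h] with w hw z hz hzw h0
  exact hw ⟨z, ⟨hz, h0⟩, hzw⟩

/-- **Block A2**, given block H1. -/
theorem blockA2 (h1 : BlockH1) : BlockA2 := by
  intro f R hf
  refine ⟨ae_notMem_image_sphere hf, ?_⟩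
  obtain ⟨hdet, hH⟩ := h1
  obtain ⟨-, hE, -⟩ := hH f R hf
  have h := ae_regular (E := EE f) (E' := fun z => wrt (Ez f z) (Ezb f z)) (s := PD)
    (fun z hz => (hE z hz).hasFDerivAt.hasFDerivWithinAt)
  filter_upwards [h] with w hw z hz hzw
  have := hw z hz hzw
  rw [hdet] at this
  exact this

/-- **Block A3**, given blocks H1, A2 and H4. -/
theorem blockA3 (h1 : BlockH1) (h2 : BlockA2) (h4 : BlockH4) : BlockA3 := by
  intro f R hf t ht
  obtain ⟨hdet, hH⟩ := h1
  obtain ⟨-, hE, -, hX, hJ⟩ := hH f R hf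
  obtain ⟨hw1, hw2⟩ := h2 f R hf
  set Up : Set ℂ := {z | z ∈ PD ∧ 0 < JJ f z ∧ XX f z < t} with hUp
  set Un : Set ℂ := {z | z ∈ PD ∧ JJ f z < 0 ∧ XX f z < t} with hUn
  have hJ' : ContinuousOn (JJ f) PD := hJ.mono PD_subset
  have hX' : ContinuousOn (XX f) PD := hX.mono PD_subset
  have hOX : IsOpen (PD ∩ XX f ⁻¹' Iio t) := hX'.isOpen_inter_preimage isOpen_PD isOpen_Iio
  have hOp : IsOpen (PD ∩ JJ f ⁻¹' Ioi 0) := hJ'.isOpen_inter_preimage isOpen_PD isOpen_Ioi
  have hOn : IsOpen (PD ∩ JJ f ⁻¹' Iio 0) := hJ'.isOpen_inter_preimage isOpen_PD isOpen_Iio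
  have hmp : MeasurableSet Up := by
    have : Up = (PD ∩ JJ f ⁻¹' Ioi 0) ∩ (PD ∩ XX f ⁻¹' Iio t) := by
      ext z
      simp only [hUp, mem_ofPred_eq, mem_inter_iff, mem_preimage, mem_Ioi, mem_Iio]
      (clear * -; tauto)
    rw [this]
    exact (hOp.inter hOX).measurableSet
  have hmn : MeasurableSet Un := by
    have : Un = (PD ∩ JJ f ⁻¹' Iio 0) ∩ (PD ∩ XX f ⁻¹' Iio t) := by
      ext z
      simp only [hUn, mem_ofPred_eq, mem_inter_iff, mem_preimage, mem_Iio]
      (clear * -; tauto)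
    rw [this]
    exact (hOn.inter hOX).measurableSet
  have hdE : ∀ z ∈ PD, (wrt (Ez f z) (Ezb f z)).det = JJ f z := fun z _ => by
    rw [hdet]; rfl
  have hEp : ∀ z ∈ Up, HasFDerivWithinAt (EE f) (wrt (Ez f z) (Ezb f z)) Up z :=
    fun z hz => (hE z hz.1).hasFDerivAt.hasFDerivWithinAt
  have hEn : ∀ z ∈ Un, HasFDerivWithinAt (EE f) (wrt (Ez f z) (Ezb f z)) Un z :=
    fun z hz => (hE z hz.1).hasFDerivAt.hasFDerivWithinAt
  have e1 : ∫⁻ z in Up, ENNReal.ofReal (JJ f z) =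
      ∫⁻ w, ((Up ∩ EE f ⁻¹' {w}).encard : ℝ≥0∞) := by
    rw [← area_formula volume hmp hEp (fun z hz => by rw [hdE z hz.1]; exact ne_of_gt hz.2.1)]
    refine setLIntegral_congr_fun hmp fun z hz => ?_
    change ENNReal.ofReal (JJ f z) = ENNReal.ofReal |(wrt (Ez f z) (Ezb f z)).det|
    rw [hdE z hz.1, abs_of_pos hz.2.1]
  have e2 : ∫⁻ z in Un, ENNReal.ofReal (-JJ f z) =
      ∫⁻ w, ((Un ∩ EE f ⁻¹' {w}).encard : ℝ≥0∞) := by
    rw [← area_formula volume hmn hEn (fun z hz => by rw [hdE z hz.1]; exact ne_of_lt hz.2.1)]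
    refine setLIntegral_congr_fun hmn fun z hz => ?_
    change ENNReal.ofReal (-JJ f z) = ENNReal.ofReal |(wrt (Ez f z) (Ezb f z)).det|
    rw [hdE z hz.1, abs_of_neg hz.2.1]
  rw [e1, e2]
  refine lintegral_mono_ae ?_
  filter_upwards [hw1, hw2] with w hws hwr
  have key := h4 f R hf w hws hwr t ht
  have s1 : Up ∩ EE f ⁻¹' {w} = {z | z ∈ PD ∧ EE f z = w ∧ 0 < JJ f z ∧ XX f z < t} := by
    ext z
    simp only [hUp, mem_inter_iff, mem_ofPred_eq, mem_preimage, mem_singleton_iff]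
    (clear * -; tauto)
  have s2 : Un ∩ EE f ⁻¹' {w} = {z | z ∈ PD ∧ EE f z = w ∧ JJ f z < 0 ∧ XX f z < t} := by
    ext z
    simp only [hUn, mem_inter_iff, mem_ofPred_eq, mem_preimage, mem_singleton_iff]
    (clear * -; tauto)
  rw [s1, s2]
  exact_mod_cast key

end Vale.Agent.P142.Brn
end

section

/-!
P142, Brennan's conjecture: layer cake comparison (abstract part of block I).
-/

open MeasureTheory Set
open scoped ENNReal

namespace Vale.Agent.P142.Brn

noncomputable section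

variable {α : Type*} [MeasurableSpace α] {μ : Measure α}

/-- comparison of the weights of the superlevel sets gives the comparison of the moments -/
theorem lintegral_rpow_mul_le {Y : α → ℝ} (hY : Measurable Y) (hY0 : ∀ z, 0 ≤ Y z)
    {g h : α → ℝ≥0∞} (hg : Measurable g) (hh : Measurable h) {q : ℝ} (hq : 0 < q)
    (H : ∀ t : ℝ, 0 < t → ∫⁻ z in {z | t < Y z}, g z ∂μ ≤ ∫⁻ z in {z | t < Y z}, h z ∂μ) :
    ∫⁻ z, ENNReal.ofReal (Y z ^ q) * g z ∂μ ≤ ∫⁻ z, ENNReal.ofReal (Y z ^ q) * h z ∂μ := by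
  have key : ∀ {g : α → ℝ≥0∞}, Measurable g → ∫⁻ z, ENNReal.ofReal (Y z ^ q) * g z ∂μ =
      ENNReal.ofReal q * ∫⁻ t in Ioi (0 : ℝ), (∫⁻ z in {z | t < Y z}, g z ∂μ) *
        ENNReal.ofReal (t ^ (q - 1)) := by
    intro g hg
    have h1 := lintegral_rpow_eq_lintegral_meas_lt_mul (μ := μ.withDensity g) (f := Y)
      (Filter.Eventually.of_forall hY0) hY.aemeasurable hq
    have h2 : ∫⁻ z, ENNReal.ofReal (Y z ^ q) ∂(μ.withDensity g) =
        ∫⁻ z, ENNReal.ofReal (Y z ^ q) * g z ∂μ := by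
      rw [lintegral_withDensity_eq_lintegral_mul _ hg (hY.pow_const q).ennreal_ofReal]
      refine lintegral_congr fun z => ?_
      rw [Pi.mul_apply, mul_comm]
    rw [← h2, h1]
    congr 1
    refine lintegral_congr fun t => ?_
    rw [withDensity_apply _ (measurableSet_lt measurable_const hY)]
  rw [key hg, key hh]
  refine mul_le_mul_right ?_ _
  refine setLIntegral_mono' measurableSet_Ioi fun t ht => ?_
  exact mul_le_mul_left (H t ht) _

end

end Vale.Agent.P142.Brn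
end

section

/-!
# Brennan's conjecture, block I: layer cake in the critical value
-/

open Complex MeasureTheory Metric Set Filter Topology
open scoped Real ComplexConjugate ENNReal

namespace Vale.Agent.P142.Brn

noncomputable section

theorem measurable_XX (f : ℂ → ℂ) : Measurable (XX f) :=
  (measurable_deriv f).norm.div measurable_norm

theorem measurable_tau : Measurable tau := by
  unfold tau
  fun_prop

theorem measurable_Ez (f : ℂ → ℂ) : Measurable (Ez f) := by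
  have h1 := measurable_deriv f
  have h2 := measurable_deriv (deriv f)
  have h3 := measurable_tau
  unfold Ez
  have h4 : Measurable fun z : ℂ => conj z := continuous_conj.measurable
  exact (h1.div_const 2).add (((measurable_ofReal.comp h3).mul h2).div h4)

theorem measurable_Ezb (f : ℂ → ℂ) : Measurable (Ezb f) := by
  have h1 := measurable_deriv f
  unfold Ezb
  have h4 : Measurable fun z : ℂ => conj z := continuous_conj.measurable
  exact h1.neg.div ((h4.pow_const 2).const_mul 2)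

theorem measurable_JJ (f : ℂ → ℂ) : Measurable (JJ f) := by
  unfold JJ
  exact ((measurable_Ez f).norm.pow_const 2).sub ((measurable_Ezb f).norm.pow_const 2)

theorem XX_nonneg (f : ℂ → ℂ) (z : ℂ) : 0 ≤ XX f z := by
  unfold XX
  positivity

theorem XX_rpow_neg (f : ℂ → ℂ) (z : ℂ) (q : ℝ) :
    XX f z ^ (-q) = (‖z‖ / ‖deriv f z‖) ^ q := by
  rw [Real.rpow_neg (XX_nonneg f z), ← Real.inv_rpow (XX_nonneg f z)]
  unfold XX
  rw [inv_div]

theorem setLIntegral_pos_part {A : Set ℂ} {J : ℂ → ℝ} (hJ : Measurable J) :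
    ∫⁻ z in A, ENNReal.ofReal (J z) = ∫⁻ z in {z | 0 < J z} ∩ A, ENNReal.ofReal (J z) := by
  rw [← setLIntegral_indicator (measurableSet_lt measurable_const hJ)]
  refine lintegral_congr fun z => ?_
  by_cases h : 0 < J z
  · rw [indicator_of_mem (show z ∈ {z | 0 < J z} from h)]
  · rw [indicator_of_notMem (show z ∉ {z | 0 < J z} from h),
      ENNReal.ofReal_of_nonpos (not_lt.1 h)]

/-- the levels of `1 / X` -/
theorem level_le (h1 : BlockH1) (h3 : BlockA3) {f : ℂ → ℂ} {R : ℝ} (hf : Nice f R) {s : ℝ}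
    (hs : 0 < s) :
    ∫⁻ z in {z | s < ‖z‖ / ‖deriv f z‖}, ENNReal.ofReal (JJ f z) ∂(volume.restrict (ball 0 1)) ≤
      ∫⁻ z in {z | s < ‖z‖ / ‖deriv f z‖}, ENNReal.ofReal (-JJ f z)
        ∂(volume.restrict (ball 0 1)) := by
  have hne := (h1.2 f R hf).1
  have hJ := measurable_JJ f
  have hms : MeasurableSet {z : ℂ | s < ‖z‖ / ‖deriv f z‖} :=
    measurableSet_lt measurable_const (measurable_norm.div (measurable_deriv f).norm)
  rw [Measure.restrict_restrict hms]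
  have hset : {z : ℂ | s < ‖z‖ / ‖deriv f z‖} ∩ ball 0 1 = {z | z ∈ PD ∧ XX f z < s⁻¹} := by
    ext z
    simp only [mem_inter_iff, mem_ofPred_eq, PD, Set.mem_sdiff, mem_singleton_iff]
    constructor
    · rintro ⟨h2, hz⟩
      have hd : 0 < ‖deriv f z‖ := norm_pos_iff.2 (hne z (ball_subset_closedBall hz))
      have hz0 : z ≠ 0 := by
        rintro rfl
        rw [norm_zero, zero_div] at h2
        linarith
      have hzn : 0 < ‖z‖ := norm_pos_iff.2 hz0
      refine ⟨⟨hz, hz0⟩, ?_⟩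
      unfold XX
      rw [lt_div_iff₀ hd] at h2
      rw [div_lt_iff₀ hzn, ← div_eq_inv_mul, lt_div_iff₀ hs, mul_comm]
      exact h2
    · rintro ⟨⟨hz, hz0⟩, h2⟩
      have hd : 0 < ‖deriv f z‖ := norm_pos_iff.2 (hne z (ball_subset_closedBall hz))
      have hzn : 0 < ‖z‖ := norm_pos_iff.2 hz0
      refine ⟨?_, hz⟩
      unfold XX at h2
      rw [div_lt_iff₀ hzn, ← div_eq_inv_mul, lt_div_iff₀ hs, mul_comm] at h2
      rw [lt_div_iff₀ hd]
      exact h2
  have hJn : Measurable fun z => -JJ f z := hJ.neg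
  rw [hset, setLIntegral_pos_part hJ, setLIntegral_pos_part hJn]
  have e1 : {z | 0 < JJ f z} ∩ {z | z ∈ PD ∧ XX f z < s⁻¹} =
      {z | z ∈ PD ∧ 0 < JJ f z ∧ XX f z < s⁻¹} := by
    ext z
    simp only [mem_inter_iff, mem_ofPred_eq]
    (clear * -; tauto)
  have e2 : {z | 0 < -JJ f z} ∩ {z | z ∈ PD ∧ XX f z < s⁻¹} =
      {z | z ∈ PD ∧ JJ f z < 0 ∧ XX f z < s⁻¹} := by
    ext z
    simp only [mem_inter_iff, mem_ofPred_eq, Left.neg_pos_iff]
    (clear * -; tauto)
  rw [e1, e2]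
  exact h3 f R hf s⁻¹ (inv_pos.2 hs)

/-- the weighted comparison, Tonelli form -/
theorem lintegral_weight_le (h1 : BlockH1) (h3 : BlockA3) {f : ℂ → ℂ} {R : ℝ} (hf : Nice f R)
    {q : ℝ} (hq : 0 < q) :
    ∫⁻ z in ball (0 : ℂ) 1, ENNReal.ofReal ((‖z‖ / ‖deriv f z‖) ^ q * JJ f z) ≤
      ∫⁻ z in ball (0 : ℂ) 1, ENNReal.ofReal (-((‖z‖ / ‖deriv f z‖) ^ q * JJ f z)) := by
  have h := lintegral_rpow_mul_le (μ := volume.restrict (ball (0 : ℂ) 1))
    (Y := fun z : ℂ => ‖z‖ / ‖deriv f z‖) (measurable_norm.div (measurable_deriv f).norm)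
    (fun z => by positivity) (measurable_JJ f).ennreal_ofReal (measurable_JJ f).neg.ennreal_ofReal
    hq (fun s hs => level_le h1 h3 hf hs)
  have e : ∀ (z : ℂ) (J : ℝ), ENNReal.ofReal ((‖z‖ / ‖deriv f z‖) ^ q) * ENNReal.ofReal J =
      ENNReal.ofReal ((‖z‖ / ‖deriv f z‖) ^ q * J) := fun z J =>
    (ENNReal.ofReal_mul (by positivity)).symm
  simp only [e, Pi.neg_apply, mul_neg] at h
  exact h

/-- bounds of the derivatives on the closed disc -/
theorem exists_deriv_bounds (h1 : BlockH1) {f : ℂ → ℂ} {R : ℝ} (hf : Nice f R) :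
    ∃ m M M2 : ℝ, 0 < m ∧ 0 ≤ M ∧ 0 ≤ M2 ∧ ∀ z ∈ closedBall (0 : ℂ) 1,
      m ≤ ‖deriv f z‖ ∧ ‖deriv f z‖ ≤ M ∧ ‖deriv (deriv f) z‖ ≤ M2 := by
  have hsub : closedBall (0 : ℂ) 1 ⊆ ball 0 R := closedBall_subset_ball hf.one_lt
  have hd : DifferentiableOn ℂ (deriv f) (ball 0 R) := hf.diff.deriv isOpen_ball
  have hdd : DifferentiableOn ℂ (deriv (deriv f)) (ball 0 R) := hd.deriv isOpen_ball
  have hc1 : ContinuousOn (fun z => ‖deriv f z‖) (closedBall (0 : ℂ) 1) :=
    (hd.continuousOn.mono hsub).norm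
  have hc2 : ContinuousOn (fun z => ‖deriv (deriv f) z‖) (closedBall (0 : ℂ) 1) :=
    (hdd.continuousOn.mono hsub).norm
  have hK : IsCompact (closedBall (0 : ℂ) 1) := isCompact_closedBall 0 1
  have hne : (closedBall (0 : ℂ) 1).Nonempty := ⟨0, by simp⟩
  obtain ⟨a, ha, ha'⟩ := hK.exists_isMinOn hne hc1
  obtain ⟨b, hb, hb'⟩ := hK.exists_isMaxOn hne hc1
  obtain ⟨c, hc, hc'⟩ := hK.exists_isMaxOn hne hc2
  exact ⟨‖deriv f a‖, ‖deriv f b‖, ‖deriv (deriv f) c‖,
    norm_pos_iff.2 ((h1.2 f R hf).1 a ha), norm_nonneg _, norm_nonneg _,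
    fun z hz => ⟨ha' hz, hb' hz, hc' hz⟩⟩

/-- the weighted Jacobian is bounded by `|z|^(p-2)` -/
theorem weight_JJ_le {f : ℂ → ℂ} {m M M2 : ℝ} (hm : 0 < m) (hM : 0 ≤ M) (hM2 : 0 ≤ M2) {z : ℂ}
    (hz0 : z ≠ 0) (hz1 : ‖z‖ ≤ 1) (ha : m ≤ ‖deriv f z‖) (hb : ‖deriv f z‖ ≤ M)
    (hc : ‖deriv (deriv f) z‖ ≤ M2) {p : ℝ} (hp : 0 < p) :
    ‖XX f z ^ (-p - 2) * JJ f z‖ ≤
      (m ^ (p + 2))⁻¹ * ((M + M2) ^ 2 + M ^ 2) * ‖z‖ ^ (-(2 - p)) := by
  have hzn : 0 < ‖z‖ := norm_pos_iff.2 hz0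
  have hd : 0 < ‖deriv f z‖ := lt_of_lt_of_le hm ha
  have hcz : ‖conj z‖ = ‖z‖ := RCLike.norm_conj z
  have htau : ‖(tau z : ℂ)‖ ≤ 1 / 2 := by
    rw [norm_real, Real.norm_eq_abs]
    unfold tau
    have h5 : ‖z‖ ^ 2 ≤ 1 := by nlinarith only [hz1, hzn]
    rw [abs_of_nonneg (by linarith)]
    nlinarith only []
  have hEz : ‖Ez f z‖ ≤ (M + M2) / ‖z‖ ^ 2 := by
    unfold Ez
    refine (norm_add_le _ _).trans ?_
    rw [norm_div, norm_div, norm_mul, hcz]
    have h2 : ‖(2 : ℂ)‖ = 2 := by simp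
    rw [h2]
    have h3 : ‖(tau z : ℂ)‖ * ‖deriv (deriv f) z‖ ≤ 1 / 2 * M2 :=
      mul_le_mul htau hc (norm_nonneg _) (by norm_num)
    have h4 : ‖z‖ ^ 2 ≤ 1 := by nlinarith only [hz1, hzn]
    have h5 : ‖deriv f z‖ / 2 ≤ M / ‖z‖ ^ 2 := by
      rw [div_le_div_iff₀ (by norm_num) (by positivity)]
      nlinarith only [hb, hM, h4]
    have h6 : ‖(tau z : ℂ)‖ * ‖deriv (deriv f) z‖ / ‖z‖ ≤ M2 / ‖z‖ ^ 2 := by
      rw [div_le_div_iff₀ hzn (by positivity)]
      have h7 : ‖z‖ ^ 2 ≤ ‖z‖ := by nlinarith only [hz1, hzn]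
      calc ‖(tau z : ℂ)‖ * ‖deriv (deriv f) z‖ * ‖z‖ ^ 2
          ≤ (1 / 2 * M2) * ‖z‖ := mul_le_mul h3 h7 (by positivity) (by positivity)
        _ ≤ M2 * ‖z‖ := by nlinarith only [hM2, hzn]
    rw [add_div]
    exact add_le_add h5 h6
  have hEzb : ‖Ezb f z‖ ≤ M / ‖z‖ ^ 2 := by
    unfold Ezb
    rw [norm_div, norm_neg, norm_mul, norm_pow, hcz]
    have h2 : ‖(2 : ℂ)‖ = 2 := by simp
    rw [h2]
    exact div_le_div₀ hM hb (by positivity) (by nlinarith only [])
  have hJ : |JJ f z| ≤ ((M + M2) ^ 2 + M ^ 2) / ‖z‖ ^ 4 := by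
    unfold JJ
    have h8 : ‖Ez f z‖ ^ 2 ≤ ((M + M2) / ‖z‖ ^ 2) ^ 2 := pow_le_pow_left₀ (norm_nonneg _) hEz 2
    have h9 : ‖Ezb f z‖ ^ 2 ≤ (M / ‖z‖ ^ 2) ^ 2 := pow_le_pow_left₀ (norm_nonneg _) hEzb 2
    have h10 : ((M + M2) / ‖z‖ ^ 2) ^ 2 = (M + M2) ^ 2 / ‖z‖ ^ 4 := by
      rw [div_pow, ← pow_mul]
    have h11 : (M / ‖z‖ ^ 2) ^ 2 = M ^ 2 / ‖z‖ ^ 4 := by
      rw [div_pow, ← pow_mul]
    rw [add_div, ← h10, ← h11, abs_le]
    constructor <;> nlinarith only [h8, h9]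
  have hX : XX f z ^ (-p - 2) ≤ (m ^ (p + 2))⁻¹ * ‖z‖ ^ (p + 2) := by
    rw [show -p - 2 = -(p + 2) by ring, XX_rpow_neg, Real.div_rpow hzn.le hd.le, div_eq_inv_mul]
    refine mul_le_mul_of_nonneg_right ?_ (by positivity)
    exact inv_anti₀ (by positivity) (Real.rpow_le_rpow hm.le ha (by linarith only [hp]))
  have hX0 : 0 ≤ XX f z ^ (-p - 2) := Real.rpow_nonneg (XX_nonneg f z) _
  rw [norm_mul, Real.norm_eq_abs, Real.norm_eq_abs, abs_of_nonneg hX0]
  refine (mul_le_mul hX hJ (abs_nonneg _) (by positivity)).trans (le_of_eq ?_)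
  have e1 : ‖z‖ ^ (p + 2) = ‖z‖ ^ (-(2 - p)) * ‖z‖ ^ (4 : ℕ) := by
    rw [← Real.rpow_natCast, ← Real.rpow_add hzn]
    congr 1
    push_cast
    ring
  rw [e1]
  (clear * - hz0 hm; field_simp)

/-- integrability of the weighted Jacobian -/
theorem integrableOn_weight (h1 : BlockH1) {f : ℂ → ℂ} {R : ℝ} (hf : Nice f R) {p : ℝ}
    (hp : 0 < p) : IntegrableOn (fun z => XX f z ^ (-p - 2) * JJ f z) (ball 0 1) := by
  obtain ⟨m, M, M2, hm, hM, hM2, hb⟩ := exists_deriv_bounds h1 hf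
  have hmeas : Measurable fun z => XX f z ^ (-p - 2) * JJ f z :=
    ((measurable_XX f).pow_const _).mul (measurable_JJ f)
  refine integrableOn_ball_of_norm_le_rpow (E := ℂ) (α := 2 - p)
    (C := (m ^ (p + 2))⁻¹ * ((M + M2) ^ 2 + M ^ 2)) (by rw [Complex.finrank_real_complex]; norm_num)
    (by rw [Complex.finrank_real_complex]; push_cast; linarith) ?_ hmeas.aestronglyMeasurable
  have h0 : ∀ᵐ z : ℂ ∂(volume.restrict (ball (0 : ℂ) 1)), z ≠ 0 := by
    refine ae_restrict_of_ae ?_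
    rw [ae_iff]
    simp
  filter_upwards [h0, ae_restrict_mem measurableSet_ball] with z hz0 hz
  have hz1 : z ∈ closedBall (0 : ℂ) 1 := ball_subset_closedBall hz
  obtain ⟨a, b, c⟩ := hb z hz1
  exact weight_JJ_le hm hM hM2 hz0 (mem_closedBall_zero_iff.1 hz1) a b c hp

/-- **Block I** -/
theorem blockI_of (h1 : BlockH1) (h3 : BlockA3) : BlockI := by
  intro f R hf p hp
  have hI := integrableOn_weight h1 hf hp
  refine ⟨hI, ?_⟩
  have h := lintegral_weight_le h1 h3 hf (q := p + 2) (by linarith)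
  have e : ∀ z, (‖z‖ / ‖deriv f z‖) ^ (p + 2) = XX f z ^ (-p - 2) := fun z => by
    rw [← XX_rpow_neg]
    congr 1
    ring
  simp only [e] at h
  rw [integral_eq_lintegral_pos_part_sub_lintegral_neg_part hI, sub_nonpos]
  exact ENNReal.toReal_mono hI.neg.lintegral_lt_top.ne h

end

end Vale.Agent.P142.Brn
end

section

open Complex MeasureTheory Metric Set Filter Topology
open scoped Real ComplexConjugate ENNReal

namespace Vale.Agent.P142.Brn

end Vale.Agent.P142.Brn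
end

section

/-! Assembly of the topological half. -/

open Complex MeasureTheory Metric Set Filter Topology
open scoped Real ENNReal

namespace Vale.Agent.P142.Brn

theorem blockH4 : BlockH4 := blockH4_of blockT blockH2 (blockH3b_of blockH1)

theorem blockA3' : BlockA3 := blockA3 blockH1 (blockA2 blockH1) blockH4

theorem blockI : BlockI := blockI_of blockH1 blockA3'

end Vale.Agent.P142.Brn
end

section

open Complex MeasureTheory Metric Set Filter Topology intervalIntegral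
open scoped Real ComplexConjugate

namespace Vale.Agent.P142

noncomputable section

lemma circleMap_mem_unit {s : ℝ} (hs0 : 0 ≤ s) (hs1 : s < 1) (θ : ℝ) :
    circleMap 0 s θ ∈ ball (0 : ℂ) 1 := by
  rw [mem_ball_zero_iff, norm_circleMap_zero, abs_of_nonneg hs0]
  exact hs1

lemma hasDerivAt_circleMap_radius (s θ : ℝ) :
    HasDerivAt (fun s : ℝ => circleMap 0 s θ) (cexp (θ * I)) s := by
  simp only [circleMap_zero]
  simpa only [ofRealCLM_apply, ofReal_one, one_mul] using     (Complex.ofRealCLM.hasDerivAt (x := s)).mul_const (cexp (θ * I))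

lemma continuous_circleMap_uncurry :
    Continuous (fun p : ℝ × ℝ => circleMap 0 p.1 p.2) := by
  simp only [circleMap_zero]
  fun_prop

/-- Continuity of circle integrals with respect to the radius. -/
lemma continuousOn_circle_integral {E : Type*} [NormedAddCommGroup E] [NormedSpace ℝ E]
    {G : ℂ → E} (hG : ContinuousOn G (ball (0 : ℂ) 1)) :
    ContinuousOn (fun s : ℝ => ∫ θ in (-π)..π, G (circleMap 0 s θ)) (Ioo (-1) 1) := by
  intro s0 hs0
  apply ContinuousAt.continuousWithinAt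
  have habs : |s0| < 1 := abs_lt.mpr hs0
  obtain ⟨b, hb1, hb2⟩ := exists_between habs
  have hb0 : 0 < b := lt_of_le_of_lt (abs_nonneg _) hb1
  have hsub : closedBall (0 : ℂ) b ⊆ ball 0 1 := closedBall_subset_ball hb2
  obtain ⟨C, hC⟩ := (isCompact_closedBall (0 : ℂ) b).exists_bound_of_continuousOn (hG.mono hsub)
  have hev : ∀ᶠ s : ℝ in 𝓝 s0, |s| ≤ b := by
    have : ∀ᶠ s : ℝ in 𝓝 s0, |s| < b := (continuous_abs.tendsto s0).eventually (gt_mem_nhds hb1)
    exact this.mono fun s hs => hs.le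
  have hmem : ∀ s : ℝ, |s| ≤ b → ∀ θ : ℝ, circleMap 0 s θ ∈ closedBall (0 : ℂ) b := by
    intro s hs θ
    rw [mem_closedBall_zero_iff, norm_circleMap_zero]
    exact hs
  apply intervalIntegral.continuousAt_of_dominated_interval (bound := fun _ => C)
  · filter_upwards [hev] with s hs
    apply Continuous.aestronglyMeasurable
    exact hG.comp_continuous (continuous_circleMap 0 s) (fun θ => hsub (hmem s hs θ))
  · filter_upwards [hev] with s hs
    exact Eventually.of_forall fun θ _ => hC _ (hmem s hs θ)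
  · exact intervalIntegrable_const
  · refine Eventually.of_forall fun θ _ => ?_
    have h1 : ContinuousAt G (circleMap 0 s0 θ) :=
      hG.continuousAt (isOpen_ball.mem_nhds (hsub (hmem s0 hb1.le θ)))
    have h2 : ContinuousAt (fun s : ℝ => circleMap 0 s θ) s0 :=
      (hasDerivAt_circleMap_radius s0 θ).continuousAt
    exact ContinuousAt.comp (f := fun s : ℝ => circleMap 0 s θ) h1 h2

/-- Differentiation of circle integrals with respect to the radius. -/
lemma hasDerivAt_circle_integral {H : ℂ → ℂ} {H' : ℂ → (ℂ →L[ℝ] ℂ)}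
    (hH : ∀ z ∈ ball (0 : ℂ) 1, HasFDerivAt H (H' z) z)
    (hc : ContinuousOn H' (ball (0 : ℂ) 1)) {s : ℝ} (hs0 : 0 < s) (hs1 : s < 1) :
    HasDerivAt (fun s : ℝ => ∫ θ in (-π)..π, H (circleMap 0 s θ))
      (∫ θ in (-π)..π, H' (circleMap 0 s θ) (cexp (θ * I))) s := by
  set a : ℝ := s / 2 with ha
  set b : ℝ := (s + 1) / 2 with hb
  have ha0 : 0 < a := by positivity
  have hb1 : b < 1 := by rw [hb]; linarith only [hs1]
  have hab : Icc a b ∈ 𝓝 s := Icc_mem_nhds (by rw [ha]; linarith only [hs0]) (by rw [hb]; linarith only [hb, hb1])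
  have hmem : ∀ x ∈ Icc a b, ∀ θ : ℝ, circleMap 0 x θ ∈ ball (0 : ℂ) 1 := fun x hx θ =>
    circleMap_mem_unit (by linarith [hx.1]) (by linarith [hx.2]) θ
  have hHc : ContinuousOn H (ball (0 : ℂ) 1) := fun z hz => (hH z hz).continuousAt.continuousWithinAt
  have hcont : ContinuousOn (fun p : ℝ × ℝ => H' (circleMap 0 p.1 p.2) (cexp (p.2 * I)))
      (Icc a b ×ˢ Icc (-π) π) := by
    apply ContinuousOn.clm_apply
    · exact hc.comp continuous_circleMap_uncurry.continuousOn (fun p hp => hmem _ hp.1 _)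
    · (clear * -; fun_prop)
  obtain ⟨C, hC⟩ := (isCompact_Icc.prod isCompact_Icc).exists_bound_of_continuousOn hcont
  have hpi : (-π) ≤ π := by linarith only [Real.pi_pos]
  refine (intervalIntegral.hasDerivAt_integral_of_dominated_loc_of_deriv_le
    (F := fun s θ => H (circleMap 0 s θ))
    (F' := fun s θ => H' (circleMap 0 s θ) (cexp (θ * I)))
    (bound := fun _ => C) hab ?_ ?_ ?_ ?_ ?_ ?_).2
  · filter_upwards [hab] with x hx
    apply Continuous.aestronglyMeasurable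
    exact hHc.comp_continuous (continuous_circleMap 0 x) (fun θ => hmem x hx θ)
  · apply Continuous.intervalIntegrable
    exact hHc.comp_continuous (continuous_circleMap 0 s) (fun θ => circleMap_mem_unit hs0.le hs1 θ)
  · apply Continuous.aestronglyMeasurable
    apply Continuous.clm_apply
    · exact hc.comp_continuous (continuous_circleMap 0 s)
        (fun θ => circleMap_mem_unit hs0.le hs1 θ)
    · fun_prop
  · refine Eventually.of_forall fun θ hθ x hx => ?_
    rw [uIoc_of_le hpi] at hθ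
    exact hC (x, θ) ⟨hx, Ioc_subset_Icc_self hθ⟩
  · exact intervalIntegrable_const
  · refine Eventually.of_forall fun θ hθ x hx => ?_
    have h1 := (hH _ (hmem x hx θ)).comp_hasDerivAt x (hasDerivAt_circleMap_radius x θ)
    exact h1

/-- The tangential derivative integrates to zero. -/
lemma circle_integral_tangential {H : ℂ → ℂ} {H' : ℂ → (ℂ →L[ℝ] ℂ)}
    (hH : ∀ z ∈ ball (0 : ℂ) 1, HasFDerivAt H (H' z) z)
    (hc : ContinuousOn H' (ball (0 : ℂ) 1)) {s : ℝ} (hs0 : 0 ≤ s) (hs1 : s < 1) :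
    ∫ θ in (-π)..π, H' (circleMap 0 s θ) (circleMap 0 s θ * I) = 0 := by
  have h : ∀ θ ∈ uIcc (-π) π, HasDerivAt (fun θ : ℝ => H (circleMap 0 s θ))
      (H' (circleMap 0 s θ) (circleMap 0 s θ * I)) θ := fun θ _ => by
    have h2 := (hH _ (circleMap_mem_unit hs0 hs1 θ)).comp_hasDerivAt θ (hasDerivAt_circleMap 0 s θ)
    exact h2
  rw [intervalIntegral.integral_eq_sub_of_hasDerivAt h]
  · have : circleMap 0 s π = circleMap 0 s (-π) := by
      have := periodic_circleMap 0 s (-π)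
      rw [← this]; congr 1; ring
    rw [this, sub_self]
  · apply Continuous.intervalIntegrable
    apply Continuous.clm_apply
    · exact hc.comp_continuous (continuous_circleMap 0 s)
        (fun θ => circleMap_mem_unit hs0 hs1 θ)
    · fun_prop

/-- Real-linear map with Wirtinger coefficients `a` and `b`. -/
def wirt (a b : ℂ) : ℂ →L[ℝ] ℂ :=
  ContinuousLinearMap.mul ℝ ℂ a + (ContinuousLinearMap.mul ℝ ℂ b).comp
    (conjCLE : ℂ →L[ℝ] ℂ)

@[simp] lemma wirt_apply (a b v : ℂ) : wirt a b v = a * v + b * conj v := by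
  simp only [wirt, add_apply, ContinuousLinearMap.mul_apply', ContinuousLinearMap.comp_apply, ContinuousLinearEquiv.coe_coe, ContinuousAlgEquiv.coeCLE_apply, conjCAE_apply]

/-- `H` has Wirtinger derivatives `a`, `b` at `z`. -/
def HasW (H : ℂ → ℂ) (a b z : ℂ) : Prop := HasFDerivAt H (wirt a b) z

lemma clm_ext_complex {L M : ℂ →L[ℝ] ℂ} (h : ∀ v, L v = M v) : L = M :=
  ContinuousLinearMap.ext h

lemma HasW.of_hasDerivAt {H : ℂ → ℂ} {a z : ℂ} (h : HasDerivAt H a z) : HasW H a 0 z := by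
  have h1 := h.hasFDerivAt.restrictScalars ℝ
  exact h1.congr_fderiv (clm_ext_complex fun v => by simp [mul_comm])

lemma HasW.congr_coeff {H : ℂ → ℂ} {a b a' b' z : ℂ} (h : HasW H a b z) (ha : a = a')
    (hb : b = b') : HasW H a' b' z := by
  subst ha; subst hb; exact h

lemma HasW.const (c z : ℂ) : HasW (fun _ => c) 0 0 z := HasW.of_hasDerivAt (hasDerivAt_const z c)

lemma HasW.conj {H : ℂ → ℂ} {a b z : ℂ} (h : HasW H a b z) :
    HasW (fun z => conj (H z)) (conj b) (conj a) z := by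
  have h1 := (conjCLE : ℂ →L[ℝ] ℂ).hasFDerivAt.comp z h
  exact h1.congr_fderiv (clm_ext_complex fun v => by simp [add_comm])

lemma HasW.mul {H K : ℂ → ℂ} {a b c d z : ℂ} (h : HasW H a b z) (k : HasW K c d z) :
    HasW (fun z => H z * K z) (a * K z + H z * c) (b * K z + H z * d) z := by
  have h1 := HasFDerivAt.mul h k
  exact h1.congr_fderiv (clm_ext_complex fun v => by simp only [add_apply, smul_apply, wirt_apply, smul_eq_mul]; ring)

lemma HasW.add {H K : ℂ → ℂ} {a b c d z : ℂ} (h : HasW H a b z) (k : HasW K c d z) :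
    HasW (fun z => H z + K z) (a + c) (b + d) z := by
  have h1 := HasFDerivAt.add h k
  exact h1.congr_fderiv (clm_ext_complex fun v => by simp only [add_apply, wirt_apply]; ring)

lemma HasW.comp {H φ : ℂ → ℂ} {a b c z : ℂ} (hφ : HasDerivAt φ c (H z)) (h : HasW H a b z) :
    HasW (fun z => φ (H z)) (c * a) (c * b) z := by
  have h1 := (hφ.hasFDerivAt.restrictScalars ℝ).comp z h
  exact h1.congr_fderiv (clm_ext_complex fun v => by simp; ring)

lemma HasW.inv {H : ℂ → ℂ} {a b z : ℂ} (h : HasW H a b z) (h0 : H z ≠ 0) :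
    HasW (fun z => (H z)⁻¹) (-a / (H z) ^ 2) (-b / (H z) ^ 2) z := by
  refine (HasW.comp (hasDerivAt_inv h0) h).congr_coeff ?_ ?_ <;> field_simp

lemma continuousOn_wirt {a b : ℂ → ℂ} {s : Set ℂ} (ha : ContinuousOn a s) (hb : ContinuousOn b s) :
    ContinuousOn (fun z => wirt (a z) (b z)) s := by
  unfold wirt
  apply ContinuousOn.add
  · exact (ContinuousLinearMap.mul ℝ ℂ).continuous.comp_continuousOn ha
  · exact ((ContinuousLinearMap.mul ℝ ℂ).continuous.comp_continuousOn hb).clm_comp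
      continuousOn_const

/-- Radial derivative of a circle integral through the `z`-derivative and the `conj z`-derivative. -/
lemma circle_integral_wirt {H a b : ℂ → ℂ}
    (hH : ∀ z ∈ ball (0 : ℂ) 1, HasW H (a z) (b z) z)
    (ha : ContinuousOn a (ball (0 : ℂ) 1)) (hb : ContinuousOn b (ball (0 : ℂ) 1))
    {s : ℝ} (hs0 : 0 < s) (hs1 : s < 1) :
    HasDerivAt (fun s : ℝ => ∫ θ in (-π)..π, H (circleMap 0 s θ))
      ((2 / s) * ∫ θ in (-π)..π, b (circleMap 0 s θ) * conj (circleMap 0 s θ)) s ∧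
    (∫ θ in (-π)..π, b (circleMap 0 s θ) * conj (circleMap 0 s θ)) =
      ∫ θ in (-π)..π, a (circleMap 0 s θ) * circleMap 0 s θ := by
  have hW := continuousOn_wirt ha hb
  have h1 := hasDerivAt_circle_integral (H' := fun z => wirt (a z) (b z)) hH hW hs0 hs1
  have h2 := circle_integral_tangential (H' := fun z => wirt (a z) (b z)) hH hW hs0.le hs1
  have hmem := fun θ : ℝ => circleMap_mem_unit hs0.le hs1 θ
  have hac : Continuous (fun θ : ℝ => a (circleMap 0 s θ)) :=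
    ha.comp_continuous (continuous_circleMap 0 s) hmem
  have hbc : Continuous (fun θ : ℝ => b (circleMap 0 s θ)) :=
    hb.comp_continuous (continuous_circleMap 0 s) hmem
  have hzc : Continuous (fun θ : ℝ => circleMap 0 s θ) := continuous_circleMap 0 s
  have hzc' : Continuous (fun θ : ℝ => conj (circleMap 0 s θ)) :=
    Complex.continuous_conj.comp hzc
  have iA : IntervalIntegrable (fun θ : ℝ => a (circleMap 0 s θ) * circleMap 0 s θ) volume (-π) π :=
    (hac.mul hzc).intervalIntegrable _ _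
  have iB : IntervalIntegrable (fun θ : ℝ => b (circleMap 0 s θ) * conj (circleMap 0 s θ))
      volume (-π) π := (hbc.mul hzc').intervalIntegrable _ _
  have hs : (s : ℂ) ≠ 0 := by exact_mod_cast hs0.ne'
  have e2 : (∫ θ in (-π)..π, a (circleMap 0 s θ) * circleMap 0 s θ) -
      ∫ θ in (-π)..π, b (circleMap 0 s θ) * conj (circleMap 0 s θ) = 0 := by
    rw [← intervalIntegral.integral_sub iA iB]
    have : ∀ θ : ℝ, wirt (a (circleMap 0 s θ)) (b (circleMap 0 s θ)) (circleMap 0 s θ * I) =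
        I * (a (circleMap 0 s θ) * circleMap 0 s θ -
          b (circleMap 0 s θ) * conj (circleMap 0 s θ)) := by
      intro θ
      simp only [wirt_apply, map_mul, conj_I]
      ring
    simp only [this, intervalIntegral.integral_const_mul] at h2
    exact (mul_eq_zero.mp h2).resolve_left I_ne_zero
  have e3 : (∫ θ in (-π)..π, b (circleMap 0 s θ) * conj (circleMap 0 s θ)) =
      ∫ θ in (-π)..π, a (circleMap 0 s θ) * circleMap 0 s θ := (sub_eq_zero.mp e2).symm
  refine ⟨?_, e3⟩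
  convert h1 using 1
  have e4 : ∀ θ : ℝ, wirt (a (circleMap 0 s θ)) (b (circleMap 0 s θ)) (cexp (θ * I)) =
      (s : ℂ)⁻¹ * (a (circleMap 0 s θ) * circleMap 0 s θ +
        b (circleMap 0 s θ) * conj (circleMap 0 s θ)) := by
    intro θ
    simp only [wirt_apply, circleMap_zero, map_mul, conj_ofReal]
    field_simp
  simp only [e4, intervalIntegral.integral_const_mul]
  rw [intervalIntegral.integral_add iA iB, ← e3]
  field_simp
  ring

end

end Vale.Agent.P142
end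

section

open Complex MeasureTheory Metric Set Filter Topology
open scoped Real ComplexConjugate Nat

namespace Vale.Agent.P142

noncomputable section

/-- `f` is holomorphic and injective on the unit disc. -/
def Univ (f : ℂ → ℂ) : Prop :=
  DifferentiableOn ℂ f (ball 0 1) ∧ InjOn f (ball 0 1)

/-- Taylor coefficient at `0`. -/
def tc (U : ℂ → ℂ) (n : ℕ) : ℂ := (n ! : ℂ)⁻¹ * iteratedDeriv n U 0

/-- Normalised Taylor series of `(f (z + h) - f z) / (f' z * h)` in `h`. -/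
def Aser (f : ℂ → ℂ) (z : ℂ) : PowerSeries ℂ :=
  PowerSeries.mk fun k => iteratedDeriv (k + 1) f z / ((k + 1)! * deriv f z)

/-- Taylor series of `f' z * h / (f (z + h) - f z)` in `h`. -/
def Bser (f : ℂ → ℂ) (z : ℂ) : PowerSeries ℂ := (Aser f z)⁻¹

/-- Jets: `f' z / (f (z + h) - f z) = 1 / h + ∑ lam f n z * h ^ n`. -/
def lam (f : ℂ → ℂ) (n : ℕ) (z : ℂ) : ℂ := PowerSeries.coeff (n + 1) (Bser f z)

/-- Normalised jets. -/
def X (f : ℂ → ℂ) (n : ℕ) (z : ℂ) : ℂ := (((1 - ‖z‖ ^ 2 : ℝ) : ℂ) * z) ^ (n + 1) * lam f n z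

/-- Koebe transform of `f` at `z`. -/
def koebeT (f : ℂ → ℂ) (z ζ : ℂ) : ℂ :=
  (f ((ζ + z) / (1 + conj z * ζ)) - f z) / (((1 - ‖z‖ ^ 2 : ℝ) : ℂ) * deriv f z)

end

end Vale.Agent.P142
end

section

open Complex MeasureTheory Metric Set Filter Topology intervalIntegral
open scoped Real ComplexConjugate Nat

namespace Vale.Agent.P142

noncomputable section

lemma hasSum_of_eq {f g : ℕ → ℂ} {a : ℂ} (h : ∀ n, f n = g n) (hf : HasSum f a) :
    HasSum g a := by
  have : f = g := funext h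
  rwa [← this]

lemma hasSum_tc {U : ℂ → ℂ} (hU : DifferentiableOn ℂ U (ball 0 1)) {z : ℂ}
    (hz : z ∈ ball (0 : ℂ) 1) : HasSum (fun n => tc U n * z ^ n) (U z) := by
  refine hasSum_of_eq (fun n => ?_) (Complex.hasSum_taylorSeries_on_ball hU hz)
  simp only [tc, smul_eq_mul, sub_zero]
  ring

lemma tc_deriv (U : ℂ → ℂ) (n : ℕ) : tc (deriv U) n = (n + 1 : ℂ) * tc U (n + 1) := by
  unfold tc
  rw [← iteratedDeriv_succ', Nat.factorial_succ]
  have h1 : ((n : ℂ) + 1) ≠ 0 := by exact_mod_cast Nat.succ_ne_zero n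
  have h2 : (n ! : ℂ) ≠ 0 := by exact_mod_cast Nat.factorial_ne_zero n
  push_cast
  field_simp

lemma hasSum_tc_mul_deriv {U : ℂ → ℂ} (hU : DifferentiableOn ℂ U (ball 0 1)) {z : ℂ}
    (hz : z ∈ ball (0 : ℂ) 1) : HasSum (fun n : ℕ => ((n : ℂ) * tc U n) * z ^ n) (z * deriv U z) := by
  have h := (hasSum_tc (hU.deriv isOpen_ball) hz).mul_left z
  have h2 := (hasSum_nat_add_iff (f := fun n : ℕ => ((n : ℂ) * tc U n) * z ^ n) 1
    (g := z * deriv U z)).mp (hasSum_of_eq (fun n => ?_) h)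
  · simpa using h2
  · rw [tc_deriv]
    push_cast
    ring

lemma orth (s : ℝ) (j k : ℕ) :
    ∫ θ in (-π)..π, circleMap 0 s θ ^ j * conj (circleMap 0 s θ) ^ k =
      if j = k then 2 * π * (s : ℂ) ^ (2 * k) else 0 := by
  have e : ∀ θ : ℝ, circleMap 0 s θ ^ j * conj (circleMap 0 s θ) ^ k =
      (s : ℂ) ^ (j + k) * cexp ((((j : ℂ) - k) * I) * θ) := by
    intro θ
    rw [circleMap_zero, map_mul, conj_ofReal, ← Complex.exp_conj, mul_pow, mul_pow,
      ← Complex.exp_nat_mul, ← Complex.exp_nat_mul, map_mul, conj_ofReal, conj_I]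
    have : cexp ((((j : ℂ) - k) * I) * θ) =
        cexp (↑j * (↑θ * I)) * cexp (↑k * (↑θ * -I)) := by
      rw [← Complex.exp_add]; congr 1; ring
    rw [this]; ring
  simp only [e, intervalIntegral.integral_const_mul]
  split_ifs with h
  · subst h
    simp only [sub_self, zero_mul, exp_zero, intervalIntegral.integral_const, sub_neg_eq_add, real_smul, ofReal_add, mul_one]
    ring
  · have hne : ((j : ℂ) - k) * I ≠ 0 := by
      apply mul_ne_zero _ I_ne_zero
      rw [sub_ne_zero]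
      exact_mod_cast h
    rw [integral_exp_mul_complex hne]
    have hexp : cexp (((j : ℂ) - k) * I * (π : ℝ)) = cexp (((j : ℂ) - k) * I * ((-π : ℝ) : ℂ)) := by
      rw [Complex.exp_eq_exp_iff_exists_int]
      refine ⟨(j : ℤ) - k, ?_⟩
      push_cast
      ring
    rw [hexp, sub_self, zero_div, mul_zero]

/-- Parseval identity on circles for functions given by power series. -/
lemma parseval {U W : ℂ → ℂ} {a b : ℕ → ℂ} {s : ℝ} (hs0 : 0 ≤ s) (hs1 : s < 1)
    (hUc : ContinuousOn U (ball 0 1))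
    (hU : ∀ z ∈ ball (0 : ℂ) 1, HasSum (fun n => a n * z ^ n) (U z))
    (hW : ∀ z ∈ ball (0 : ℂ) 1, HasSum (fun n => b n * z ^ n) (W z)) :
    HasSum (fun n => 2 * π * (a n * conj (b n) * (s : ℂ) ^ (2 * n)))
      (∫ θ in (-π)..π, U (circleMap 0 s θ) * conj (W (circleMap 0 s θ))) := by
  have hmem := fun θ : ℝ => circleMap_mem_unit hs0 hs1 θ
  have hzs : (s : ℂ) ∈ ball (0 : ℂ) 1 := by
    rw [mem_ball_zero_iff, Complex.norm_real, Real.norm_eq_abs, abs_of_nonneg hs0]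
    exact hs1
  have nz : ∀ θ, ‖circleMap 0 s θ‖ = s := fun θ => by rw [norm_circleMap_zero, abs_of_nonneg hs0]
  have sa : Summable (fun n => ‖a n‖ * s ^ n) := by
    refine (hU _ hzs).summable.norm.congr fun n => ?_
    rw [norm_mul, norm_pow, Complex.norm_real, Real.norm_eq_abs, abs_of_nonneg hs0]
  have sb : Summable (fun n => ‖b n‖ * s ^ n) := by
    refine (hW _ hzs).summable.norm.congr fun n => ?_
    rw [norm_mul, norm_pow, Complex.norm_real, Real.norm_eq_abs, abs_of_nonneg hs0]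
  have hUcont : Continuous (fun θ : ℝ => U (circleMap 0 s θ)) :=
    hUc.comp_continuous (continuous_circleMap 0 s) hmem
  obtain ⟨C, hC⟩ := (isCompact_Icc (a := -π) (b := π)).exists_bound_of_continuousOn
    hUcont.continuousOn
  have hpi : (-π) ≤ π := by linarith [Real.pi_pos]
  have hC0 : 0 ≤ C := le_trans (norm_nonneg _) (hC 0 ⟨by linarith [Real.pi_pos], Real.pi_pos.le⟩)
  -- inner expansion
  have inner : ∀ k : ℕ, ∫ θ in (-π)..π, U (circleMap 0 s θ) * conj (circleMap 0 s θ) ^ k =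
      2 * π * (a k * (s : ℂ) ^ (2 * k)) := by
    intro k
    have h := intervalIntegral.hasSum_integral_of_dominated_convergence
      (μ := volume) (a := -π) (b := π)
      (F := fun j θ => (a j * circleMap 0 s θ ^ j) * conj (circleMap 0 s θ) ^ k)
      (f := fun θ => U (circleMap 0 s θ) * conj (circleMap 0 s θ) ^ k)
      (bound := fun j _ => (‖a j‖ * s ^ j) * s ^ k) ?_ ?_ ?_ ?_ ?_
    · have h2 : ∀ j, ∫ θ in (-π)..π, (a j * circleMap 0 s θ ^ j) * conj (circleMap 0 s θ) ^ k =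
          a j * (if j = k then 2 * π * (s : ℂ) ^ (2 * k) else 0) := by
        intro j
        rw [← orth s j k, ← intervalIntegral.integral_const_mul]
        congr 1; ext θ; ring
      simp only [h2] at h
      have h3 : HasSum (fun j => a j * (if j = k then 2 * π * (s : ℂ) ^ (2 * k) else 0))
          (a k * (if k = k then 2 * π * (s : ℂ) ^ (2 * k) else 0)) := by
        apply hasSum_single
        intro j hj
        simp [hj]
      rw [h.unique h3]
      simp
      ring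
    · intro j
      apply Continuous.aestronglyMeasurable
      have := continuous_circleMap 0 s
      fun_prop
    · intro j
      refine Eventually.of_forall fun θ _ => ?_
      simp only [norm_mul, norm_pow, RCLike.norm_conj, nz]
      exact le_refl _
    · refine Eventually.of_forall fun θ _ => sa.mul_right _
    · exact intervalIntegrable_const
    · refine Eventually.of_forall fun θ _ => ?_
      exact (hU _ (hmem θ)).mul_right _
  have h := intervalIntegral.hasSum_integral_of_dominated_convergence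
      (μ := volume) (a := -π) (b := π)
      (F := fun k θ => conj (b k) * (U (circleMap 0 s θ) * conj (circleMap 0 s θ) ^ k))
      (f := fun θ => U (circleMap 0 s θ) * conj (W (circleMap 0 s θ)))
      (bound := fun k _ => (‖b k‖ * s ^ k) * C) ?_ ?_ ?_ ?_ ?_
  · refine hasSum_of_eq (fun k => ?_) h
    rw [intervalIntegral.integral_const_mul, inner k]
    ring
  · intro k
    apply Continuous.aestronglyMeasurable
    exact continuous_const.mul (hUcont.mul ((Complex.continuous_conj.comp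
      (continuous_circleMap 0 s)).pow k))
  · intro k
    refine Eventually.of_forall fun θ hθ => ?_
    rw [uIoc_of_le hpi] at hθ
    simp only [norm_mul, norm_pow, RCLike.norm_conj, nz]
    have := hC θ (Ioc_subset_Icc_self hθ)
    calc ‖b k‖ * (‖U (circleMap 0 s θ)‖ * s ^ k) = (‖b k‖ * s ^ k) * ‖U (circleMap 0 s θ)‖ := by ring
      _ ≤ (‖b k‖ * s ^ k) * C := by (clear * - this hs0; gcongr)
  · refine Eventually.of_forall fun θ _ => sb.mul_right _
  · exact intervalIntegrable_const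
  · refine Eventually.of_forall fun θ _ => ?_
    have h2 := Complex.hasSum_conj'.mpr (hW _ (hmem θ))
    have h3 := h2.mul_left (U (circleMap 0 s θ))
    refine hasSum_of_eq (fun n => ?_) h3
    rw [map_mul, map_pow]
    ring

end

end Vale.Agent.P142
end

section

/-!
The integral identity behind the inequality (B) for Brennan's conjecture (block P).
-/

open Complex MeasureTheory Metric Set Filter Topology
open scoped Real ENNReal ComplexConjugate Nat

namespace Vale.Agent.P142.Brn.Par6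

noncomputable section

/-- Parseval, real form, for a function given by a power series. -/
lemma parseval_sq {U : ℂ → ℂ} {a : ℕ → ℂ} {s : ℝ} (hs0 : 0 ≤ s) (hs1 : s < 1)
    (hUc : ContinuousOn U (ball 0 1))
    (hU : ∀ z ∈ ball (0 : ℂ) 1, HasSum (fun n => a n * z ^ n) (U z)) :
    HasSum (fun n : ℕ => 2 * π * (‖a n‖ ^ 2 * s ^ (2 * n)))
      (∫ θ in (-π)..π, ‖U (circleMap 0 s θ)‖ ^ 2) := by
  have hP := parseval hs0 hs1 hUc hU hU
  have h := Complex.hasSum_re hP
  have e : ∀ n : ℕ, (2 * π * (a n * conj (a n) * (s : ℂ) ^ (2 * n))).re =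
      2 * π * (‖a n‖ ^ 2 * s ^ (2 * n)) := by
    intro n
    have : 2 * π * (a n * conj (a n) * (s : ℂ) ^ (2 * n)) =
        ((2 * π * (‖a n‖ ^ 2 * s ^ (2 * n)) : ℝ) : ℂ) := by
      rw [mul_conj, normSq_eq_norm_sq]
      push_cast
      ring
    rw [this, ofReal_re]
  have e2 : (∫ θ in (-π)..π, U (circleMap 0 s θ) * conj (U (circleMap 0 s θ))).re =
      ∫ θ in (-π)..π, ‖U (circleMap 0 s θ)‖ ^ 2 := by
    have e3 : ∀ θ, U (circleMap 0 s θ) * conj (U (circleMap 0 s θ)) =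
        ((‖U (circleMap 0 s θ)‖ ^ 2 : ℝ) : ℂ) := by
      intro θ; rw [mul_conj, normSq_eq_norm_sq]
    simp only [e3]
    rw [intervalIntegral.integral_ofReal, ofReal_re]
  rw [e2] at h
  rw [← funext e]
  exact h

/-- `W = |z|² G - (2/p) (1 - |z|²) z G'`. -/
def Wf (G : ℂ → ℂ) (p : ℝ) (z : ℂ) : ℂ :=
  ((‖z‖ ^ 2 : ℝ) : ℂ) * G z - ((2 / p * (1 - ‖z‖ ^ 2) : ℝ) : ℂ) * (z * deriv G z)

/-- The first density. -/
def K1 (G : ℂ → ℂ) (p : ℝ) (z : ℂ) : ℝ :=
  ‖z‖ ^ (p - 2) * (‖Wf G p z‖ ^ 2 - ‖G z‖ ^ 2) / 4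

/-- The second density. -/
def K2 (G : ℂ → ℂ) (p : ℝ) (z : ℂ) : ℝ :=
  ‖z‖ ^ p * ‖G z‖ ^ 2 * (4 * ‖z‖ ^ 2 - 2 - p)

/-- Circle averages of the difference. -/
def dd (G : ℂ → ℂ) (p : ℝ) (z : ℂ) : ℝ := K1 G p z - K2 G p z / p ^ 2

/-- The radial densities. -/
def phn (p : ℝ) (n : ℕ) (r : ℝ) : ℝ :=
  r ^ (2 * n) * (r * (r ^ (p - 2) * ((r ^ 2 - 2 * n / p * (1 - r ^ 2)) ^ 2 - 1) / 4
    - r ^ p * (4 * r ^ 2 - 2 - p) / p ^ 2))

lemma circle_sum {G : ℂ → ℂ} (hG : DifferentiableOn ℂ G (ball 0 1)) {p r : ℝ} (hr0 : 0 ≤ r)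
    (hr1 : r < 1) :
    HasSum (fun n : ℕ => 2 * π * (‖tc G n‖ ^ 2 * phn p n r))
      (r * ∫ θ in (-π)..π, dd G p (circleMap 0 r θ)) := by
  have nz : ∀ θ, ‖circleMap 0 r θ‖ = r := fun θ => by rw [norm_circleMap_zero, abs_of_nonneg hr0]
  have hG' := hG.deriv isOpen_ball
  set V : ℂ → ℂ := fun z => ((r ^ 2 : ℝ) : ℂ) * G z - ((2 / p * (1 - r ^ 2) : ℝ) : ℂ) *
    (z * deriv G z) with hV
  have hVc : ContinuousOn V (ball 0 1) :=
    (continuousOn_const.mul hG.continuousOn).sub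
      (continuousOn_const.mul (continuousOn_id.mul hG'.continuousOn))
  have hVs : ∀ z ∈ ball (0 : ℂ) 1, HasSum (fun n : ℕ =>
      (((r ^ 2 - 2 * n / p * (1 - r ^ 2) : ℝ) : ℂ) * tc G n) * z ^ n) (V z) := by
    intro z hz
    have h1 := (hasSum_tc hG hz).mul_left ((r ^ 2 : ℝ) : ℂ)
    have h2 := (hasSum_tc_mul_deriv hG hz).mul_left ((2 / p * (1 - r ^ 2) : ℝ) : ℂ)
    refine hasSum_of_eq (fun n => ?_) (h1.sub h2)
    push_cast
    ring
  have hP1 := parseval_sq hr0 hr1 hVc hVs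
  have hP2 := parseval_sq hr0 hr1 hG.continuousOn (fun z hz => hasSum_tc hG hz)
  have hcm : Continuous (fun θ : ℝ => circleMap 0 r θ) := continuous_circleMap 0 r
  have hmem := fun θ : ℝ => circleMap_mem_unit hr0 hr1 θ
  have hVi : IntervalIntegrable (fun θ : ℝ => ‖V (circleMap 0 r θ)‖ ^ 2) volume (-π) π :=
    ((hVc.comp_continuous hcm hmem).norm.pow 2).intervalIntegrable _ _
  have hGi : IntervalIntegrable (fun θ : ℝ => ‖G (circleMap 0 r θ)‖ ^ 2) volume (-π) π :=
    ((hG.continuousOn.comp_continuous hcm hmem).norm.pow 2).intervalIntegrable _ _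
  have e1 : (∫ θ in (-π)..π, dd G p (circleMap 0 r θ)) =
      r ^ (p - 2) / 4 * (∫ θ in (-π)..π, ‖V (circleMap 0 r θ)‖ ^ 2) -
      (r ^ (p - 2) / 4 + r ^ p * (4 * r ^ 2 - 2 - p) / p ^ 2) *
        ∫ θ in (-π)..π, ‖G (circleMap 0 r θ)‖ ^ 2 := by
    rw [← intervalIntegral.integral_const_mul, ← intervalIntegral.integral_const_mul,
      ← intervalIntegral.integral_sub (hVi.const_mul _) (hGi.const_mul _)]
    congr 1
    ext θ
    simp only [dd, K1, K2, Wf, nz, hV]
    ring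
  rw [e1, mul_sub, ← mul_assoc, ← mul_assoc]
  have h := (hP1.mul_left (r * (r ^ (p - 2) / 4))).sub
    (hP2.mul_left (r * (r ^ (p - 2) / 4 + r ^ p * (4 * r ^ 2 - 2 - p) / p ^ 2)))
  have ef : (fun n : ℕ => 2 * π * (‖tc G n‖ ^ 2 * phn p n r)) = fun n : ℕ =>
      r * (r ^ (p - 2) / 4) * (2 * π *
        (‖((r ^ 2 - 2 * n / p * (1 - r ^ 2) : ℝ) : ℂ) * tc G n‖ ^ 2 * r ^ (2 * n))) -
      r * (r ^ (p - 2) / 4 + r ^ p * (4 * r ^ 2 - 2 - p) / p ^ 2) *
        (2 * π * (‖tc G n‖ ^ 2 * r ^ (2 * n))) := by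
    ext n
    rw [norm_mul, Complex.norm_real, mul_pow, Real.norm_eq_abs, sq_abs, phn]
    ring
  rw [ef]
  exact h

/-- Primitive of `phn`. -/
def Phn (p : ℝ) (n : ℕ) (r : ℝ) : ℝ :=
  1 / (2 * p ^ 2) * (r ^ (2 * n) * r ^ p *
    ((n + p / 2 - p) + (2 + p - 2 * (n + p / 2)) * r ^ 2 + (n + p / 2 - 2) * r ^ 4))

lemma hasDerivAt_Phn {p : ℝ} (hp : 0 < p) (n : ℕ) {r : ℝ} (hr : 0 < r) :
    HasDerivAt (Phn p n) (phn p n r) r := by
  have h1 : HasDerivAt (fun r : ℝ => r ^ (2 * n)) ((2 * n : ℕ) * r ^ (2 * n - 1)) r := by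
    simpa only [Nat.cast_mul, Nat.cast_ofNat] using hasDerivAt_pow (2 * n) r
  have h2 : HasDerivAt (fun r : ℝ => r ^ p) (p * r ^ (p - 1)) r :=
    Real.hasDerivAt_rpow_const (Or.inl hr.ne')
  have h3 : HasDerivAt (fun r : ℝ => ((n : ℝ) + p / 2 - p) +
      (2 + p - 2 * (n + p / 2)) * r ^ 2 + (n + p / 2 - 2) * r ^ 4)
      ((2 + p - 2 * (n + p / 2)) * (2 * r) + (n + p / 2 - 2) * (4 * r ^ 3)) r := by
    have a := ((hasDerivAt_pow 2 r).const_mul ((2 : ℝ) + p - 2 * (n + p / 2)))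
    have b := ((hasDerivAt_pow 4 r).const_mul ((n : ℝ) + p / 2 - 2))
    have c := (a.const_add ((n : ℝ) + p / 2 - p)).add b
    refine c.congr_deriv ?_
    norm_num
  have h := ((h1.fun_mul h2).fun_mul h3).const_mul (1 / (2 * p ^ 2))
  refine (h.congr_deriv ?_ : HasDerivAt (Phn p n) (phn p n r) r)
  have hr2 : r ^ p = r ^ (p - 2) * r ^ 2 := by
    rw [← Real.rpow_natCast r 2, ← Real.rpow_add hr]
    norm_num
  have hr1 : r ^ (p - 1) = r ^ (p - 2) * r := by
    rw [← Real.rpow_add_one hr.ne']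
    congr 1
    ring
  simp only [phn]
  rw [hr2, hr1]
  rcases Nat.eq_zero_or_pos n with rfl | hn
  · simp only [Nat.mul_zero, pow_zero, Nat.cast_zero]
    field_simp
    ring
  · obtain ⟨k, rfl⟩ : ∃ k, n = k + 1 := ⟨n - 1, by omega⟩
    have e1 : 2 * (k + 1) - 1 = 2 * k + 1 := by omega
    have e2 : 2 * (k + 1) = 2 * k + 2 := by ring
    rw [e1, e2]
    push_cast
    field_simp
    ring

lemma rpow_intOn {p : ℝ} (hp : 0 < p) : IntegrableOn (fun r : ℝ => r ^ (p - 1)) (Ioo 0 1) := by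
  have h := (intervalIntegral.intervalIntegrable_rpow' (a := 0) (b := 1) (r := p - 1)
    (by linarith))
  rw [intervalIntegrable_iff_integrableOn_Ioo_of_le zero_le_one] at h
  exact h

/-- A constant for `phn_bound`. -/
def Mp (p : ℝ) : ℝ := ((1 + 2 / p) ^ 2 + 1) / 4 + (6 + p) / p ^ 2

lemma phn_bound {p : ℝ} (hp : 0 < p) (n : ℕ) {r : ℝ} (h0 : 0 < r) (h1 : r < 1) :
    |phn p n r| ≤ Mp p * ((n : ℝ) + 1) ^ 2 * r ^ (p - 1) := by
  have e1 : r * r ^ (p - 2) = r ^ (p - 1) := by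
    rw [mul_comm, ← Real.rpow_add_one h0.ne']; congr 1; ring
  have e2 : r * r ^ p = r ^ (p - 1) * r ^ 2 := by
    rw [mul_comm, ← Real.rpow_add_one h0.ne', ← Real.rpow_natCast r 2, ← Real.rpow_add h0]
    congr 1; push_cast; ring
  have hn : (0 : ℝ) ≤ n := Nat.cast_nonneg n
  have hr2 : r ^ 2 ≤ 1 := by nlinarith only [h1, h0]
  have hr20 : 0 ≤ r ^ 2 := sq_nonneg r
  set c : ℝ := 2 * n / p with hc
  have hc0 : 0 ≤ c := by (clear * - hp; positivity)
  have e : phn p n r = r ^ (2 * n) * (r ^ (p - 1) *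
      (((r ^ 2 - c * (1 - r ^ 2)) ^ 2 - 1) / 4 - r ^ 2 * (4 * r ^ 2 - 2 - p) / p ^ 2)) := by
    unfold phn
    rw [show r * (r ^ (p - 2) * ((r ^ 2 - 2 * n / p * (1 - r ^ 2)) ^ 2 - 1) / 4 -
      r ^ p * (4 * r ^ 2 - 2 - p) / p ^ 2) = (r * r ^ (p - 2)) *
      (((r ^ 2 - 2 * n / p * (1 - r ^ 2)) ^ 2 - 1) / 4) -
      (r * r ^ p) * ((4 * r ^ 2 - 2 - p) / p ^ 2) by ring, e1, e2]
    ring
  have hpos : 0 ≤ r ^ (p - 1) := Real.rpow_nonneg h0.le _
  have hrn : r ^ (2 * n) ≤ 1 := pow_le_one₀ h0.le h1.le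
  have hrn0 : 0 ≤ r ^ (2 * n) := pow_nonneg h0.le _
  have hcr : 0 ≤ c * (1 - r ^ 2) := mul_nonneg hc0 (sub_nonneg.mpr hr2)
  have hcr2 : 0 ≤ c * r ^ 2 := mul_nonneg hc0 hr20
  have hA : |(r ^ 2 - c * (1 - r ^ 2))| ≤ 1 + c := by
    rw [abs_le]
    constructor <;> linarith only [hr2, hc0, hcr, hr20, hcr2]
  have hA2 : (r ^ 2 - c * (1 - r ^ 2)) ^ 2 ≤ (1 + c) ^ 2 := by
    rw [← sq_abs]
    exact pow_le_pow_left₀ (abs_nonneg _) hA 2
  have hc1 : 1 + c ≤ (1 + 2 / p) * (n + 1) := by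
    have : c = 2 / p * n := by rw [hc]; ring
    have h2p : 0 < 2 / p := by positivity
    rw [this, add_mul, one_mul, mul_add, mul_one]
    linarith only [h2p]
  have hc2 : (1 + c) ^ 2 ≤ (1 + 2 / p) ^ 2 * (n + 1) ^ 2 := by
    rw [← mul_pow]
    exact pow_le_pow_left₀ (by (clear * - hp; positivity)) hc1 2
  have hn1 : (1 : ℝ) ≤ (n + 1) ^ 2 := by nlinarith
  have hT : 0 ≤ (1 + 2 / p) ^ 2 * ((n : ℝ) + 1) ^ 2 := by positivity
  have hS : 0 ≤ (r ^ 2 - c * (1 - r ^ 2)) ^ 2 := sq_nonneg _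
  have hB : |(r ^ 2 - c * (1 - r ^ 2)) ^ 2 - 1| ≤ ((1 + 2 / p) ^ 2 + 1) * (n + 1) ^ 2 := by
    rw [abs_le, add_mul, one_mul]
    constructor <;> linarith only [hA2, hc2, hn1, hT, hS]
  have hC : |r ^ 2 * (4 * r ^ 2 - 2 - p)| ≤ (6 + p) * (n + 1) ^ 2 := by
    rw [abs_mul, abs_of_nonneg hr20]
    have h3 : |4 * r ^ 2 - 2 - p| ≤ 6 + p := by
      rw [abs_le]
      constructor <;> linarith only [hp, hr2, hr20]
    have h6 := mul_le_mul_of_nonneg_left hn1 (show (0 : ℝ) ≤ 6 + p by linarith only [hp])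
    calc r ^ 2 * |4 * r ^ 2 - 2 - p| ≤ 1 * (6 + p) := by (clear * - hr2 h3; gcongr)
      _ ≤ (6 + p) * (n + 1) ^ 2 := by linarith only [h6]
  rw [e, abs_mul, abs_mul, abs_of_nonneg hrn0, abs_of_nonneg hpos]
  have hD : |((r ^ 2 - c * (1 - r ^ 2)) ^ 2 - 1) / 4 - r ^ 2 * (4 * r ^ 2 - 2 - p) / p ^ 2| ≤
      Mp p * (n + 1) ^ 2 := by
    refine (abs_sub _ _).trans ?_
    rw [abs_div, abs_div, abs_of_pos (show (0 : ℝ) < 4 by norm_num),
      abs_of_pos (show 0 < p ^ 2 by positivity)]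
    have h4 : |(r ^ 2 - c * (1 - r ^ 2)) ^ 2 - 1| / 4 ≤
        ((1 + 2 / p) ^ 2 + 1) * (n + 1) ^ 2 / 4 := by (clear * - hB; gcongr)
    have h5 : |r ^ 2 * (4 * r ^ 2 - 2 - p)| / p ^ 2 ≤ (6 + p) * (n + 1) ^ 2 / p ^ 2 := by
      (clear * - hC hp; gcongr)
    calc _ ≤ ((1 + 2 / p) ^ 2 + 1) * (n + 1) ^ 2 / 4 + (6 + p) * (n + 1) ^ 2 / p ^ 2 :=
          add_le_add h4 h5
      _ = Mp p * (n + 1) ^ 2 := by unfold Mp; ring
  calc _ ≤ 1 * (r ^ (p - 1) * (Mp p * (n + 1) ^ 2)) := by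
        (clear * - hrn hD h0; gcongr)
    _ = _ := by ring

lemma measurable_phn (p : ℝ) (n : ℕ) : Measurable (phn p n) := by
  unfold phn
  fun_prop

lemma phn_intOn {p : ℝ} (hp : 0 < p) (n : ℕ) : IntegrableOn (phn p n) (Ioo 0 1) := by
  refine Integrable.mono' ((rpow_intOn hp).const_mul (Mp p * ((n : ℝ) + 1) ^ 2))
    (measurable_phn p n).aestronglyMeasurable ?_
  refine (ae_restrict_iff' measurableSet_Ioo).mpr (Eventually.of_forall fun r hr => ?_)
  rw [Real.norm_eq_abs]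
  exact phn_bound hp n hr.1 hr.2

lemma phn_integral {p : ℝ} (hp : 0 < p) (n : ℕ) : ∫ r in Ioo (0 : ℝ) 1, phn p n r = 0 := by
  rw [← integral_Ioc_eq_integral_Ioo, ← intervalIntegral.integral_of_le zero_le_one]
  rw [intervalIntegral.integral_eq_sub_of_hasDerivAt_of_le zero_le_one (f := Phn p n)]
  · simp only [Phn, one_div, mul_inv_rev, one_pow, Real.one_rpow, mul_one, one_mul, Real.zero_rpow hp.ne', mul_zero, ne_eq, OfNat.ofNat_ne_zero, not_false_eq_true, zero_pow, add_zero, zero_mul, sub_zero, mul_eq_zero, inv_eq_zero, pow_eq_zero_iff, or_false]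
    right
    ring
  · have : Continuous (Phn p n) := by
      unfold Phn
      have h : Continuous (fun r : ℝ => r ^ p) := Real.continuous_rpow_const hp.le
      fun_prop
    exact this.continuousOn
  · intro x hx
    exact hasDerivAt_Phn hp n hx.1
  · rw [intervalIntegrable_iff_integrableOn_Ioo_of_le zero_le_one]
    exact phn_intOn hp n

lemma hasSum_tcR {U : ℂ → ℂ} {R : ℝ} (hU : DifferentiableOn ℂ U (ball 0 R)) {z : ℂ}
    (hz : z ∈ ball (0 : ℂ) R) : HasSum (fun n => tc U n * z ^ n) (U z) := by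
  refine hasSum_of_eq (fun n => ?_) (Complex.hasSum_taylorSeries_on_ball hU hz)
  simp only [tc, smul_eq_mul, sub_zero]
  ring

lemma summ_coef {G : ℂ → ℂ} {R : ℝ} (hR : 1 < R) (hG : DifferentiableOn ℂ G (ball 0 R)) :
    Summable (fun n : ℕ => ‖tc G n‖ ^ 2 * ((n : ℝ) + 1) ^ 2) := by
  obtain ⟨ρ, hρ1, hρR⟩ := exists_between hR
  have hρ0 : 0 < ρ := by linarith
  have hz : (ρ : ℂ) ∈ ball (0 : ℂ) R := by
    rw [mem_ball_zero_iff, Complex.norm_real, Real.norm_eq_abs, abs_of_pos hρ0]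
    exact hρR
  have h1 := (hasSum_tcR hG hz).summable.norm
  have h2 : Tendsto (fun n : ℕ => ‖tc G n * (ρ : ℂ) ^ n‖) atTop (𝓝 0) := h1.tendsto_atTop_zero
  obtain ⟨C, hC⟩ := h2.bddAbove_range
  have hC' : ∀ n : ℕ, ‖tc G n‖ * ρ ^ n ≤ C := by
    intro n
    have := hC (mem_range_self n)
    rwa [norm_mul, norm_pow, Complex.norm_real, Real.norm_eq_abs, abs_of_pos hρ0] at this
  set x : ℝ := (ρ⁻¹) ^ 2 with hx
  have hρi : ρ⁻¹ < 1 := inv_lt_one_of_one_lt₀ hρ1
  have hx1 : ‖x‖ < 1 := by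
    rw [hx, norm_pow, Real.norm_eq_abs, abs_of_pos (inv_pos.mpr hρ0)]
    exact pow_lt_one₀ (inv_pos.mpr hρ0).le hρi two_ne_zero
  have s2 := summable_pow_mul_geometric_of_norm_lt_one 2 hx1
  have s1 := summable_pow_mul_geometric_of_norm_lt_one 1 hx1
  have s0 := summable_pow_mul_geometric_of_norm_lt_one 0 hx1
  have s3 : Summable (fun n : ℕ => C ^ 2 * (((n : ℝ) ^ 2 * x ^ n) + 2 * ((n : ℝ) ^ 1 * x ^ n) +
      ((n : ℝ) ^ 0 * x ^ n))) := ((s2.add (s1.mul_left 2)).add s0).mul_left _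
  refine Summable.of_nonneg_of_le (fun n => by (clear * -; positivity)) (fun n => ?_) s3
  have hpos : 0 < ρ ^ n := by positivity
  have h3 : ‖tc G n‖ ≤ C * (ρ⁻¹) ^ n := by
    rw [inv_pow, ← div_eq_mul_inv, le_div_iff₀ hpos]
    exact hC' n
  have h4 : ‖tc G n‖ ^ 2 ≤ (C * (ρ⁻¹) ^ n) ^ 2 := pow_le_pow_left₀ (norm_nonneg _) h3 2
  calc ‖tc G n‖ ^ 2 * ((n : ℝ) + 1) ^ 2 ≤ (C * (ρ⁻¹) ^ n) ^ 2 * ((n : ℝ) + 1) ^ 2 := by (clear * - h4; gcongr)
    _ = C ^ 2 * (((n : ℝ) ^ 2 * x ^ n) + 2 * ((n : ℝ) ^ 1 * x ^ n) + ((n : ℝ) ^ 0 * x ^ n)) := by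
        rw [hx, mul_pow, ← pow_mul, ← pow_mul, mul_comm 2 n]
        ring

lemma radial_zero {G : ℂ → ℂ} {R : ℝ} (hR : 1 < R) (hG : DifferentiableOn ℂ G (ball 0 R))
    {p : ℝ} (hp : 0 < p) :
    ∫ r in Ioo (0 : ℝ) 1, (r * ∫ θ in (-π)..π, dd G p (circleMap 0 r θ)) = 0 := by
  have hG1 : DifferentiableOn ℂ G (ball 0 1) := hG.mono (ball_subset_ball hR.le)
  have hint : ∀ n : ℕ, Integrable (fun r => 2 * π * (‖tc G n‖ ^ 2 * phn p n r))
      (volume.restrict (Ioo (0 : ℝ) 1)) := fun n =>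
    ((phn_intOn hp n).const_mul (‖tc G n‖ ^ 2)).const_mul (2 * π)
  have hb := rpow_intOn hp
  have hsum : Summable (fun n : ℕ => ∫ r in Ioo (0 : ℝ) 1,
      ‖2 * π * (‖tc G n‖ ^ 2 * phn p n r)‖) := by
    have s := (summ_coef hR hG).mul_left (2 * π * Mp p * ∫ r in Ioo (0 : ℝ) 1, r ^ (p - 1))
    refine Summable.of_nonneg_of_le (fun n => integral_nonneg fun r => norm_nonneg _)
      (fun n => ?_) s
    have e : 2 * π * Mp p * (∫ r in Ioo (0 : ℝ) 1, r ^ (p - 1)) *
        (‖tc G n‖ ^ 2 * ((n : ℝ) + 1) ^ 2) = ∫ r in Ioo (0 : ℝ) 1,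
        (2 * π * Mp p * (‖tc G n‖ ^ 2 * ((n : ℝ) + 1) ^ 2)) * r ^ (p - 1) := by
      rw [MeasureTheory.integral_const_mul]
      ring
    rw [e]
    refine setIntegral_mono_on (hint n).norm (hb.const_mul _) measurableSet_Ioo fun r hr => ?_
    have h := phn_bound hp n hr.1 hr.2
    have hc : 0 ≤ 2 * π * ‖tc G n‖ ^ 2 := by positivity
    calc ‖2 * π * (‖tc G n‖ ^ 2 * phn p n r)‖ = 2 * π * ‖tc G n‖ ^ 2 * |phn p n r| := by
          rw [← mul_assoc, norm_mul, Real.norm_of_nonneg hc, Real.norm_eq_abs]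
      _ ≤ 2 * π * ‖tc G n‖ ^ 2 * (Mp p * ((n : ℝ) + 1) ^ 2 * r ^ (p - 1)) :=
          mul_le_mul_of_nonneg_left h hc
      _ = _ := by ring
  have h := hasSum_integral_of_summable_integral_norm hint hsum
  have h0 : ∀ n : ℕ, ∫ r in Ioo (0 : ℝ) 1, 2 * π * (‖tc G n‖ ^ 2 * phn p n r) = 0 := by
    intro n
    rw [MeasureTheory.integral_const_mul, MeasureTheory.integral_const_mul, phn_integral hp n]
    ring
  simp only [h0] at h
  have h2 := h.unique hasSum_zero
  refine Eq.trans ?_ h2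
  refine setIntegral_congr_fun measurableSet_Ioo fun r hr => ?_
  exact (circle_sum hG1 hr.1.le hr.2).tsum_eq.symm

lemma polar_ball (F : ℂ → ℝ) : ∫ z in ball (0 : ℂ) 1, F z =
    ∫ q in Ioo (0 : ℝ) 1 ×ˢ Ioo (-π) π, q.1 * F (circleMap 0 q.1 q.2) := by
  rw [← integral_indicator measurableSet_ball, ← Complex.integral_comp_polarCoord_symm]
  have e2 : polarCoord.target = Ioi (0 : ℝ) ×ˢ Ioo (-π) π := rfl
  rw [e2]
  have hsub : Ioo (0 : ℝ) 1 ×ˢ Ioo (-π) π ⊆ Ioi (0 : ℝ) ×ˢ Ioo (-π) π :=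
    prod_mono (fun x hx => hx.1) (subset_refl _)
  have hm : MeasurableSet (Ioo (0 : ℝ) 1 ×ˢ Ioo (-π) π) := measurableSet_Ioo.prod measurableSet_Ioo
  rw [← inter_eq_right.mpr hsub, ← setIntegral_indicator hm]
  refine setIntegral_congr_fun (measurableSet_Ioi.prod measurableSet_Ioo) fun q hq => ?_
  have hq1 : 0 < q.1 := hq.1
  have e3 : Complex.polarCoord.symm q = circleMap 0 q.1 q.2 := by
    rw [Complex.polarCoord_symm_apply, circleMap_zero, Complex.exp_mul_I]
    push_cast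
    ring
  simp only [smul_eq_mul]
  rw [e3]
  by_cases h : q.1 < 1
  · rw [indicator_of_mem (circleMap_mem_unit hq1.le h _), indicator_of_mem]
    exact ⟨⟨hq1, h⟩, hq.2⟩
  · rw [indicator_of_notMem, indicator_of_notMem, mul_zero]
    · intro h2
      exact h h2.1.2
    · intro h2
      rw [mem_ball_zero_iff, norm_circleMap_zero, abs_of_pos hq1] at h2
      exact h h2

lemma polar_iterated {F : ℂ → ℝ} (hc : ContinuousOn F (ball 0 1 \ {0})) {a C1 C2 : ℝ}
    (ha : 0 < a) (hb : ∀ z ∈ ball (0 : ℂ) 1 \ {0}, |F z| ≤ C1 * ‖z‖ ^ (a - 2) + C2) :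
    IntegrableOn F (ball 0 1) ∧
    ∫ z in ball (0 : ℂ) 1, F z = ∫ r in Ioo (0 : ℝ) 1, (r * ∫ θ in (-π)..π, F (circleMap 0 r θ))
    := by
  have hpi : (-π) ≤ π := by linarith [Real.pi_pos]
  have hm : MeasurableSet (Ioo (0 : ℝ) 1 ×ˢ Ioo (-π) π) := measurableSet_Ioo.prod measurableSet_Ioo
  have hr := rpow_intOn ha
  have hrad : IntegrableOn (fun r : ℝ => C1 * r ^ (a - 1) + C2) (Ioo 0 1) := by
    refine (hr.const_mul C1).add ?_
    exact integrableOn_const (by simp only [Real.volume_Ioo, sub_zero, ENNReal.ofReal_one, ne_eq, ENNReal.one_ne_top, not_false_eq_true])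
  constructor
  · have hae : (ball (0 : ℂ) 1 \ {0} : Set ℂ) =ᵐ[volume] ball (0 : ℂ) 1 :=
      sdiff_null_ae_eq_self (by simp)
    rw [← integrableOn_congr_set_ae hae]
    have h1 : IntegrableOn (fun z : ℂ => C1 * ‖z‖ ^ (a - 2) + C2) (ball 0 1) := by
      have := (integrableOn_fun_norm_addHaar (E := ℂ) volume
        (f := fun y : ℝ => C1 * y ^ (a - 2) + C2) (r := 1)).mpr ?_
      · exact this
      · rw [Complex.finrank_real_complex]
        have h2 : IntegrableOn (fun r : ℝ => C1 * r ^ (a - 1) + C2 * r) (Ioo 0 1) := by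
          refine (hr.const_mul C1).add ?_
          have : IntervalIntegrable (fun r : ℝ => C2 * r) volume 0 1 :=
            (by fun_prop : Continuous (fun r : ℝ => C2 * r)).intervalIntegrable _ _
          rwa [intervalIntegrable_iff_integrableOn_Ioo_of_le zero_le_one] at this
        refine (integrableOn_congr_fun (fun r hr => ?_) measurableSet_Ioo).mp h2
        have hr0 : (0 : ℝ) < r := hr.1
        have e : r ^ (a - 1) = r ^ (a - 2) * r := by
          rw [← Real.rpow_add_one hr0.ne']; congr 1; ring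
        simp only [smul_eq_mul, e]
        norm_num
        ring
    refine Integrable.mono' (h1.mono_set sdiff_subset)
      (hc.aestronglyMeasurable (measurableSet_ball.diff (measurableSet_singleton 0))) ?_
    exact (ae_restrict_iff' (measurableSet_ball.diff (measurableSet_singleton 0))).mpr
      (Eventually.of_forall fun z hz => hb z hz)
  · rw [polar_ball]
    have hmem : ∀ q ∈ Ioo (0 : ℝ) 1 ×ˢ Ioo (-π) π, circleMap 0 q.1 q.2 ∈ ball (0 : ℂ) 1 \ {0} := by
      intro q hq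
      refine ⟨circleMap_mem_unit hq.1.1.le hq.1.2 _, ?_⟩
      rw [mem_singleton_iff, ← norm_eq_zero, norm_circleMap_zero, abs_of_pos hq.1.1]
      exact hq.1.1.ne'
    have hcc : Continuous (fun q : ℝ × ℝ => circleMap 0 q.1 q.2) := by
      unfold circleMap
      fun_prop
    have hcont : ContinuousOn (fun q : ℝ × ℝ => q.1 * F (circleMap 0 q.1 q.2))
        (Ioo (0 : ℝ) 1 ×ˢ Ioo (-π) π) :=
      continuous_fst.continuousOn.mul (hc.comp hcc.continuousOn hmem)
    have hint : IntegrableOn (fun q : ℝ × ℝ => q.1 * F (circleMap 0 q.1 q.2))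
        (Ioo (0 : ℝ) 1 ×ˢ Ioo (-π) π) (volume.prod volume) := by
      have hdom : IntegrableOn (fun q : ℝ × ℝ => (|C1| * q.1 ^ (a - 1) + |C2|) * 1)
          (Ioo (0 : ℝ) 1 ×ˢ Ioo (-π) π) (volume.prod volume) := by
        rw [IntegrableOn, ← Measure.prod_restrict]
        have h1 : Integrable (fun r : ℝ => |C1| * r ^ (a - 1) + |C2|)
            (volume.restrict (Ioo (0 : ℝ) 1)) := by
          refine (hr.const_mul |C1|).add ?_
          exact integrableOn_const (by simp only [Real.volume_Ioo, sub_zero, ENNReal.ofReal_one, ne_eq, ENNReal.one_ne_top, not_false_eq_true])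
        have h2 : Integrable (fun _ : ℝ => (1 : ℝ)) (volume.restrict (Ioo (-π) π)) :=
          integrableOn_const (by simp only [Real.volume_Ioo, sub_neg_eq_add, ne_eq, ENNReal.ofReal_ne_top, not_false_eq_true])
        exact h1.mul_prod h2
      refine Integrable.mono' hdom ?_ ?_
      · exact hcont.aestronglyMeasurable hm
      · refine (ae_restrict_iff' hm).mpr (Eventually.of_forall fun q hq => ?_)
        have hq0 : (0 : ℝ) < q.1 := hq.1.1
        have h := hb _ (hmem q hq)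
        rw [norm_circleMap_zero, abs_of_pos hq0] at h
        have e : q.1 ^ (a - 1) = q.1 ^ (a - 2) * q.1 := by
          rw [← Real.rpow_add_one hq0.ne']; congr 1; ring
        have hpos : 0 ≤ q.1 ^ (a - 2) := Real.rpow_nonneg hq0.le _
        rw [Real.norm_eq_abs, abs_mul, abs_of_pos hq0, mul_one, e]
        calc q.1 * |F (circleMap 0 q.1 q.2)| ≤ q.1 * (C1 * q.1 ^ (a - 2) + C2) := by (clear * - h hq0; gcongr)
          _ ≤ q.1 * (|C1| * q.1 ^ (a - 2) + |C2|) := by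
              gcongr <;> exact le_abs_self _
          _ = |C1| * (q.1 ^ (a - 2) * q.1) + |C2| * q.1 := by ring
          _ ≤ |C1| * (q.1 ^ (a - 2) * q.1) + |C2| * 1 := by
              gcongr
              exact hq.1.2.le
          _ = _ := by ring
    rw [Measure.volume_eq_prod, setIntegral_prod _ hint]
    refine setIntegral_congr_fun measurableSet_Ioo fun r _ => ?_
    simp only
    rw [intervalIntegral.integral_of_le hpi, integral_Ioc_eq_integral_Ioo,
      MeasureTheory.integral_const_mul]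

lemma cont_K1 {G : ℂ → ℂ} (hG : DifferentiableOn ℂ G (ball 0 1)) (p : ℝ) :
    ContinuousOn (K1 G p) (ball 0 1 \ {0}) := by
  have h1 : ContinuousOn G (ball 0 1 \ {0}) := hG.continuousOn.mono sdiff_subset
  have h2 : ContinuousOn (deriv G) (ball 0 1 \ {0}) :=
    (hG.deriv isOpen_ball).continuousOn.mono sdiff_subset
  have h3 : ContinuousOn (fun z : ℂ => ‖z‖ ^ (p - 2)) (ball 0 1 \ {0}) :=
    continuous_norm.continuousOn.rpow_const fun z hz => Or.inl (norm_ne_zero_iff.mpr hz.2)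
  have h4 : ContinuousOn (Wf G p) (ball 0 1 \ {0}) := by
    refine ContinuousOn.sub (ContinuousOn.mul ?_ h1) (ContinuousOn.mul ?_
      (continuousOn_id.mul h2))
    · exact (by fun_prop : Continuous (fun z : ℂ => ((‖z‖ ^ 2 : ℝ) : ℂ))).continuousOn
    · exact (by fun_prop :
        Continuous (fun z : ℂ => ((2 / p * (1 - ‖z‖ ^ 2) : ℝ) : ℂ))).continuousOn
  exact (h3.mul ((h4.norm.pow 2).sub (h1.norm.pow 2))).div_const 4

lemma cont_K2 {G : ℂ → ℂ} (hG : DifferentiableOn ℂ G (ball 0 1)) (p : ℝ) :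
    ContinuousOn (K2 G p) (ball 0 1 \ {0}) := by
  have h1 : ContinuousOn G (ball 0 1 \ {0}) := hG.continuousOn.mono sdiff_subset
  have h3 : ContinuousOn (fun z : ℂ => ‖z‖ ^ p) (ball 0 1 \ {0}) :=
    continuous_norm.continuousOn.rpow_const fun z hz => Or.inl (norm_ne_zero_iff.mpr hz.2)
  have h4 : Continuous (fun z : ℂ => 4 * ‖z‖ ^ 2 - 2 - p) := by fun_prop
  exact (h3.mul (h1.norm.pow 2)).mul h4.continuousOn

lemma bounds {G : ℂ → ℂ} {R : ℝ} (hR : 1 < R) (hG : DifferentiableOn ℂ G (ball 0 R))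
    {p : ℝ} (hp : 0 < p) : ∃ A B : ℝ, 0 ≤ A ∧ 0 ≤ B ∧
      (∀ z ∈ ball (0 : ℂ) 1 \ {0}, |K1 G p z| ≤ A * ‖z‖ ^ (p - 2)) ∧
      (∀ z ∈ ball (0 : ℂ) 1 \ {0}, |K2 G p z| ≤ B) := by
  have hsub : closedBall (0 : ℂ) 1 ⊆ ball 0 R := closedBall_subset_ball hR
  obtain ⟨M1, hM1⟩ := (isCompact_closedBall (0 : ℂ) 1).exists_bound_of_continuousOn
    (hG.continuousOn.mono hsub)
  obtain ⟨M2, hM2⟩ := (isCompact_closedBall (0 : ℂ) 1).exists_bound_of_continuousOn
    ((hG.deriv isOpen_ball).continuousOn.mono hsub)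
  have h0 : (0 : ℂ) ∈ closedBall (0 : ℂ) 1 := mem_closedBall_self zero_le_one
  have hM10 : 0 ≤ M1 := (norm_nonneg _).trans (hM1 0 h0)
  have hM20 : 0 ≤ M2 := (norm_nonneg _).trans (hM2 0 h0)
  refine ⟨((M1 + 2 / p * M2) ^ 2 + M1 ^ 2) / 4, M1 ^ 2 * (6 + p), by (clear * -; positivity), by positivity,
    ?_, ?_⟩
  · intro z hz
    have hz1 : ‖z‖ < 1 := by simpa using hz.1
    have hz0 : 0 < ‖z‖ := norm_pos_iff.mpr hz.2
    have hzc : z ∈ closedBall (0 : ℂ) 1 := ball_subset_closedBall hz.1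
    have a1 := hM1 z hzc
    have a2 := hM2 z hzc
    have hz2 : ‖z‖ ^ 2 ≤ 1 := pow_le_one₀ hz0.le hz1.le
    have hW : ‖Wf G p z‖ ≤ M1 + 2 / p * M2 := by
      unfold Wf
      refine (norm_sub_le _ _).trans ?_
      rw [norm_mul, norm_mul, norm_mul, Complex.norm_real, Complex.norm_real,
        Real.norm_of_nonneg (by positivity),
        Real.norm_of_nonneg (mul_nonneg (by positivity) (by linarith))]
      have b1 : ‖z‖ ^ 2 * ‖G z‖ ≤ 1 * M1 := by (clear * - hz2 a1; gcongr)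
      have b2 : 2 / p * (1 - ‖z‖ ^ 2) * (‖z‖ * ‖deriv G z‖) ≤ 2 / p * 1 * (1 * M2) := by
        have : 1 - ‖z‖ ^ 2 ≤ 1 := by linarith only [sq_nonneg ‖z‖]
        have h3 : 0 ≤ 1 - ‖z‖ ^ 2 := by linarith
        (clear * - this hp hz1 a2 hz0; gcongr)
      linarith only [b1, b2]
    have hW2 : ‖Wf G p z‖ ^ 2 ≤ (M1 + 2 / p * M2) ^ 2 := pow_le_pow_left₀ (norm_nonneg _) hW 2
    have hG2 : ‖G z‖ ^ 2 ≤ M1 ^ 2 := pow_le_pow_left₀ (norm_nonneg _) a1 2
    have hpos : 0 ≤ ‖z‖ ^ (p - 2) := Real.rpow_nonneg hz0.le _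
    unfold K1
    rw [mul_div_assoc, abs_mul, abs_of_nonneg hpos, mul_comm]
    refine mul_le_mul_of_nonneg_right ?_ hpos
    rw [abs_le]
    constructor <;> linarith only [hW2, hG2, sq_nonneg ‖G z‖, sq_nonneg ‖Wf G p z‖]
  · intro z hz
    have hz1 : ‖z‖ < 1 := by simpa using hz.1
    have hz0 : 0 < ‖z‖ := norm_pos_iff.mpr hz.2
    have hzc : z ∈ closedBall (0 : ℂ) 1 := ball_subset_closedBall hz.1
    have a1 := hM1 z hzc
    have hz2 : ‖z‖ ^ 2 ≤ 1 := pow_le_one₀ hz0.le hz1.le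
    have hG2 : ‖G z‖ ^ 2 ≤ M1 ^ 2 := pow_le_pow_left₀ (norm_nonneg _) a1 2
    have hzp : ‖z‖ ^ p ≤ 1 := Real.rpow_le_one hz0.le hz1.le hp.le
    have hzp0 : 0 ≤ ‖z‖ ^ p := Real.rpow_nonneg hz0.le _
    have hq : |4 * ‖z‖ ^ 2 - 2 - p| ≤ 6 + p := by
      rw [abs_le]
      constructor <;> linarith [sq_nonneg ‖z‖]
    unfold K2
    rw [abs_mul, abs_of_nonneg (by (clear * - hz0; positivity))]
    calc ‖z‖ ^ p * ‖G z‖ ^ 2 * |4 * ‖z‖ ^ 2 - 2 - p| ≤ 1 * M1 ^ 2 * (6 + p) := by (clear * - hzp hG2 hq; gcongr)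
      _ = _ := by ring

theorem core {G : ℂ → ℂ} {R : ℝ} (hR : 1 < R) (hG : DifferentiableOn ℂ G (ball 0 R))
    {p : ℝ} (hp : 0 < p) :
    IntegrableOn (K1 G p) (ball 0 1) ∧ IntegrableOn (K2 G p) (ball 0 1) ∧
    ∫ z in ball (0 : ℂ) 1, K1 G p z = (1 / p ^ 2) * ∫ z in ball (0 : ℂ) 1, K2 G p z := by
  have hG1 : DifferentiableOn ℂ G (ball 0 1) := hG.mono (ball_subset_ball hR.le)
  obtain ⟨A, B, hA, hB, h1, h2⟩ := bounds hR hG hp
  have c1 := cont_K1 hG1 p
  have c2 := cont_K2 hG1 p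
  have i1 := (polar_iterated c1 hp (C1 := A) (C2 := 0) (fun z hz => by simpa using h1 z hz)).1
  have i2 := (polar_iterated c2 hp (C1 := 0) (C2 := B) (fun z hz => by simpa using h2 z hz)).1
  have cd : ContinuousOn (dd G p) (ball 0 1 \ {0}) := c1.sub (c2.div_const _)
  have hd := (polar_iterated cd hp (C1 := A) (C2 := B / p ^ 2) (fun z hz => by
    unfold dd
    refine (abs_sub _ _).trans ?_
    rw [abs_div, abs_of_pos (show 0 < p ^ 2 by positivity)]
    have := h1 z hz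
    have h3 := h2 z hz
    (clear * - this h3 hp; gcongr))).2
  rw [radial_zero hR hG hp] at hd
  have e : ∫ z in ball (0 : ℂ) 1, dd G p z =
      (∫ z in ball (0 : ℂ) 1, K1 G p z) - (∫ z in ball (0 : ℂ) 1, K2 G p z) / p ^ 2 := by
    rw [← MeasureTheory.integral_div, ← integral_sub i1 (i2.div_const _)]
    rfl
  refine ⟨i1, i2, ?_⟩
  rw [e] at hd
  field_simp at hd ⊢
  linarith only [hd]

/-- A holomorphic logarithm of a nonvanishing function on a disc. -/
lemma exists_logR {k : ℂ → ℂ} {R : ℝ} (hR : 0 < R) (hk : DifferentiableOn ℂ k (ball 0 R))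
    (hne : ∀ z ∈ ball (0 : ℂ) R, k z ≠ 0) :
    ∃ L : ℂ → ℂ, (∀ z ∈ ball (0 : ℂ) R, HasDerivAt L (deriv k z / k z) z) ∧
      (∀ z ∈ ball (0 : ℂ) R, k z = Complex.exp (L z)) := by
  have hk' := hk.deriv isOpen_ball
  have hq : DifferentiableOn ℂ (fun z => deriv k z / k z) (ball 0 R) := hk'.fun_div hk hne
  obtain ⟨h, hh⟩ := hq.isExactOn_ball
  have h0 : (0 : ℂ) ∈ ball (0 : ℂ) R := mem_ball_self hR
  have hE : ∀ z ∈ ball (0 : ℂ) R, HasDerivAt (fun z => k z * Complex.exp (-(h z))) 0 z := by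
    intro z hz
    have h1 : HasDerivAt k (deriv k z) z :=
      (hk.differentiableAt (isOpen_ball.mem_nhds hz)).hasDerivAt
    have h2 := h1.fun_mul ((hh z hz).fun_neg.cexp)
    refine h2.congr_deriv ?_
    have := hne z hz
    field_simp
    ring
  have hconst : ∀ z ∈ ball (0 : ℂ) R, k z * Complex.exp (-(h z)) =
      k 0 * Complex.exp (-(h 0)) := by
    intro z hz
    exact (convex_ball (0 : ℂ) R).is_const_of_fderivWithin_eq_zero
      (fun x hx => (hE x hx).differentiableAt.differentiableWithinAt)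
      (fun x hx => by
        rw [fderivWithin_eq_fderiv (isOpen_ball.uniqueDiffWithinAt hx)
          (hE x hx).differentiableAt]
        have := (hE x hx).hasFDerivAt.fderiv
        rw [this]
        ext
        simp) hz h0
  have hne0 := hne 0 h0
  refine ⟨fun z => Complex.log (k 0) + (h z - h 0), ?_, ?_⟩
  · intro z hz
    exact ((hh z hz).sub_const _).const_add _
  · intro z hz
    rw [Complex.exp_add, Complex.exp_log hne0, Complex.exp_sub]
    have h1 := hconst z hz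
    rw [Complex.exp_neg, Complex.exp_neg] at h1
    have e1 := Complex.exp_ne_zero (h z)
    have e2 := Complex.exp_ne_zero (h 0)
    field_simp at h1 ⊢
    linear_combination h1

lemma exists_G {k : ℂ → ℂ} {R : ℝ} (hR : 0 < R) (hk : DifferentiableOn ℂ k (ball 0 R))
    (hne : ∀ z ∈ ball (0 : ℂ) R, k z ≠ 0) (p : ℝ) :
    ∃ G : ℂ → ℂ, DifferentiableOn ℂ G (ball 0 R) ∧ ∀ z ∈ ball (0 : ℂ) R,
      deriv G z = ((-(p / 2) : ℝ) : ℂ) * (deriv k z / k z) * G z ∧ ‖G z‖ ^ 2 = ‖k z‖ ^ (-p) := by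
  obtain ⟨L, hL1, hL2⟩ := exists_logR hR hk hne
  have hd : ∀ z ∈ ball (0 : ℂ) R, HasDerivAt (fun z => Complex.exp (((-(p / 2) : ℝ) : ℂ) * L z))
      (((-(p / 2) : ℝ) : ℂ) * (deriv k z / k z) * Complex.exp (((-(p / 2) : ℝ) : ℂ) * L z)) z := by
    intro z hz
    refine (((hL1 z hz).const_mul (((-(p / 2) : ℝ) : ℂ))).cexp).congr_deriv ?_
    ring
  refine ⟨fun z => Complex.exp (((-(p / 2) : ℝ) : ℂ) * L z),
    fun z hz => (hd z hz).differentiableAt.differentiableWithinAt, fun z hz => ⟨?_, ?_⟩⟩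
  · exact (hd z hz).deriv
  · have e1 : ‖k z‖ = Real.exp (L z).re := by rw [hL2 z hz, Complex.norm_exp]
    rw [e1, Complex.norm_exp, ← Real.exp_mul, ← Real.exp_nat_mul]
    congr 1
    rw [Complex.re_ofReal_mul]
    push_cast
    ring

lemma rpow_split {a ρ : ℝ} (ha : 0 < a) (hρ : 0 < ρ) (p : ℝ) :
    (a / ρ) ^ (-p - 2) = ρ ^ (p - 2) * a ^ (-p) * (ρ ^ 4 / a ^ 2) := by
  have h1 : a ^ (-p - 2) = a ^ (-p) / a ^ 2 := by
    rw [Real.rpow_sub ha, ← Real.rpow_natCast a 2]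
    norm_num
  have h2 : ρ ^ (-p - 2) = (ρ ^ (p - 2) * ρ ^ 4)⁻¹ := by
    rw [← Real.rpow_natCast ρ 4, ← Real.rpow_add hρ, ← Real.rpow_neg hρ.le]
    congr 1
    push_cast
    ring
  rw [Real.div_rpow ha.le hρ.le, h1, h2]
  have h3 : 0 < ρ ^ (p - 2) := Real.rpow_pos_of_pos hρ _
  field_simp

lemma K1_eq {f G : ℂ → ℂ} {p : ℝ} (hp : 0 < p) {z : ℂ} (hz : z ≠ 0) (hf : deriv f z ≠ 0)
    (h1 : deriv G z = ((-(p / 2) : ℝ) : ℂ) * (deriv (deriv f) z / deriv f z) * G z)
    (h2 : ‖G z‖ ^ 2 = ‖deriv f z‖ ^ (-p)) : XX f z ^ (-p - 2) * JJ f z = K1 G p z := by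
  have hρ : 0 < ‖z‖ := norm_pos_iff.mpr hz
  have ha : 0 < ‖deriv f z‖ := norm_pos_iff.mpr hf
  have hcz : conj z ≠ 0 := by simpa using hz
  have hpc : (p : ℂ) ≠ 0 := by exact_mod_cast hp.ne'
  have hzz : ((‖z‖ ^ 2 : ℝ) : ℂ) = z * conj z := by
    rw [mul_conj, normSq_eq_norm_sq]
  have hW : Wf G p z = (G z / deriv f z) * (2 * (z * conj z)) * Ez f z := by
    unfold Wf Ez tau
    rw [h1]
    push_cast
    push_cast at hzz
    rw [hzz]
    field_simp
    ring
  have hWn : ‖Wf G p z‖ ^ 2 = ‖G z‖ ^ 2 / ‖deriv f z‖ ^ 2 * (4 * ‖z‖ ^ 4) * ‖Ez f z‖ ^ 2 := by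
    rw [hW, norm_mul, norm_mul, norm_div, norm_mul, norm_mul, RCLike.norm_conj]
    norm_num
    ring
  have hEb : ‖Ezb f z‖ ^ 2 = ‖deriv f z‖ ^ 2 / (4 * ‖z‖ ^ 4) := by
    unfold Ezb
    rw [norm_div, norm_neg, norm_mul, norm_pow, RCLike.norm_conj]
    norm_num
    rw [div_pow]
    ring
  unfold XX JJ K1
  rw [rpow_split ha hρ, hWn, hEb, ← h2]
  (clear * - hz hf; field_simp)

lemma K2_eq {f G : ℂ → ℂ} {p : ℝ} {z : ℂ}
    (h2 : ‖G z‖ ^ 2 = ‖deriv f z‖ ^ (-p)) :
    (‖z‖ / ‖deriv f z‖) ^ p * (4 * ‖z‖ ^ 2 - 2 - p) = K2 G p z := by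
  unfold K2
  rw [h2, Real.div_rpow (norm_nonneg _) (norm_nonneg _), Real.rpow_neg (norm_nonneg _)]
  ring

end

end Vale.Agent.P142.Brn.Par6

namespace Vale.Agent.P142.Brn

/-- Block P: the Parseval computation. -/
theorem Par6.blockP : BlockP := by
  intro f R hf p hp _
  have hd : ∀ z ∈ ball (0 : ℂ) R, deriv f z ≠ 0 := fun z hz =>
    H1.injOn_deriv_ne_zero isOpen_ball hf.diff hf.inj hz
  obtain ⟨G, hG, hGp⟩ := Par6.exists_G (zero_lt_one.trans hf.one_lt)
    (hf.diff.deriv isOpen_ball) hd p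
  obtain ⟨i1, i2, h⟩ := Par6.core hf.one_lt hG hp
  have hsub : ball (0 : ℂ) 1 ⊆ ball 0 R := ball_subset_ball hf.one_lt.le
  have hae : ∀ᵐ z ∂(volume : Measure ℂ), z ≠ 0 := by
    rw [ae_iff]
    simp
  have e1 : ∫ z in ball (0 : ℂ) 1, XX f z ^ (-p - 2) * JJ f z =
      ∫ z in ball (0 : ℂ) 1, Par6.K1 G p z := by
    refine setIntegral_congr_ae measurableSet_ball ?_
    filter_upwards [hae] with z hz0 hz
    exact Par6.K1_eq hp hz0 (hd z (hsub hz)) (hGp z (hsub hz)).1 (hGp z (hsub hz)).2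
  have e2 : ∀ z ∈ ball (0 : ℂ) 1, (‖z‖ / ‖deriv f z‖) ^ p * (4 * ‖z‖ ^ 2 - 2 - p) =
      Par6.K2 G p z := fun z hz => Par6.K2_eq (hGp z (hsub hz)).2
  refine ⟨(integrableOn_congr_fun e2 measurableSet_ball).mpr i2, ?_⟩
  rw [e1, h, setIntegral_congr_fun measurableSet_ball e2]

end Vale.Agent.P142.Brn
end

section

/-! Block F: from the integral inequality for maps univalent near the closed disc to the
integrability of `|f'|^(-p)`, `0 < p < 2`, for every univalent `f` on the unit disc. -/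

open Complex MeasureTheory Metric Set Filter Topology
open scoped Real ENNReal

namespace Vale.Agent.P142.Brn

/-- The weighted density of the star inequality. -/
noncomputable def wB (g : ℂ → ℂ) (p : ℝ) (z : ℂ) : ℝ :=
  (‖z‖ / ‖deriv g z‖) ^ p * (4 * ‖z‖ ^ 2 - 2 - p)

/-- Uniform bound: if `g` satisfies the star inequality, `g'` is continuous and nonvanishing on the
closed disc and `m ≤ |g'|` on `|z| ≤ r₁ = √((p+6)/8)`, then `∫ |g'|^{-p} ≤ C(p) m^{-p}`. -/
theorem bound_of_star {g : ℂ → ℂ} {p m : ℝ} (hp : 0 < p) (hp2 : p < 2) (hm : 0 < m)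
    (hc : ContinuousOn (deriv g) (closedBall 0 1)) (hne : ∀ z ∈ closedBall (0 : ℂ) 1, deriv g z ≠ 0)
    (hlow : ∀ z : ℂ, ‖z‖ ^ 2 ≤ (p + 6) / 8 → m ≤ ‖deriv g z‖)
    (hstar : ∫ z in ball (0 : ℂ) 1, wB g p z ≤ 0) :
    ∫⁻ z in ball (0 : ℂ) 1, ENNReal.ofReal (‖deriv g z‖ ^ (-p)) ≤
      ENNReal.ofReal (m ^ (-p) * (1 + 16 / (2 - p)) * π) := by
  have hcN : ContinuousOn (fun z => ‖deriv g z‖ ^ (-p)) (closedBall (0 : ℂ) 1) := by
    apply ContinuousOn.rpow_const hc.norm
    intro z hz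
    exact Or.inl (norm_ne_zero_iff.mpr (hne z hz))
  have hcW : ContinuousOn (wB g p) (closedBall (0 : ℂ) 1) := by
    unfold wB
    apply ContinuousOn.mul
    · apply ContinuousOn.rpow_const
      · apply ContinuousOn.div continuous_norm.continuousOn hc.norm
        intro z hz
        exact norm_ne_zero_iff.mpr (hne z hz)
      · intro z hz
        exact Or.inr hp.le
    · (clear * -; fun_prop)
  have hiN : IntegrableOn (fun z => ‖deriv g z‖ ^ (-p)) (ball (0 : ℂ) 1) :=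
    (hcN.integrableOn_compact (isCompact_closedBall 0 1)).mono_set ball_subset_closedBall
  have hiW : IntegrableOn (wB g p) (ball (0 : ℂ) 1) :=
    (hcW.integrableOn_compact (isCompact_closedBall 0 1)).mono_set ball_subset_closedBall
  -- pointwise lower bound for `wB`
  have hpt : ∀ z ∈ ball (0 : ℂ) 1,
      (2 - p) / 4 * ‖deriv g z‖ ^ (-p) - (2 - p) / 4 * (1 + 16 / (2 - p)) * m ^ (-p) ≤
        wB g p z := by
    intro z hz
    have hz1 : ‖z‖ < 1 := by simpa using hz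
    have hd : 0 < ‖deriv g z‖ := norm_pos_iff.mpr (hne z (ball_subset_closedBall hz))
    have hmp : 0 < m ^ (-p) := Real.rpow_pos_of_pos hm _
    have hdp : 0 < ‖deriv g z‖ ^ (-p) := Real.rpow_pos_of_pos hd _
    have e1 : (‖z‖ / ‖deriv g z‖) ^ p = ‖z‖ ^ p * ‖deriv g z‖ ^ (-p) := by
      rw [Real.div_rpow (norm_nonneg _) (norm_nonneg _), Real.rpow_neg (norm_nonneg _)]
      rfl
    have hzp0 : 0 ≤ ‖z‖ ^ p := Real.rpow_nonneg (norm_nonneg _) _
    have hzp1 : ‖z‖ ^ p ≤ 1 := Real.rpow_le_one (norm_nonneg _) hz1.le hp.le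
    have h2p : (0 : ℝ) < 2 - p := by linarith only [hp2]
    have e2 : (2 - p) / 4 * (1 + 16 / (2 - p)) = (2 - p) / 4 + 4 := by
      field_simp
      norm_num
    rw [e2]
    unfold wB
    rw [e1]
    rcases le_or_gt (‖z‖ ^ 2) ((p + 6) / 8) with h | h
    · have h1 : ‖deriv g z‖ ^ (-p) ≤ m ^ (-p) :=
        Real.rpow_le_rpow_of_nonpos hm (hlow z h) (by linarith only [hp])
      have h3 : -(4 : ℝ) ≤ 4 * ‖z‖ ^ 2 - 2 - p := by nlinarith only [hp2]
      have h4 : ‖z‖ ^ p * ‖deriv g z‖ ^ (-p) ≤ m ^ (-p) := by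
        calc ‖z‖ ^ p * ‖deriv g z‖ ^ (-p) ≤ 1 * ‖deriv g z‖ ^ (-p) := by (clear * - hzp1 hd; gcongr)
          _ ≤ m ^ (-p) := by linarith only [h1]
      have h5 : 0 ≤ ‖z‖ ^ p * ‖deriv g z‖ ^ (-p) := by (clear * - hd; positivity)
      have h6 : -(4 : ℝ) * (‖z‖ ^ p * ‖deriv g z‖ ^ (-p)) ≤
          ‖z‖ ^ p * ‖deriv g z‖ ^ (-p) * (4 * ‖z‖ ^ 2 - 2 - p) := by
        nlinarith only [h5, hp2]
      nlinarith only [h4, h6, hp2, h1]
    · have h3 : (2 - p) / 2 ≤ 4 * ‖z‖ ^ 2 - 2 - p := by linarith only [h]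
      have h7 : (1 : ℝ) / 2 ≤ ‖z‖ ^ p := by
        have h8 : ‖z‖ ^ (2 : ℝ) ≤ ‖z‖ ^ p := by
          apply Real.rpow_le_rpow_of_exponent_ge' (norm_nonneg _) hz1.le hp.le hp2.le
        have h9 : ‖z‖ ^ (2 : ℝ) = ‖z‖ ^ 2 := by norm_num
        rw [h9] at h8
        linarith only [hp, h, h8]
      have h8 : (2 - p) / 4 * ‖deriv g z‖ ^ (-p) ≤
          ‖z‖ ^ p * ‖deriv g z‖ ^ (-p) * (4 * ‖z‖ ^ 2 - 2 - p) := by
        calc (2 - p) / 4 * ‖deriv g z‖ ^ (-p)
            = (1 / 2 * ‖deriv g z‖ ^ (-p)) * ((2 - p) / 2) := by ring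
          _ ≤ (‖z‖ ^ p * ‖deriv g z‖ ^ (-p)) * (4 * ‖z‖ ^ 2 - 2 - p) := by (clear * - h7 hd h3 hp2; gcongr)
      have : 0 ≤ ((2 - p) / 4 + 4) * m ^ (-p) := by positivity
      linarith only [h8, this]
  have hvol : (volume (ball (0 : ℂ) 1)).toReal = π := by
    rw [Complex.volume_ball]
    simp
  have hfin : volume (ball (0 : ℂ) 1) ≠ ⊤ := measure_ball_lt_top.ne
  have hconst : IntegrableOn (fun _ : ℂ => (2 - p) / 4 * (1 + 16 / (2 - p)) * m ^ (-p))
      (ball (0 : ℂ) 1) := integrableOn_const hfin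
  have hint : ∫ z in ball (0 : ℂ) 1, ((2 - p) / 4 * ‖deriv g z‖ ^ (-p) -
      (2 - p) / 4 * (1 + 16 / (2 - p)) * m ^ (-p)) ≤ ∫ z in ball (0 : ℂ) 1, wB g p z := by
    apply setIntegral_mono_on ((hiN.const_mul _).sub hconst) hiW measurableSet_ball hpt
  rw [integral_sub (hiN.const_mul _) hconst, integral_const_mul, setIntegral_const,
    smul_eq_mul] at hint
  have hvol2 : volume.real (ball (0 : ℂ) 1) = π := hvol
  rw [hvol2] at hint
  have h2p : (0 : ℝ) < 2 - p := by linarith only [hp2]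
  have hfinal : ∫ z in ball (0 : ℂ) 1, ‖deriv g z‖ ^ (-p) ≤
      m ^ (-p) * (1 + 16 / (2 - p)) * π := by
    have h1 : (2 - p) / 4 * (∫ z in ball (0 : ℂ) 1, ‖deriv g z‖ ^ (-p)) ≤
        (2 - p) / 4 * (m ^ (-p) * (1 + 16 / (2 - p)) * π) := by linarith only [hstar, hint]
    exact le_of_mul_le_mul_left h1 (by positivity)
  rw [← ofReal_integral_eq_lintegral_ofReal hiN]
  · exact ENNReal.ofReal_le_ofReal hfinal
  · filter_upwards with z
    (clear * -; positivity)

/-- Block F. -/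
theorem neg_range_of_star
    (hB : ∀ (g : ℂ → ℂ) (R : ℝ), 1 < R → DifferentiableOn ℂ g (ball 0 R) → InjOn g (ball 0 R) →
      ∀ p : ℝ, 0 < p → p < 2 →
        ∫ z in ball (0 : ℂ) 1, (‖z‖ / ‖deriv g z‖) ^ p * (4 * ‖z‖ ^ 2 - 2 - p) ≤ 0)
    {f : ℂ → ℂ} (hf : DifferentiableOn ℂ f (ball 0 1)) (hinj : InjOn f (ball 0 1))
    (hne : ∀ z ∈ ball (0 : ℂ) 1, deriv f z ≠ 0) {p : ℝ} (hp : 0 < p) (hp2 : p < 2) :
    ∫⁻ z in ball (0 : ℂ) 1, ENNReal.ofReal (‖deriv f z‖ ^ (-p)) < ⊤ := by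
  have hfd : ContinuousOn (deriv f) (ball (0 : ℂ) 1) := (hf.deriv isOpen_ball).continuousOn
  set r₁ : ℝ := √((p + 6) / 8) with hr₁
  have hr₁0 : 0 ≤ r₁ := Real.sqrt_nonneg _
  have hr₁1 : r₁ < 1 := by
    rw [hr₁, Real.sqrt_lt' one_pos]
    linarith
  -- lower bound of `|f'|` on the smaller closed disc
  obtain ⟨m, hm, hmle⟩ : ∃ m : ℝ, 0 < m ∧ ∀ z ∈ closedBall (0 : ℂ) r₁, m ≤ ‖deriv f z‖ := by
    have hcpt : IsCompact (closedBall (0 : ℂ) r₁) := isCompact_closedBall 0 r₁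
    have hsub : closedBall (0 : ℂ) r₁ ⊆ ball 0 1 := closedBall_subset_ball hr₁1
    obtain ⟨z₀, hz₀, hmin⟩ := hcpt.exists_isMinOn ⟨0, by simp [hr₁0]⟩ (hfd.norm.mono hsub)
    exact ⟨‖deriv f z₀‖, norm_pos_iff.mpr (hne z₀ (hsub hz₀)), fun z hz => hmin hz⟩
  -- the dilations
  set ρ : ℕ → ℝ := fun n => 1 - 1 / (n + 2) with hρ
  have hρ1 : ∀ n, ρ n < 1 := fun n => by
    have : (0 : ℝ) < 1 / (n + 2) := by (clear * -; positivity)
    simp only [hρ]; linarith only [this]
  have hρ2 : ∀ n, 1 / 2 ≤ ρ n := fun n => by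
    have : (1 : ℝ) / (n + 2) ≤ 1 / 2 := by
      apply one_div_le_one_div_of_le (by norm_num)
      have : (0 : ℝ) ≤ n := Nat.cast_nonneg n
      linarith
    simp only [hρ]; linarith only [this]
  have hρlim : Tendsto ρ atTop (𝓝 1) := by
    have h1 : Tendsto (fun n : ℕ => 1 / ((n : ℝ) + 2)) atTop (𝓝 0) := by
      have := (tendsto_const_div_atTop_nhds_zero_nat (1 : ℝ)).comp (tendsto_add_atTop_nat 2)
      refine this.congr fun n => ?_
      simp
    have h2 := (tendsto_const_nhds (x := (1 : ℝ))).sub h1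
    rw [sub_zero] at h2
    exact h2
  have hmem : ∀ (n : ℕ) {z : ℂ}, z ∈ closedBall (0 : ℂ) 1 → (ρ n : ℂ) * z ∈ ball (0 : ℂ) 1 := by
    intro n z hz
    have h0 : 0 < ρ n := by linarith only [hρ2 n]
    rw [mem_ball_zero_iff, norm_mul, norm_real, Real.norm_eq_abs, abs_of_pos h0]
    rw [mem_closedBall_zero_iff] at hz
    calc ρ n * ‖z‖ ≤ ρ n * 1 := by (clear * - hz h0; gcongr)
      _ < 1 := by linarith only [hρ1 n]
  have hderiv : ∀ (n : ℕ) {z : ℂ}, (ρ n : ℂ) * z ∈ ball (0 : ℂ) 1 →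
      deriv (fun z => f ((ρ n : ℂ) * z)) z = (ρ n : ℂ) * deriv f ((ρ n : ℂ) * z) := by
    intro n z hz
    have h1 : HasDerivAt f (deriv f ((ρ n : ℂ) * z)) ((ρ n : ℂ) * z) :=
      (hf.differentiableAt (isOpen_ball.mem_nhds hz)).hasDerivAt
    have h2 : HasDerivAt (fun z : ℂ => (ρ n : ℂ) * z) (ρ n : ℂ) z := by
      simpa using (hasDerivAt_id z).const_mul (ρ n : ℂ)
    have h3 := h1.comp z h2
    rw [mul_comm] at h3
    exact h3.deriv
  have hbound : ∀ n, ∫⁻ z in ball (0 : ℂ) 1,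
      ENNReal.ofReal (‖deriv (fun z => f ((ρ n : ℂ) * z)) z‖ ^ (-p)) ≤
      ENNReal.ofReal ((m / 2) ^ (-p) * (1 + 16 / (2 - p)) * π) := by
    intro n
    have h0 : 0 < ρ n := by linarith only [hρ2 n]
    have h0' : (ρ n : ℂ) ≠ 0 := by exact_mod_cast h0.ne'
    have hR : 1 < 1 / ρ n := by
      rw [lt_div_iff₀ h0]; linarith only [hρ1 n]
    have hmaps : MapsTo (fun z : ℂ => (ρ n : ℂ) * z) (ball 0 (1 / ρ n)) (ball 0 1) := by
      intro z hz
      rw [mem_ball_zero_iff] at hz ⊢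
      rw [norm_mul, norm_real, Real.norm_eq_abs, abs_of_pos h0]
      rwa [lt_div_iff₀ h0, mul_comm] at hz
    apply bound_of_star hp hp2 (by positivity)
    · have hce : ContinuousOn (fun z => (ρ n : ℂ) * deriv f ((ρ n : ℂ) * z))
          (closedBall (0 : ℂ) 1) := by
        apply ContinuousOn.mul continuousOn_const
        exact hfd.comp (by fun_prop) fun z hz => hmem n hz
      exact hce.congr fun z hz => hderiv n (hmem n hz)
    · intro z hz
      rw [hderiv n (hmem n hz)]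
      exact mul_ne_zero h0' (hne _ (hmem n hz))
    · intro z hz
      have hz1 : ‖z‖ ≤ r₁ := by
        rw [hr₁]
        exact Real.le_sqrt_of_sq_le hz
      have hz2 : z ∈ closedBall (0 : ℂ) 1 := by
        rw [mem_closedBall_zero_iff]; linarith only [hr₁1, hz1]
      rw [hderiv n (hmem n hz2), norm_mul, norm_real, Real.norm_eq_abs, abs_of_pos h0]
      have h3 : m ≤ ‖deriv f ((ρ n : ℂ) * z)‖ := by
        apply hmle
        rw [mem_closedBall_zero_iff, norm_mul, norm_real, Real.norm_eq_abs, abs_of_pos h0]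
        calc ρ n * ‖z‖ ≤ 1 * ‖z‖ := by
              gcongr
              exact (hρ1 n).le
          _ ≤ r₁ := by linarith only [hz1]
      calc m / 2 = 1 / 2 * m := by ring
        _ ≤ ρ n * ‖deriv f ((ρ n : ℂ) * z)‖ := by
            gcongr
            exact hρ2 n
    · exact hB _ (1 / ρ n) hR
        (hf.comp (by fun_prop) hmaps)
        (hinj.comp (fun x _ y _ h => mul_left_cancel₀ h0' h) hmaps) p hp hp2
  -- Fatou
  have hlim : ∀ᵐ z ∂(volume.restrict (ball (0 : ℂ) 1)),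
      ENNReal.ofReal (‖deriv f z‖ ^ (-p)) = liminf (fun n =>
        ENNReal.ofReal (‖deriv (fun z => f ((ρ n : ℂ) * z)) z‖ ^ (-p))) atTop := by
    refine (ae_restrict_iff' measurableSet_ball).mpr (Eventually.of_forall fun z hz => ?_)
    symm
    apply Tendsto.liminf_eq
    have h1 : Tendsto (fun n => (ρ n : ℂ) * z) atTop (𝓝 z) := by
      have := ((continuous_ofReal.tendsto 1).comp hρlim).mul_const z
      simpa using this
    have h2 : Tendsto (fun n => deriv f ((ρ n : ℂ) * z)) atTop (𝓝 (deriv f z)) :=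
      ((hfd.continuousAt (isOpen_ball.mem_nhds hz)).tendsto).comp h1
    have h3 : Tendsto (fun n => (ρ n : ℂ) * deriv f ((ρ n : ℂ) * z)) atTop (𝓝 (deriv f z)) := by
      have := ((continuous_ofReal.tendsto 1).comp hρlim).mul h2
      simpa using this
    have h4 : Tendsto (fun n => ‖(ρ n : ℂ) * deriv f ((ρ n : ℂ) * z)‖ ^ (-p)) atTop
        (𝓝 (‖deriv f z‖ ^ (-p))) :=
      (h3.norm).rpow_const (Or.inl (norm_ne_zero_iff.mpr (hne z hz)))
    have h5 := (ENNReal.continuous_ofReal.tendsto _).comp h4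
    refine h5.congr fun n => ?_
    simp only [Function.comp_apply]
    rw [hderiv n (hmem n (ball_subset_closedBall hz))]
  calc ∫⁻ z in ball (0 : ℂ) 1, ENNReal.ofReal (‖deriv f z‖ ^ (-p))
      = ∫⁻ z in ball (0 : ℂ) 1, liminf (fun n =>
        ENNReal.ofReal (‖deriv (fun z => f ((ρ n : ℂ) * z)) z‖ ^ (-p))) atTop :=
        lintegral_congr_ae hlim
    _ ≤ liminf (fun n => ∫⁻ z in ball (0 : ℂ) 1,
        ENNReal.ofReal (‖deriv (fun z => f ((ρ n : ℂ) * z)) z‖ ^ (-p))) atTop := by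
        apply lintegral_liminf_le
        intro n
        apply ENNReal.measurable_ofReal.comp
        exact (measurable_deriv _).norm.pow_const _
    _ ≤ ENNReal.ofReal ((m / 2) ^ (-p) * (1 + 16 / (2 - p)) * π) := by
        apply liminf_le_of_frequently_le'
        exact Frequently.of_forall hbound
    _ < ⊤ := ENNReal.ofReal_lt_top

end Vale.Agent.P142.Brn
end

section

open Complex MeasureTheory Metric Set Filter Topology
open scoped Real ComplexConjugate Nat

namespace Vale.Agent.P142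

noncomputable section

variable {f : ℂ → ℂ}

/-- An injective holomorphic function has nonvanishing derivative. -/
theorem injOn_deriv_ne_zero {U : Set ℂ} (hU : IsOpen U) (hf1 : DifferentiableOn ℂ f U)
    (hf2 : InjOn f U) {z₀ : ℂ} (hz : z₀ ∈ U) : deriv f z₀ ≠ 0 := by
  intro hd
  have hnhds : U ∈ 𝓝 z₀ := hU.mem_nhds hz
  have hfa : AnalyticAt ℂ f z₀ := hf1.analyticAt hnhds
  have hφ : AnalyticAt ℂ (fun z => f z - f z₀) z₀ := hfa.sub analyticAt_const
  have hnz : ¬ ∀ᶠ z in 𝓝 z₀, f z - f z₀ = 0 := by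
    intro h
    have h2 : ∀ᶠ z in 𝓝[≠] z₀, f z - f z₀ = 0 ∧ z ∈ U :=
      (h.and hnhds).filter_mono nhdsWithin_le_nhds
    obtain ⟨z, ⟨h3, h4⟩, h5⟩ := (h2.and self_mem_nhdsWithin).exists
    exact h5 (hf2 h4 hz (sub_eq_zero.mp h3))
  obtain ⟨n, g, hg, hg0, hgn⟩ := (hφ.exists_eventuallyEq_pow_smul_nonzero_iff).mpr hnz
  have hn0 : n ≠ 0 := by
    rintro rfl
    have := hgn.self_of_nhds
    simp at this
    exact hg0 this.symm
  have hn1 : n ≠ 1 := by
    rintro rfl
    have h1 : HasDerivAt (fun z => (z - z₀) ^ 1 • g z) (g z₀) z₀ := by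
      have := ((hasDerivAt_id z₀).sub_const z₀).fun_mul hg.differentiableAt.hasDerivAt
      simpa using this
    have h2 : HasDerivAt (fun z => f z - f z₀) (g z₀) z₀ := h1.congr_of_eventuallyEq hgn
    have h3 : HasDerivAt (fun z => f z - f z₀) (deriv f z₀) z₀ :=
      (hfa.differentiableAt.hasDerivAt).sub_const _
    exact hg0 ((h2.unique h3).trans hd)
  obtain ⟨c, hc⟩ := IsAlgClosed.exists_pow_nat_eq (g z₀) (Nat.pos_of_ne_zero hn0)
  have hc0 : c ≠ 0 := by
    rintro rfl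
    rw [zero_pow hn0] at hc
    exact hg0 hc.symm
  set k : ℂ → ℂ := fun z => cexp (Complex.log (g z / g z₀) / n) with hk
  have hnC : (n : ℂ) ≠ 0 := by exact_mod_cast hn0
  have hkn : ∀ᶠ z in 𝓝 z₀, k z ^ n = g z / g z₀ := by
    have : ∀ᶠ z in 𝓝 z₀, g z ≠ 0 := hg.continuousAt.eventually_ne hg0
    filter_upwards [this] with z hz
    rw [hk]
    simp only
    rw [← Complex.exp_nat_mul, mul_div_cancel₀ _ hnC, Complex.exp_log (div_ne_zero hz hg0)]
  have hk0 : k z₀ = 1 := by simp [hk, div_self hg0]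
  have hkd : AnalyticAt ℂ k z₀ := by
    have h1 : AnalyticAt ℂ (fun z => g z / g z₀) z₀ := hg.div analyticAt_const hg0
    have h2 : AnalyticAt ℂ (fun z => Complex.log (g z / g z₀)) z₀ := by
      apply h1.clog
      rw [div_self hg0]
      exact Complex.one_mem_slitPlane
    exact (h2.div analyticAt_const hnC).cexp
  set h : ℂ → ℂ := fun z => (z - z₀) * (c * k z) with hh
  have hha : AnalyticAt ℂ h z₀ := by
    exact (analyticAt_id.sub analyticAt_const).mul (analyticAt_const.mul hkd)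
  have hhd : HasDerivAt h c z₀ := by
    have := ((hasDerivAt_id z₀).sub_const z₀).mul
      ((hasDerivAt_const z₀ c).mul hkd.differentiableAt.hasDerivAt)
    refine this.congr_deriv ?_
    simp [hk0]
  have hhs : HasStrictDerivAt h c z₀ := by
    have := hha.hasStrictDerivAt
    rwa [hhd.deriv] at this
  have hmap : map h (𝓝 z₀) = 𝓝 (h z₀) := hhs.map_nhds_eq hc0
  have hh0 : h z₀ = 0 := by simp [hh]
  have hpow : ∀ᶠ z in 𝓝 z₀, f z - f z₀ = h z ^ n := by
    filter_upwards [hgn, hkn] with z h1 h2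
    rw [h1, hh]
    simp only
    rw [mul_pow, mul_pow, h2, hc, smul_eq_mul]
    field_simp
  have hV : {z | f z - f z₀ = h z ^ n ∧ z ∈ U} ∈ 𝓝 z₀ := hpow.and hnhds
  have himg : h '' {z | f z - f z₀ = h z ^ n ∧ z ∈ U} ∈ 𝓝 (0 : ℂ) := by
    have h1 := image_mem_map (m := h) hV
    rwa [hmap, hh0] at h1
  obtain ⟨ε, hε, hball⟩ := Metric.mem_nhds_iff.mp himg
  have hprim := Complex.isPrimitiveRoot_exp n hn0
  set ω := cexp (2 * π * I / n) with hω
  have hω1 : ω ≠ 1 := hprim.ne_one (by omega)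
  have hωn : ω ^ n = 1 := hprim.pow_eq_one
  have hωnorm : ‖ω‖ = 1 := Complex.norm_eq_one_of_pow_eq_one hωn hn0
  set w : ℂ := ((ε / 2 : ℝ) : ℂ) with hw
  have hwn : ‖w‖ = ε / 2 := by
    rw [hw, Complex.norm_real, Real.norm_eq_abs, abs_of_pos (by positivity)]
  have hw1 : w ∈ ball (0 : ℂ) ε := by rw [mem_ball_zero_iff, hwn]; linarith only [hε]
  have hw2 : ω * w ∈ ball (0 : ℂ) ε := by
    rw [mem_ball_zero_iff, norm_mul, hωnorm, one_mul, hwn]; linarith only [hε]
  obtain ⟨z1, ⟨h11, h12⟩, h13⟩ := hball hw1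
  obtain ⟨z2, ⟨h21, h22⟩, h23⟩ := hball hw2
  have heq : f z1 = f z2 := by
    have : f z1 - f z₀ = f z2 - f z₀ := by
      rw [h11, h21, h13, h23, mul_pow, hωn, one_mul]
    exact sub_left_injective this
  have hz12 := hf2 h12 h22 heq
  rw [hz12, h23] at h13
  have hw0 : w ≠ 0 := by
    intro h0
    rw [h0, norm_zero] at hwn
    linarith only [hε, hwn]
  exact hω1 (mul_right_cancel₀ hw0 (by rw [h13, one_mul]))

theorem univ_deriv_ne_zero (hf : Univ f) {z₀ : ℂ} (hz : z₀ ∈ ball (0 : ℂ) 1) :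
    deriv f z₀ ≠ 0 := injOn_deriv_ne_zero isOpen_ball hf.1 hf.2 hz

/-! ### Power series jets -/

lemma iteratedDeriv_diff (hf : DifferentiableOn ℂ f (ball 0 1)) (n : ℕ) :
    DifferentiableOn ℂ (iteratedDeriv n f) (ball 0 1) := by
  induction n with
  | zero => simpa [iteratedDeriv_zero] using hf
  | succ n ih =>
    rw [iteratedDeriv_succ]
    exact ih.deriv isOpen_ball

lemma hasDerivAt_iteratedDeriv (hf : DifferentiableOn ℂ f (ball 0 1)) {z : ℂ}
    (hz : z ∈ ball (0 : ℂ) 1) (n : ℕ) :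
    HasDerivAt (iteratedDeriv n f) (iteratedDeriv (n + 1) f z) z := by
  rw [iteratedDeriv_succ]
  exact ((iteratedDeriv_diff hf n).differentiableAt (isOpen_ball.mem_nhds hz)).hasDerivAt

end

end Vale.Agent.P142
end

section

/-! Block F of the proof of Brennan's conjecture, from blocks I and P. -/

open Complex MeasureTheory Metric Set Filter Topology
open scoped Real ENNReal

namespace Vale.Agent.P142.Brn

theorem blockF_of (hI : BlockI) (hP : BlockP) : BlockF := by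
  intro f hf hinj p hp hp2
  apply neg_range_of_star _ hf hinj
    (fun z hz => Vale.Agent.P142.injOn_deriv_ne_zero isOpen_ball hf hinj hz) hp hp2
  intro g R hR hg hginj q hq hq2
  have hN : Nice g R := ⟨hR, hg, hginj⟩
  have h1 := (hI g R hN q hq).2
  rw [(hP g R hN q hq hq2).2] at h1
  have h2 : 0 < 1 / q ^ 2 := by positivity
  by_contra h3
  rw [not_le] at h3
  have := mul_pos h2 h3
  linarith only [h1, this]

end Vale.Agent.P142.Brn
end

section

open Complex MeasureTheory Metric Set Filter Topology intervalIntegral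
open scoped Real ComplexConjugate

namespace Vale.Agent.P142

noncomputable section

variable {f : ℂ → ℂ}

/-- The weight `|f'| ^ t`. -/
def wgt (f : ℂ → ℂ) (t : ℝ) (z : ℂ) : ℂ := ((‖deriv f z‖ ^ t : ℝ) : ℂ)

/-- Weighted circle integral. -/
def wInt (f : ℂ → ℂ) (t : ℝ) (H : ℂ → ℂ) (r : ℝ) : ℂ :=
  ∫ θ in (-π)..π, H (circleMap 0 r θ) * wgt f t (circleMap 0 r θ)

lemma continuousOn_deriv (hf : DifferentiableOn ℂ f (ball 0 1)) :
    ContinuousOn (deriv f) (ball 0 1) := (hf.deriv isOpen_ball).continuousOn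

end

end Vale.Agent.P142
end

section

open Complex MeasureTheory Metric Set Filter Topology intervalIntegral
open scoped Real ComplexConjugate

namespace Vale.Agent.P142

noncomputable section

variable {f : ℂ → ℂ} {t β : ℝ} {r : ℝ}

/-! ### Linearity of the weighted integrals -/

/-! ### Graded jets -/

/-- The derivation on the jets. -/
def del (x : ℕ → ℂ) (n : ℕ) : ℂ :=
  ((n : ℂ) + 3) * x (n + 1) + ∑ p ∈ Finset.HasAntidiagonal.antidiagonal n, x p.1 * x p.2 -
    2 * x 0 * x n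

/-- The box of a priori bounds. -/
def Box (x : ℕ → ℂ) : Prop := ‖x 0‖ ≤ 6 ∧ ∀ n, ‖x (n + 1)‖ ≤ 2 ^ n

/-- `g` is a polynomial of weight `p` in the jets and `Dg` its derivation. -/
structure Good (p : ℕ) (g Dg : (ℕ → ℂ) → ℂ) : Prop where
  hom : ∀ (c : ℂ) (x : ℕ → ℂ), g (fun n => c ^ (n + 1) * x n) = c ^ p * g x
  homD : ∀ (c : ℂ) (x : ℕ → ℂ), Dg (fun n => c ^ (n + 1) * x n) = c ^ (p + 1) * Dg x
  der : ∀ (w : ℂ → ℕ → ℂ) (z : ℂ), (∀ n, ∃ d, HasDerivAt (fun z => w z n) d z ∧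
    z * d = (n + 1) * w z n + del (w z) n) →
    ∃ d, HasDerivAt (fun z => g (w z)) d z ∧ z * d = p * g (w z) + Dg (w z)
  bdd : ∃ C : ℝ, ∀ x, Box x → ‖g x‖ ≤ C
  cont : Continuous g
  contD : Continuous Dg

/-! ### The jets of a univalent function -/

/-- Normalised jets as a sequence. -/
def XX (f : ℂ → ℂ) (z : ℂ) : ℕ → ℂ := fun n => X f n z

end

end Vale.Agent.P142
end

section

open Complex Metric Set Filter Topology
open scoped Real ComplexConjugate Nat

namespace Vale.Agent.P142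

noncomputable section

end

end Vale.Agent.P142
end

section

open Complex MeasureTheory Metric Set Filter Topology intervalIntegral
open scoped Real ComplexConjugate ENNReal

namespace Vale.Agent.P142

noncomputable section

/-- Spherical area density at scale `d`. -/
def psi (d : ℝ) (w : ℂ) : ℝ := d ^ 2 / (‖w‖ ^ 2 + d ^ 2) ^ 2

lemma psi_nonneg (d : ℝ) (w : ℂ) : 0 ≤ psi d w := by unfold psi; positivity

lemma continuous_psi {d : ℝ} (hd : 0 < d) : Continuous (psi d) := by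
  unfold psi
  apply Continuous.div (by fun_prop) (by fun_prop)
  intro x
  positivity

lemma abs_det_holo (a : ℂ) :
    |((ContinuousLinearMap.toSpanSingleton ℂ a).restrictScalars ℝ).det| = ‖a‖ ^ 2 := by
  simp [ContinuousLinearMap.det, LinearMap.det_restrictScalars,
      Algebra.norm_complex_eq, Complex.normSq_eq_norm_sq]

lemma lintegral_psi_le {d : ℝ} (hd : 0 < d) :
    ∫⁻ w : ℂ, ENNReal.ofReal (psi d w) ≤ ENNReal.ofReal π := by
  rw [← Complex.lintegral_comp_polarCoord_symm]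
  have hm : Measurable fun p : ℝ × ℝ => ENNReal.ofReal (p.1 * (d ^ 2 / (p.1 ^ 2 + d ^ 2) ^ 2)) := by
    fun_prop
  have e1 : ∀ p ∈ polarCoord.target,
      ENNReal.ofReal p.1 • ENNReal.ofReal (psi d (Complex.polarCoord.symm p)) =
      ENNReal.ofReal (p.1 * (d ^ 2 / (p.1 ^ 2 + d ^ 2) ^ 2)) := by
    intro p hp
    have hp1 : 0 < p.1 := by
      have := hp.1
      simpa using this
    rw [smul_eq_mul, ← ENNReal.ofReal_mul hp1.le]
    unfold psi
    rw [norm_polarCoord_symm, abs_of_pos hp1]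
  rw [setLIntegral_congr_fun polarCoord.open_target.measurableSet e1]
  have e2 : polarCoord.target = Ioi (0 : ℝ) ×ˢ Ioo (-π) π := rfl
  rw [e2, Measure.volume_eq_prod, setLIntegral_prod _ (hm.aemeasurable)]
  simp only [lintegral_const, Measure.restrict_apply, MeasurableSet.univ, univ_inter,
    Real.volume_Ioo]
  rw [lintegral_mul_const _ (by fun_prop)]
  have hder : ∀ x ∈ Ici (0 : ℝ), HasDerivAt (fun x : ℝ => -(d ^ 2 / 2) / (x ^ 2 + d ^ 2))
      (x * (d ^ 2 / (x ^ 2 + d ^ 2) ^ 2)) x := by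
    intro x _
    have hne : x ^ 2 + d ^ 2 ≠ 0 := by positivity
    have h1 : HasDerivAt (fun x : ℝ => x ^ 2 + d ^ 2) (2 * x) x := by
      simpa using (hasDerivAt_pow 2 x).add_const (d ^ 2)
    have h2 := (hasDerivAt_const x (-(d ^ 2 / 2))).div h1 hne
    refine h2.congr_deriv ?_
    field_simp
    ring
  have hlim : Tendsto (fun x : ℝ => -(d ^ 2 / 2) / (x ^ 2 + d ^ 2)) atTop (𝓝 0) := by
    apply Tendsto.const_div_atTop
    exact tendsto_atTop_add_const_right _ _ (tendsto_pow_atTop (by norm_num))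
  have hpos : ∀ x ∈ Ioi (0 : ℝ), 0 ≤ x * (d ^ 2 / (x ^ 2 + d ^ 2) ^ 2) := by
    intro x hx
    have : (0 : ℝ) < x := hx
    positivity
  have hint := integral_Ioi_of_hasDerivAt_of_nonneg' hder hpos hlim
  have hintb := integrableOn_Ioi_deriv_of_nonneg' hder hpos hlim
  rw [← ofReal_integral_eq_lintegral_ofReal hintb
    ((ae_restrict_iff' measurableSet_Ioi).mpr (Eventually.of_forall hpos)), hint,
    ← ENNReal.ofReal_mul']
  · apply ENNReal.ofReal_le_ofReal
    apply le_of_eq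
    have : d ≠ 0 := hd.ne'
    field_simp
    ring
  · linarith only [Real.pi_pos]

variable {F : ℂ → ℂ}

lemma area_ineq (hF : DifferentiableOn ℂ F (ball 0 1)) (hinj : InjOn F (ball 0 1))
    {d : ℝ} (hd : 0 < d) {ρ : ℝ} (hρ : ρ ≤ 1) :
    ∫⁻ z in ball (0 : ℂ) ρ, ENNReal.ofReal (‖deriv F z‖ ^ 2 * psi d (F z)) ≤
      ENNReal.ofReal π := by
  have hsub : ball (0 : ℂ) ρ ⊆ ball 0 1 := ball_subset_ball hρ
  have h1 := lintegral_image_eq_lintegral_abs_det_fderiv_mul volume (s := ball (0 : ℂ) ρ)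
    (f := F) (f' := fun z => (ContinuousLinearMap.toSpanSingleton ℂ (deriv F z)).restrictScalars ℝ)
    measurableSet_ball (fun z hz =>
      (((hF.differentiableAt (isOpen_ball.mem_nhds (hsub hz))).hasDerivAt.hasFDerivAt).restrictScalars
        ℝ).hasFDerivWithinAt) (hinj.mono hsub) (fun w => ENNReal.ofReal (psi d w))
  simp only [abs_det_holo] at h1
  calc ∫⁻ z in ball (0 : ℂ) ρ, ENNReal.ofReal (‖deriv F z‖ ^ 2 * psi d (F z))
      = ∫⁻ z in ball (0 : ℂ) ρ, ENNReal.ofReal (‖deriv F z‖ ^ 2) * ENNReal.ofReal (psi d (F z)) := by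
        congr 1; ext z; rw [ENNReal.ofReal_mul (by positivity)]
    _ = ∫⁻ w in F '' ball (0 : ℂ) ρ, ENNReal.ofReal (psi d w) := h1.symm
    _ ≤ ∫⁻ w : ℂ, ENNReal.ofReal (psi d w) := setLIntegral_le_lintegral _ _
    _ ≤ ENNReal.ofReal π := lintegral_psi_le hd

end

end Vale.Agent.P142
end

section

open Complex MeasureTheory Metric Set Filter Topology intervalIntegral
open scoped Real ComplexConjugate ENNReal

namespace Vale.Agent.P142

noncomputable section

variable {F : ℂ → ℂ}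

/-- The integrand of the boundary form of the spherical area. -/
def Hd (F : ℂ → ℂ) (d : ℝ) (z : ℂ) : ℂ :=
  z * deriv F z * conj (F z) * (F z * conj (F z) + (d : ℂ) ^ 2)⁻¹

/-- The area density. -/
def Gd (F : ℂ → ℂ) (d : ℝ) (z : ℂ) : ℝ := ‖deriv F z‖ ^ 2 * psi d (F z)

lemma denom_eq (F : ℂ → ℂ) (d : ℝ) (z : ℂ) :
    F z * conj (F z) + (d : ℂ) ^ 2 = ((‖F z‖ ^ 2 + d ^ 2 : ℝ) : ℂ) := by
  rw [mul_conj, normSq_eq_norm_sq]
  push_cast
  ring

lemma denom_ne (F : ℂ → ℂ) {d : ℝ} (hd : 0 < d) (z : ℂ) :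
    F z * conj (F z) + (d : ℂ) ^ 2 ≠ 0 := by
  rw [denom_eq]
  have : 0 < ‖F z‖ ^ 2 + d ^ 2 := by positivity
  exact_mod_cast this.ne'

lemma differentiableOn_deriv (hF : DifferentiableOn ℂ F (ball 0 1)) :
    DifferentiableOn ℂ (deriv F) (ball 0 1) := hF.deriv isOpen_ball

lemma Hd_hasW (hF : DifferentiableOn ℂ F (ball 0 1)) {d : ℝ} (hd : 0 < d) {z : ℂ}
    (hz : z ∈ ball (0 : ℂ) 1) :
    HasW (Hd F d)
      ((1 * deriv F z + z * deriv (deriv F) z) * conj (F z) *
        (F z * conj (F z) + (d : ℂ) ^ 2)⁻¹ +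
        z * deriv F z * conj (F z) *
          (-(deriv F z * conj (F z)) / (F z * conj (F z) + (d : ℂ) ^ 2) ^ 2))
      (z * deriv F z * conj (deriv F z) * (d : ℂ) ^ 2 / (F z * conj (F z) + (d : ℂ) ^ 2) ^ 2) z := by
  have hnhds := isOpen_ball.mem_nhds hz
  have h1 : HasDerivAt F (deriv F z) z := (hF.differentiableAt hnhds).hasDerivAt
  have h2 : HasDerivAt (deriv F) (deriv (deriv F) z) z :=
    ((differentiableOn_deriv hF).differentiableAt hnhds).hasDerivAt
  have hA : HasW (fun z => z * deriv F z) (1 * deriv F z + z * deriv (deriv F) z) 0 z :=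
    HasW.of_hasDerivAt ((hasDerivAt_id z).mul h2)
  have hW : HasW F (deriv F z) 0 z := HasW.of_hasDerivAt h1
  have hB := hW.conj
  have hD : HasW (fun z => F z * conj (F z) + (d : ℂ) ^ 2) (deriv F z * conj (F z))
      (F z * conj (deriv F z)) z :=
    ((hW.mul hB).add (HasW.const ((d : ℂ) ^ 2) z)).congr_coeff (by simp) (by simp)
  have hDi := hD.inv (denom_ne F hd z)
  have hfin := (hA.mul hB).mul hDi
  have hne := denom_ne F hd z
  refine hfin.congr_coeff ?_ ?_
  · simp only [one_mul, map_zero, mul_zero, add_zero]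
  · simp only [zero_mul, zero_add]
    field_simp
    ring

lemma continuousOn_Gd (hF : DifferentiableOn ℂ F (ball 0 1)) {d : ℝ} (hd : 0 < d) :
    ContinuousOn (Gd F d) (ball 0 1) := by
  have h1 := hF.continuousOn
  have h2 := (differentiableOn_deriv hF).continuousOn
  unfold Gd
  exact (h2.norm.pow 2).mul ((continuous_psi hd).comp_continuousOn h1)

lemma continuousOn_Hd (hF : DifferentiableOn ℂ F (ball 0 1)) {d : ℝ} (hd : 0 < d) :
    ContinuousOn (Hd F d) (ball 0 1) := fun _ hz =>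
  (Hd_hasW hF hd hz).continuousAt.continuousWithinAt

lemma green_deriv (hF : DifferentiableOn ℂ F (ball 0 1)) {d : ℝ} (hd : 0 < d) {s : ℝ}
    (hs0 : 0 < s) (hs1 : s < 1) :
    HasDerivAt (fun s : ℝ => ∫ θ in (-π)..π, Hd F d (circleMap 0 s θ))
      (((2 * s) * ∫ θ in (-π)..π, Gd F d (circleMap 0 s θ) : ℝ) : ℂ) s := by
  have h1 := hF.continuousOn
  have h2 := (differentiableOn_deriv hF).continuousOn
  have h3 := (differentiableOn_deriv (differentiableOn_deriv hF)).continuousOn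
  have hc1 : ContinuousOn (fun z => conj (F z)) (ball 0 1) :=
    Complex.continuous_conj.comp_continuousOn h1
  have hc2 : ContinuousOn (fun z => conj (deriv F z)) (ball 0 1) :=
    Complex.continuous_conj.comp_continuousOn h2
  have hD : ContinuousOn (fun z => F z * conj (F z) + (d : ℂ) ^ 2) (ball 0 1) :=
    (h1.mul hc1).add continuousOn_const
  have hDi : ContinuousOn (fun z => (F z * conj (F z) + (d : ℂ) ^ 2)⁻¹) (ball 0 1) :=
    hD.inv₀ (fun z _ => denom_ne F hd z)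
  have key := (circle_integral_wirt (fun z hz => Hd_hasW hF hd hz) ?_ ?_ hs0 hs1).1
  · refine key.congr_deriv ?_
    have e : ∀ θ : ℝ, (circleMap 0 s θ * deriv F (circleMap 0 s θ) *
        conj (deriv F (circleMap 0 s θ)) * (d : ℂ) ^ 2 /
        (F (circleMap 0 s θ) * conj (F (circleMap 0 s θ)) + (d : ℂ) ^ 2) ^ 2) *
        conj (circleMap 0 s θ) = ((s ^ 2 * Gd F d (circleMap 0 s θ) : ℝ) : ℂ) := by
      intro θ
      have e1 : circleMap 0 s θ * conj (circleMap 0 s θ) = ((s ^ 2 : ℝ) : ℂ) := by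
        rw [mul_conj, normSq_eq_norm_sq, norm_circleMap_zero, sq_abs]
      have e2 : deriv F (circleMap 0 s θ) * conj (deriv F (circleMap 0 s θ)) =
          ((‖deriv F (circleMap 0 s θ)‖ ^ 2 : ℝ) : ℂ) := by
        rw [mul_conj, normSq_eq_norm_sq]
      rw [denom_eq]
      unfold Gd psi
      calc _ = (circleMap 0 s θ * conj (circleMap 0 s θ)) *
            (deriv F (circleMap 0 s θ) * conj (deriv F (circleMap 0 s θ))) *
            ((d : ℂ) ^ 2 / (((‖F (circleMap 0 s θ)‖ ^ 2 + d ^ 2 : ℝ) : ℂ)) ^ 2) := by ring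
        _ = _ := by rw [e1, e2]; push_cast; ring
    simp only [e]
    rw [intervalIntegral.integral_ofReal, intervalIntegral.integral_const_mul]
    push_cast
    have hs : (s : ℂ) ≠ 0 := by exact_mod_cast hs0.ne'
    field_simp
  · have e := (((((continuousOn_const (c := (1 : ℂ))).mul h2).add
        (continuousOn_id.mul h3)).mul hc1).mul hDi).add
      (((continuousOn_id.mul h2).mul hc1).mul
        ((h2.mul hc1).neg.div (hD.pow 2) (fun z _ => pow_ne_zero 2 (denom_ne F hd z))))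
    exact e
  · exact (((continuousOn_id.mul h2).mul hc2).mul continuousOn_const).div (hD.pow 2)
      (fun z _ => pow_ne_zero 2 (denom_ne F hd z))

/-- The area density integrated in polar coordinates is at most `π`. -/
lemma polar_area_le (hF : DifferentiableOn ℂ F (ball 0 1)) (hinj : InjOn F (ball 0 1))
    {d : ℝ} (hd : 0 < d) {e ρ : ℝ} (he : 0 < e) (heρ : e ≤ ρ) (hρ : ρ < 1) :
    ∫ s in e..ρ, s * ∫ θ in (-π)..π, Gd F d (circleMap 0 s θ) ≤ π := by
  have hG0 : ∀ z, 0 ≤ Gd F d z := fun z => by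
    unfold Gd; exact mul_nonneg (by positivity) (psi_nonneg _ _)
  have hpi : (-π) ≤ π := by linarith [Real.pi_pos]
  have harea := area_ineq hF hinj hd (le_refl (1 : ℝ))
  -- continuity of the polar integrand
  have hcont : ContinuousOn (fun p : ℝ × ℝ => p.1 * Gd F d (circleMap 0 p.1 p.2))
      (Icc e ρ ×ˢ Icc (-π) π) := by
    apply continuousOn_fst.mul
    exact (continuousOn_Gd hF hd).comp continuous_circleMap_uncurry.continuousOn
      (fun p hp => circleMap_mem_unit (by linarith [hp.1.1]) (by linarith [hp.1.2]) _)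
  have hintOn : IntegrableOn (fun p : ℝ × ℝ => p.1 * Gd F d (circleMap 0 p.1 p.2))
      (Icc e ρ ×ˢ Icc (-π) π) (volume.prod volume) :=
    hcont.integrableOn_compact (isCompact_Icc.prod isCompact_Icc)
  have hintOn' : IntegrableOn (fun p : ℝ × ℝ => p.1 * Gd F d (circleMap 0 p.1 p.2))
      (Ioo e ρ ×ˢ Ioo (-π) π) (volume.prod volume) :=
    hintOn.mono_set (prod_mono Ioo_subset_Icc_self Ioo_subset_Icc_self)
  have e1 : ∫ s in e..ρ, s * ∫ θ in (-π)..π, Gd F d (circleMap 0 s θ) =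
      ∫ p in Ioo e ρ ×ˢ Ioo (-π) π, p.1 * Gd F d (circleMap 0 p.1 p.2) ∂(volume.prod volume) := by
    rw [setIntegral_prod _ hintOn', intervalIntegral.integral_of_le heρ,
      integral_Ioc_eq_integral_Ioo]
    apply setIntegral_congr_fun measurableSet_Ioo
    intro s _
    simp only
    rw [intervalIntegral.integral_of_le hpi, integral_Ioc_eq_integral_Ioo, MeasureTheory.integral_const_mul]
  rw [e1]
  have hnn : ∀ p ∈ Ioo e ρ ×ˢ Ioo (-π) π, 0 ≤ p.1 * Gd F d (circleMap 0 p.1 p.2) := by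
    intro p hp
    exact mul_nonneg (by linarith [hp.1.1]) (hG0 _)
  rw [integral_eq_lintegral_of_nonneg_ae
    ((ae_restrict_iff' (measurableSet_Ioo.prod measurableSet_Ioo)).mpr (Eventually.of_forall hnn))
    hintOn'.aestronglyMeasurable]
  apply ENNReal.toReal_le_of_le_ofReal Real.pi_pos.le
  refine le_trans ?_ harea
  rw [← lintegral_indicator measurableSet_ball, ← Complex.lintegral_comp_polarCoord_symm]
  have e2 : polarCoord.target = Ioi (0 : ℝ) ×ˢ Ioo (-π) π := rfl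
  have hsub : Ioo e ρ ×ˢ Ioo (-π) π ⊆ polarCoord.target := by
    rw [e2]
    exact prod_mono (fun x hx => lt_trans he hx.1) (subset_refl _)
  refine le_trans ?_ (lintegral_mono_set hsub)
  rw [← Measure.volume_eq_prod]
  apply le_of_eq
  apply setLIntegral_congr_fun (measurableSet_Ioo.prod measurableSet_Ioo)
  intro p hp
  have hp0 : 0 < p.1 := lt_trans he hp.1.1
  have hp1 : p.1 < 1 := lt_trans hp.1.2 hρ
  have e3 : Complex.polarCoord.symm p = circleMap 0 p.1 p.2 := by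
    rw [Complex.polarCoord_symm_apply, circleMap_zero, Complex.exp_mul_I]
    push_cast
    ring
  simp only
  rw [e3, indicator_of_mem (circleMap_mem_unit hp0.le hp1 _), smul_eq_mul,
    ← ENNReal.ofReal_mul hp0.le]
  rfl

/-- The boundary form of the spherical area is at most `2π`. -/
lemma green_ineq (hF : DifferentiableOn ℂ F (ball 0 1)) (hinj : InjOn F (ball 0 1))
    {d : ℝ} (hd : 0 < d) {ρ : ℝ} (hρ0 : 0 < ρ) (hρ : ρ < 1) :
    (∫ θ in (-π)..π, Hd F d (circleMap 0 ρ θ)).re ≤ 2 * π := by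
  set N : ℝ → ℂ := fun s => ∫ θ in (-π)..π, Hd F d (circleMap 0 s θ) with hN
  have hpi : (-π) ≤ π := by linarith [Real.pi_pos]
  have hstep : ∀ e : ℝ, 0 < e → e ≤ ρ → (N ρ).re ≤ 2 * π + (N e).re := by
    intro e he heρ
    have hder : ∀ s ∈ uIcc e ρ, HasDerivAt (fun s => (N s).re)
        ((2 * s) * ∫ θ in (-π)..π, Gd F d (circleMap 0 s θ)) s := by
      intro s hs
      rw [uIcc_of_le heρ] at hs
      have h := green_deriv hF hd (lt_of_lt_of_le he hs.1) (lt_of_le_of_lt hs.2 hρ)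
      have h2 := Complex.reCLM.hasFDerivAt.comp_hasDerivAt s h
      exact h2.congr_deriv (by simp)
    have hcont : ContinuousOn (fun s : ℝ => (2 * s) * ∫ θ in (-π)..π, Gd F d (circleMap 0 s θ))
        (uIcc e ρ) := by
      rw [uIcc_of_le heρ]
      apply ContinuousOn.mul (by fun_prop)
      exact (continuousOn_circle_integral (continuousOn_Gd hF hd)).mono
        (fun x hx => ⟨by linarith [hx.1], lt_of_le_of_lt hx.2 hρ⟩)
    have h := intervalIntegral.integral_eq_sub_of_hasDerivAt hder hcont.intervalIntegrable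
    have h2 := polar_area_le hF hinj hd he heρ hρ
    have h3 : ∫ s in e..ρ, (2 * s) * ∫ θ in (-π)..π, Gd F d (circleMap 0 s θ) =
        2 * ∫ s in e..ρ, s * ∫ θ in (-π)..π, Gd F d (circleMap 0 s θ) := by
      rw [← intervalIntegral.integral_const_mul]
      congr 1; ext s; ring
    rw [h3] at h
    linarith
  have hN0 : N 0 = 0 := by
    simp only [hN, Hd, circleMap_zero_radius, Function.const_apply, zero_mul, intervalIntegral.integral_zero]
  have hNc : ContinuousOn N (Ioo (-1) 1) := continuousOn_circle_integral (continuousOn_Hd hF hd)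
  have hlim : Tendsto (fun e : ℝ => 2 * π + (N e).re) (𝓝[>] 0) (𝓝 (2 * π + (N 0).re)) := by
    have h1 : ContinuousAt N 0 := hNc.continuousAt (Ioo_mem_nhds (by norm_num) (by norm_num))
    have h2 : ContinuousAt (fun e : ℝ => 2 * π + (N e).re) 0 :=
      (continuousAt_const.add (Complex.continuous_re.continuousAt.comp h1))
    exact h2.tendsto.mono_left nhdsWithin_le_nhds
  rw [hN0, zero_re, add_zero] at hlim
  refine ge_of_tendsto hlim ?_
  filter_upwards [Ioo_mem_nhdsGT hρ0] with e he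
  exact hstep e he.1 he.2.le

end

end Vale.Agent.P142
end

section

open Complex MeasureTheory Metric Set Filter Topology intervalIntegral
open scoped Real ComplexConjugate Nat

namespace Vale.Agent.P142

noncomputable section

variable {F : ℂ → ℂ}

lemma dslope_diff (hF : DifferentiableOn ℂ F (ball 0 1)) :
    DifferentiableOn ℂ (dslope F 0) (ball 0 1) :=
  (Complex.differentiableOn_dslope (isOpen_ball.mem_nhds (mem_ball_self one_pos))).mpr hF

lemma F_eq_mul_dslope (h0 : F 0 = 0) (z : ℂ) : F z = z * dslope F 0 z := by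
  have h := sub_smul_dslope F 0 z
  simp [h0] at h
  exact h.symm

lemma dslope_ne (hinj : InjOn F (ball 0 1)) (h0 : F 0 = 0) (h1 : deriv F 0 = 1) {z : ℂ}
    (hz : z ∈ ball (0 : ℂ) 1) : dslope F 0 z ≠ 0 := by
  by_cases hz0 : z = 0
  · rw [hz0, dslope_same, h1]; exact one_ne_zero
  · intro h
    have : F z = F 0 := by rw [F_eq_mul_dslope h0 z, h, mul_zero, h0]
    exact hz0 (hinj hz (mem_ball_self one_pos) this)

/-- `R z = z / F z`. -/
def Rfun (F : ℂ → ℂ) (z : ℂ) : ℂ := (dslope F 0 z)⁻¹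

lemma Rfun_diff (hF : DifferentiableOn ℂ F (ball 0 1)) (hinj : InjOn F (ball 0 1))
    (h0 : F 0 = 0) (h1 : deriv F 0 = 1) : DifferentiableOn ℂ (Rfun F) (ball 0 1) := by
  unfold Rfun
  exact (dslope_diff hF).fun_inv (fun z hz => dslope_ne hinj h0 h1 hz)

lemma Rfun_ne (hinj : InjOn F (ball 0 1)) (h0 : F 0 = 0) (h1 : deriv F 0 = 1) {z : ℂ}
    (hz : z ∈ ball (0 : ℂ) 1) : Rfun F z ≠ 0 := inv_ne_zero (dslope_ne hinj h0 h1 hz)

lemma F_eq_div (h0 : F 0 = 0) (z : ℂ) : F z = z * (Rfun F z)⁻¹ := by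
  rw [F_eq_mul_dslope h0 z, Rfun, inv_inv]

/-- Mean value property on circles about the origin. -/
lemma mean_value {J : ℂ → ℂ} (hJ : DifferentiableOn ℂ J (ball 0 1)) {s : ℝ} (hs0 : 0 ≤ s)
    (hs1 : s < 1) : ∫ θ in (-π)..π, J (circleMap 0 s θ) = 2 * π * J 0 := by
  have h := parseval (U := J) (W := fun _ => 1) (a := tc J) (b := fun n => if n = 0 then 1 else 0)
    hs0 hs1 hJ.continuousOn (fun z hz => hasSum_tc hJ hz) (fun z _ => by
      have : HasSum (fun n : ℕ => (if n = 0 then (1 : ℂ) else 0) * z ^ n)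
          ((if (0 : ℕ) = 0 then (1 : ℂ) else 0) * z ^ 0) := by
        apply hasSum_single
        intro n hn
        simp [hn]
      simpa using this)
  have h2 : HasSum (fun n : ℕ => 2 * π * (tc J n * conj (if n = 0 then (1 : ℂ) else 0) *
      (s : ℂ) ^ (2 * n))) (2 * π * (tc J 0 * conj (if (0 : ℕ) = 0 then (1 : ℂ) else 0) *
      (s : ℂ) ^ (2 * 0))) := by
    apply hasSum_single
    intro n hn
    simp [hn]
  have h3 := h.unique h2
  simp only [map_one, mul_one] at h3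
  rw [h3]
  simp [tc]

lemma deriv_F_eq (hF : DifferentiableOn ℂ F (ball 0 1)) (hinj : InjOn F (ball 0 1))
    (h0 : F 0 = 0) (h1 : deriv F 0 = 1) {z : ℂ} (hz : z ∈ ball (0 : ℂ) 1) :
    deriv F z = (Rfun F z)⁻¹ - z * (deriv (Rfun F) z / (Rfun F z) ^ 2) := by
  have hR : HasDerivAt (Rfun F) (deriv (Rfun F) z) z :=
    ((Rfun_diff hF hinj h0 h1).differentiableAt (isOpen_ball.mem_nhds hz)).hasDerivAt
  have hne := Rfun_ne hinj h0 h1 hz
  have h2 : HasDerivAt (fun z => z * (Rfun F z)⁻¹)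
      (1 * (Rfun F z)⁻¹ + z * (-(deriv (Rfun F) z) / (Rfun F z) ^ 2)) z :=
    (hasDerivAt_id z).mul (hR.fun_inv hne)
  have h3 : (fun z => z * (Rfun F z)⁻¹) = F := by
    ext w; exact (F_eq_div h0 w).symm
  rw [h3] at h2
  rw [h2.deriv]
  ring

/-- The key inequality on each circle. -/
lemma circle_ineq (hF : DifferentiableOn ℂ F (ball 0 1)) (hinj : InjOn F (ball 0 1))
    (h0 : F 0 = 0) (h1 : deriv F 0 = 1) {s : ℝ} (hs0 : 0 < s) (hs1 : s < 1) :
    0 ≤ (∫ θ in (-π)..π, (Rfun F (circleMap 0 s θ) -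
      circleMap 0 s θ * deriv (Rfun F) (circleMap 0 s θ)) *
        conj (Rfun F (circleMap 0 s θ))).re := by
  have hRd := Rfun_diff hF hinj h0 h1
  have hRc : ContinuousOn (Rfun F) (ball 0 1) := hRd.continuousOn
  have hR'c : ContinuousOn (deriv (Rfun F)) (ball 0 1) := (hRd.deriv isOpen_ball).continuousOn
  have hmem := fun θ : ℝ => circleMap_mem_unit hs0.le hs1 θ
  have hpi : (-π) ≤ π := by linarith [Real.pi_pos]
  set z : ℝ → ℂ := fun θ => circleMap 0 s θ with hz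
  have hzc : Continuous z := continuous_circleMap 0 s
  have hRz : Continuous (fun θ => Rfun F (z θ)) := hRc.comp_continuous hzc hmem
  have hR'z : Continuous (fun θ => deriv (Rfun F) (z θ)) := hR'c.comp_continuous hzc hmem
  have hne : ∀ θ, Rfun F (z θ) ≠ 0 := fun θ => Rfun_ne hinj h0 h1 (hmem θ)
  -- J = 1 - z R' / R
  set J : ℂ → ℂ := fun w => 1 - w * (deriv (Rfun F) w / Rfun F w) with hJ
  have hJd : DifferentiableOn ℂ J (ball 0 1) := by
    apply DifferentiableOn.sub (differentiableOn_const _)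
    exact differentiableOn_id.mul ((hRd.deriv isOpen_ball).div hRd
      (fun w hw => Rfun_ne hinj h0 h1 hw))
  have hJint : ∫ θ in (-π)..π, J (z θ) = 2 * π := by
    rw [mean_value hJd hs0.le hs1]
    simp [hJ]
  have hJc : Continuous (fun θ => J (z θ)) := hJd.continuousOn.comp_continuous hzc hmem
  have nz : ∀ θ, ‖z θ‖ = s := fun θ => by rw [hz]; simp only; rw [norm_circleMap_zero, abs_of_pos hs0]
  -- identity for the integrand
  have key : ∀ d : ℝ, 0 < d → ∀ θ, Hd F d (z θ) = J (z θ) *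
      ((1 - d ^ 2 * (‖Rfun F (z θ)‖ ^ 2 / s ^ 2) + d ^ 4 * ((‖Rfun F (z θ)‖ ^ 2 / s ^ 2) ^ 2 /
        (1 + d ^ 2 * (‖Rfun F (z θ)‖ ^ 2 / s ^ 2))) : ℝ) : ℂ) := by
    intro d hd θ
    have e1 : deriv F (z θ) = (Rfun F (z θ))⁻¹ -
        z θ * (deriv (Rfun F) (z θ) / (Rfun F (z θ)) ^ 2) := deriv_F_eq hF hinj h0 h1 (hmem θ)
    have hR0 := hne θ
    have hz0 : z θ ≠ 0 := by
      intro h
      have := nz θ
      rw [h, norm_zero] at this
      exact hs0.ne this
    have hF0 : F (z θ) ≠ 0 := by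
      rw [F_eq_div h0]
      exact mul_ne_zero hz0 (inv_ne_zero hR0)
    have eJ : z θ * deriv F (z θ) = J (z θ) * F (z θ) := by
      rw [F_eq_div h0 (z θ), hJ]
      simp only
      rw [e1]
      field_simp
    unfold Hd
    rw [eJ, denom_eq, mul_assoc (J (z θ)), mul_conj, normSq_eq_norm_sq, mul_assoc]
    congr 1
    have hn : ‖F (z θ)‖ ^ 2 = s ^ 2 / ‖Rfun F (z θ)‖ ^ 2 := by
      rw [F_eq_div h0 (z θ), norm_mul, norm_inv, nz θ]
      field_simp
    have hRn : 0 < ‖Rfun F (z θ)‖ := norm_pos_iff.mpr hR0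
    rw [hn, ← ofReal_inv, ← ofReal_mul]
    congr 1
    have hs2 : s ≠ 0 := hs0.ne'
    have hpos : 0 < s ^ 2 + d ^ 2 * ‖Rfun F (z θ)‖ ^ 2 := by positivity
    field_simp
    ring
  -- abbreviations
  set q : ℝ → ℝ := fun θ => ‖Rfun F (z θ)‖ ^ 2 / s ^ 2 with hq
  have hqc : Continuous q := by
    have := hRz.norm
    simp only [hq]
    fun_prop
  have hq0 : ∀ θ, 0 ≤ q θ := fun θ => by simp only [hq]; (clear * - hs0; positivity)
  set A : ℂ := ∫ θ in (-π)..π, J (z θ) * (q θ : ℂ) with hA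
  set E : ℝ → ℂ := fun d => ∫ θ in (-π)..π, J (z θ) * ((q θ ^ 2 / (1 + d ^ 2 * q θ) : ℝ) : ℂ) with hE
  have hdenc : ∀ d : ℝ, Continuous (fun θ => q θ ^ 2 / (1 + d ^ 2 * q θ)) := by
    intro d
    apply Continuous.div (by fun_prop) (by fun_prop)
    intro θ
    have := hq0 θ
    (clear * - hs0; positivity)
  have hint : ∀ d : ℝ, 0 < d → ∫ θ in (-π)..π, Hd F d (z θ) =
      2 * π - (d : ℂ) ^ 2 * A + (d : ℂ) ^ 4 * E d := by
    intro d hd
    have e : ∀ θ, Hd F d (z θ) = (J (z θ) - (d : ℂ) ^ 2 * (J (z θ) * (q θ : ℂ))) +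
        (d : ℂ) ^ 4 * (J (z θ) * ((q θ ^ 2 / (1 + d ^ 2 * q θ) : ℝ) : ℂ)) := by
      intro θ
      rw [key d hd θ]
      show J (z θ) * ((1 - d ^ 2 * q θ + d ^ 4 * (q θ ^ 2 / (1 + d ^ 2 * q θ)) : ℝ) : ℂ) = _
      push_cast
      ring
    simp only [e]
    have c1 : Continuous (fun θ => (d : ℂ) ^ 2 * (J (z θ) * (q θ : ℂ))) :=
      continuous_const.mul (hJc.mul (continuous_ofReal.comp hqc))
    have c0 : Continuous (fun θ => J (z θ) - (d : ℂ) ^ 2 * (J (z θ) * (q θ : ℂ))) := hJc.sub c1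
    have c2 : Continuous (fun θ => (d : ℂ) ^ 4 *
        (J (z θ) * ((q θ ^ 2 / (1 + d ^ 2 * q θ) : ℝ) : ℂ))) :=
      continuous_const.mul (hJc.mul (continuous_ofReal.comp (hdenc d)))
    rw [intervalIntegral.integral_add (c0.intervalIntegrable _ _)
      (c2.intervalIntegrable _ _), intervalIntegral.integral_sub (hJc.intervalIntegrable _ _)
      (c1.intervalIntegrable _ _), intervalIntegral.integral_const_mul,
      intervalIntegral.integral_const_mul, hJint]
  -- bound on E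
  obtain ⟨C, hC⟩ := (isCompact_Icc (a := -π) (b := π)).exists_bound_of_continuousOn
    (hJc.mul (continuous_ofReal.comp (hqc.pow 2))).continuousOn
  have hEb : ∀ d : ℝ, ‖E d‖ ≤ C * |π - (-π)| := by
    intro d
    apply intervalIntegral.norm_integral_le_of_norm_le_const
    intro θ hθ
    rw [uIoc_of_le hpi] at hθ
    refine le_trans ?_ (hC θ (Ioc_subset_Icc_self hθ))
    simp only [Function.comp_apply, Pi.mul_apply, Pi.pow_apply, norm_mul, Complex.norm_real]
    have hqq := hq0 θ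
    gcongr
    rw [Real.norm_eq_abs, Real.norm_eq_abs, abs_of_nonneg (by (clear * - hs0; positivity)),
      abs_of_nonneg (by (clear * -; positivity))]
    apply div_le_self (by (clear * -; positivity))
    nlinarith only [hqq]
  -- A.re ≥ - d^2 * C'
  have hAd : ∀ d : ℝ, 0 < d → -(d ^ 2 * (C * |π - (-π)|)) ≤ A.re := by
    intro d hd
    have h2 := green_ineq hF hinj hd hs0 hs1
    rw [show (fun θ => Hd F d (circleMap 0 s θ)) = fun θ => Hd F d (z θ) from rfl] at h2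
    rw [hint d hd] at h2
    have e2 : (2 * π - (d : ℂ) ^ 2 * A + (d : ℂ) ^ 4 * E d).re =
        2 * π - d ^ 2 * A.re + d ^ 4 * (E d).re := by
      rw [← ofReal_pow, ← ofReal_pow, add_re, sub_re, re_ofReal_mul, re_ofReal_mul]
      simp
    rw [e2] at h2
    have h3 : d ^ 2 * (d ^ 2 * (E d).re) ≤ d ^ 2 * A.re := by nlinarith only [h2]
    have h4 : d ^ 2 * (E d).re ≤ A.re := le_of_mul_le_mul_left h3 (by positivity)
    have h5 : -(C * |π - (-π)|) ≤ (E d).re := by
      have := (abs_le.mp (Complex.abs_re_le_norm (E d))).1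
      linarith only [this, hEb d]
    nlinarith only [h4, h5]
  have hA0 : 0 ≤ A.re := by
    have hlim : Tendsto (fun d : ℝ => -(d ^ 2 * (C * |π - (-π)|))) (𝓝[>] 0)
        (𝓝 (-((0 : ℝ) ^ 2 * (C * |π - (-π)|)))) := by
      have : Continuous (fun d : ℝ => -(d ^ 2 * (C * |π - (-π)|))) := by fun_prop
      exact (this.tendsto 0).mono_left nhdsWithin_le_nhds
    simp only [ne_eq, OfNat.ofNat_ne_zero, not_false_eq_true, zero_pow, zero_mul, neg_zero] at hlim
    refine le_of_tendsto hlim ?_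
    filter_upwards [self_mem_nhdsWithin] with d hd
    exact hAd d hd
  have efin : (∫ θ in (-π)..π, (Rfun F (z θ) - z θ * deriv (Rfun F) (z θ)) *
        conj (Rfun F (z θ))) = (s : ℂ) ^ 2 * A := by
    rw [hA, ← intervalIntegral.integral_const_mul]
    congr 1
    ext θ
    have hR0 := hne θ
    have hsn : (s : ℂ) ≠ 0 := by exact_mod_cast hs0.ne'
    have e3 : ((q θ : ℝ) : ℂ) = Rfun F (z θ) * conj (Rfun F (z θ)) / (s : ℂ) ^ 2 := by
      rw [mul_conj, normSq_eq_norm_sq, hq]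
      push_cast
      ring
    rw [e3]
    simp only [hJ]
    (clear * - hR0 hsn; field_simp)
  rw [efin, ← ofReal_pow, re_ofReal_mul]
  (clear * - hs0 hA0; positivity)

/-- Gronwall's area theorem. -/
theorem area_theorem (hF : DifferentiableOn ℂ F (ball 0 1)) (hinj : InjOn F (ball 0 1))
    (h0 : F 0 = 0) (h1 : deriv F 0 = 1) (m : ℕ) :
    ∑ k ∈ Finset.range m, ((k : ℝ) + 1) * ‖tc (Rfun F) (k + 2)‖ ^ 2 ≤ 1 := by
  have hRd := Rfun_diff hF hinj h0 h1
  set r : ℕ → ℂ := tc (Rfun F) with hr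
  have hr0 : r 0 = 1 := by
    simp [hr, tc, Rfun, h1]
  -- for each s
  have hstep : ∀ s : ℝ, 0 < s → s < 1 →
      ∑ k ∈ Finset.range m, ((k : ℝ) + 1) * ‖r (k + 2)‖ ^ 2 * s ^ (2 * (k + 2)) ≤ 1 := by
    intro s hs0 hs1
    have hpos := circle_ineq hF hinj h0 h1 hs0 hs1
    have hU : ∀ w ∈ ball (0 : ℂ) 1, HasSum (fun n : ℕ => ((1 - (n : ℂ)) * r n) * w ^ n)
        (Rfun F w - w * deriv (Rfun F) w) := by
      intro w hw
      refine hasSum_of_eq (fun n => ?_) ((hasSum_tc hRd hw).sub (hasSum_tc_mul_deriv hRd hw))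
      rw [hr]; ring
    have hUc : ContinuousOn (fun w => Rfun F w - w * deriv (Rfun F) w) (ball 0 1) :=
      hRd.continuousOn.sub (continuousOn_id.mul (hRd.deriv isOpen_ball).continuousOn)
    have hP := parseval hs0.le hs1 hUc hU (fun w hw => hasSum_tc hRd hw)
    have hS : HasSum (fun n : ℕ => 2 * π * ((1 - (n : ℝ)) * ‖r n‖ ^ 2 * s ^ (2 * n)))
        (∫ θ in (-π)..π, (Rfun F (circleMap 0 s θ) -
      circleMap 0 s θ * deriv (Rfun F) (circleMap 0 s θ)) *
        conj (Rfun F (circleMap 0 s θ))).re := by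
      have h := Complex.hasSum_re hP
      have e : ∀ n : ℕ, (2 * π * ((1 - (n : ℂ)) * r n * conj (r n) *
          (s : ℂ) ^ (2 * n))).re = 2 * π * ((1 - (n : ℝ)) * ‖r n‖ ^ 2 * s ^ (2 * n)) := by
        intro n
        have : 2 * π * ((1 - (n : ℂ)) * r n * conj (r n) * (s : ℂ) ^ (2 * n)) =
            ((2 * π * ((1 - (n : ℝ)) * ‖r n‖ ^ 2 * s ^ (2 * n)) : ℝ) : ℂ) := by
          rw [mul_assoc (1 - (n : ℂ)), mul_conj, normSq_eq_norm_sq]
          push_cast
          ring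
        rw [this, ofReal_re]
      rw [← funext e]
      exact h
    -- partial sums dominate the total
    have hpart : 0 ≤ ∑ n ∈ Finset.range (m + 2),
        2 * π * ((1 - (n : ℝ)) * ‖r n‖ ^ 2 * s ^ (2 * n)) := by
      refine le_trans hpos ?_
      have h := sum_le_hasSum (Finset.range (m + 2)) (fun n hn => ?_) hS.neg
      · simp only [Finset.sum_neg_distrib] at h
        linarith
      · have hn2 : m + 2 ≤ n := by simpa using hn
        have h3 : (1 : ℝ) - n ≤ 0 := by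
          have : ((m + 2 : ℕ) : ℝ) ≤ n := by exact_mod_cast hn2
          push_cast at this
          have hm : (0 : ℝ) ≤ m := Nat.cast_nonneg m
          linarith only [this]
        have h4 : 0 ≤ (n - 1 : ℝ) * ‖r n‖ ^ 2 * s ^ (2 * n) := by
          have : (0 : ℝ) ≤ n - 1 := by linarith
          (clear * - this hs0; positivity)
        have h5 : 0 ≤ 2 * π * ((n - 1 : ℝ) * ‖r n‖ ^ 2 * s ^ (2 * n)) :=
          mul_nonneg (by positivity) h4
        linarith only [h5]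
    rw [← Finset.mul_sum] at hpart
    have hpart2 : 0 ≤ ∑ n ∈ Finset.range (m + 2), ((1 - (n : ℝ)) * ‖r n‖ ^ 2 * s ^ (2 * n)) :=
      nonneg_of_mul_nonneg_right hpart (by positivity)
    rw [Finset.sum_range_succ', Finset.sum_range_succ', hr0] at hpart2
    have e3 : ∑ k ∈ Finset.range m, (1 - ((k + 1 + 1 : ℕ) : ℝ)) * ‖r (k + 1 + 1)‖ ^ 2 *
        s ^ (2 * (k + 1 + 1)) = - ∑ k ∈ Finset.range m, ((k : ℝ) + 1) * ‖r (k + 2)‖ ^ 2 *
          s ^ (2 * (k + 2)) := by
      rw [← Finset.sum_neg_distrib]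
      apply Finset.sum_congr rfl
      intro k _
      push_cast
      ring
    rw [e3] at hpart2
    simp only [zero_add, Nat.cast_one, sub_self, zero_mul, mul_one, add_zero, CharP.cast_eq_zero, sub_zero, norm_one, one_pow, mul_zero, pow_zero, le_neg_add_iff_add_le] at hpart2
    linarith
  have hlim : Tendsto (fun s : ℝ => ∑ k ∈ Finset.range m, ((k : ℝ) + 1) * ‖r (k + 2)‖ ^ 2 *
      s ^ (2 * (k + 2))) (𝓝[<] 1) (𝓝 (∑ k ∈ Finset.range m, ((k : ℝ) + 1) * ‖r (k + 2)‖ ^ 2 *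
      1 ^ (2 * (k + 2)))) := by
    have : Continuous (fun s : ℝ => ∑ k ∈ Finset.range m, ((k : ℝ) + 1) * ‖r (k + 2)‖ ^ 2 *
      s ^ (2 * (k + 2))) := by fun_prop
    exact (this.tendsto 1).mono_left nhdsWithin_le_nhds
  simp only [one_pow, mul_one] at hlim
  refine le_of_tendsto hlim ?_
  filter_upwards [Ioo_mem_nhdsLT (show (0 : ℝ) < 1 by norm_num)] with s hs
  exact hstep s hs.1 hs.2

end

end Vale.Agent.P142
end

section

open Complex Metric Set Filter Topology
open scoped Real ComplexConjugate Nat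

namespace Vale.Agent.P142

noncomputable section

variable {f : ℂ → ℂ} {z : ℂ}

lemma unit_pos (hz : z ∈ ball (0 : ℂ) 1) : 0 < 1 - ‖z‖ ^ 2 := by
  rw [mem_ball_zero_iff] at hz
  nlinarith [norm_nonneg z]

lemma den_ne {ζ : ℂ} (hz : z ∈ ball (0 : ℂ) 1) (hζ : ζ ∈ ball (0 : ℂ) 1) :
    1 + conj z * ζ ≠ 0 := by
  rw [mem_ball_zero_iff] at hz hζ
  intro h
  have h1 : conj z * ζ = -1 := by linear_combination h
  have h2 : ‖conj z * ζ‖ = 1 := by rw [h1]; simp
  rw [norm_mul, RCLike.norm_conj] at h2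
  nlinarith [norm_nonneg z, norm_nonneg ζ]

lemma mob_sub {ζ : ℂ} (hz : z ∈ ball (0 : ℂ) 1) (hζ : ζ ∈ ball (0 : ℂ) 1) :
    (ζ + z) / (1 + conj z * ζ) - z = ((1 - ‖z‖ ^ 2 : ℝ) : ℂ) * ζ / (1 + conj z * ζ) := by
  have h := den_ne hz hζ
  have e : ((1 - ‖z‖ ^ 2 : ℝ) : ℂ) = 1 - z * conj z := by
    rw [mul_conj, normSq_eq_norm_sq]; push_cast; ring
  have h' : 1 + ζ * conj z ≠ 0 := by rwa [mul_comm ζ]
  rw [e]
  field_simp
  ring

lemma mob_mem {ζ : ℂ} (hz : z ∈ ball (0 : ℂ) 1) (hζ : ζ ∈ ball (0 : ℂ) 1) :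
    (ζ + z) / (1 + conj z * ζ) ∈ ball (0 : ℂ) 1 := by
  have h := den_ne hz hζ
  have hz' := unit_pos hz
  have hζ' := unit_pos hζ
  rw [mem_ball_zero_iff, norm_div, div_lt_one (norm_pos_iff.mpr h)]
  have h1 : ‖1 + conj z * ζ‖ ^ 2 - ‖ζ + z‖ ^ 2 = (1 - ‖z‖ ^ 2) * (1 - ‖ζ‖ ^ 2) := by
    have e : ∀ w : ℂ, ‖w‖ ^ 2 = w.re ^ 2 + w.im ^ 2 := fun w => by
      rw [← normSq_eq_norm_sq, normSq_apply]; ring
    rw [e, e, e, e]
    simp only [add_re, one_re, mul_re, conj_re, conj_im, neg_mul, sub_neg_eq_add, add_im, one_im, mul_im, zero_add]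
    ring
  have h2 : ‖ζ + z‖ ^ 2 < ‖1 + conj z * ζ‖ ^ 2 := by nlinarith only [h1, hz', hζ']
  exact lt_of_pow_lt_pow_left₀ 2 (norm_nonneg _) h2

lemma mob_diff (hz : z ∈ ball (0 : ℂ) 1) :
    DifferentiableOn ℂ (fun ζ => (ζ + z) / (1 + conj z * ζ)) (ball 0 1) := by
  apply DifferentiableOn.div
  · fun_prop
  · fun_prop
  · intro ζ hζ; exact den_ne hz hζ

lemma hasDerivAt_mob (z : ℂ) :
    HasDerivAt (fun ζ => (ζ + z) / (1 + conj z * ζ)) (((1 - ‖z‖ ^ 2 : ℝ) : ℂ)) 0 := by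
  have h1 : HasDerivAt (fun ζ : ℂ => ζ + z) 1 0 := (hasDerivAt_id (0 : ℂ)).add_const z
  have h2 : HasDerivAt (fun ζ : ℂ => 1 + conj z * ζ) (conj z * 1) 0 :=
    ((hasDerivAt_id (0 : ℂ)).const_mul (conj z)).const_add 1
  have h3 := h1.fun_div h2 (by simp)
  refine h3.congr_deriv ?_
  have e : ((1 - ‖z‖ ^ 2 : ℝ) : ℂ) = 1 - z * conj z := by
    rw [mul_conj, normSq_eq_norm_sq]; push_cast; ring
  rw [e]
  simp

theorem koebeT_univ (hf : Univ f) (hz : z ∈ ball (0 : ℂ) 1) : Univ (koebeT f z) := by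
  have hu := unit_pos hz
  have hd := univ_deriv_ne_zero hf hz
  have huc : ((1 - ‖z‖ ^ 2 : ℝ) : ℂ) ≠ 0 := by exact_mod_cast hu.ne'
  constructor
  · unfold koebeT
    apply DifferentiableOn.div_const
    apply DifferentiableOn.sub_const
    exact hf.1.comp (mob_diff hz) (fun ζ hζ => mob_mem hz hζ)
  · intro ζ₁ h₁ ζ₂ h₂ h
    unfold koebeT at h
    rw [div_left_inj' (mul_ne_zero huc hd), sub_left_inj] at h
    have h3 := hf.2 (mob_mem hz h₁) (mob_mem hz h₂) h
    have h4 := mob_sub hz h₁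
    rw [h3, mob_sub hz h₂] at h4
    have d1 := den_ne hz h₁
    have d2 := den_ne hz h₂
    rw [div_eq_div_iff d2 d1] at h4
    have h5 : ((1 - ‖z‖ ^ 2 : ℝ) : ℂ) * ζ₂ = ((1 - ‖z‖ ^ 2 : ℝ) : ℂ) * ζ₁ := by
      linear_combination h4
    exact (mul_left_cancel₀ huc h5).symm

theorem koebeT_zero (f : ℂ → ℂ) (z : ℂ) : koebeT f z 0 = 0 := by
  simp [koebeT]

theorem koebeT_deriv (hf : Univ f) (hz : z ∈ ball (0 : ℂ) 1) : deriv (koebeT f z) 0 = 1 := by
  have hu := unit_pos hz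
  have hd := univ_deriv_ne_zero hf hz
  have huc : ((1 - ‖z‖ ^ 2 : ℝ) : ℂ) ≠ 0 := by exact_mod_cast hu.ne'
  have h1 : HasDerivAt f (deriv f z) ((0 + z) / (1 + conj z * 0)) := by
    have : (0 + z) / (1 + conj z * 0) = z := by simp
    rw [this]
    exact (hf.1.differentiableAt (isOpen_ball.mem_nhds hz)).hasDerivAt
  have h2 := HasDerivAt.comp (0 : ℂ) h1 (hasDerivAt_mob z)
  have h3 : HasDerivAt (koebeT f z)
      (deriv f z * ((1 - ‖z‖ ^ 2 : ℝ) : ℂ) / (((1 - ‖z‖ ^ 2 : ℝ) : ℂ) * deriv f z)) 0 :=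
    (h2.sub_const (f z)).div_const _
  rw [h3.deriv]
  field_simp

/-! ### The function `G` and its Taylor coefficients -/

end

end Vale.Agent.P142
end

section

open Complex Metric Set Filter Topology
open scoped Real ComplexConjugate Nat

namespace Vale.Agent.P142

noncomputable section

variable {F f : ℂ → ℂ} {z : ℂ}

end

end Vale.Agent.P142
end

section

open Set Filter Topology

namespace Vale.Agent.P142

noncomputable section

/-- The rate `2 / (r (1 - r ^ 2))`. -/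
def qr (r : ℝ) : ℝ := 2 / (r * (1 - r ^ 2))

end

end Vale.Agent.P142
end

section

open Complex MeasureTheory Metric Set Filter Topology intervalIntegral
open scoped Real ComplexConjugate

namespace Vale.Agent.P142

noncomputable section

variable {f : ℂ → ℂ} {t β : ℝ} {r : ℝ}

/-- Boundedness on the box. -/
def Bdd (g : (ℕ → ℂ) → ℂ) : Prop := ∃ C : ℝ, ∀ x, Box x → ‖g x‖ ≤ C

lemma Bdd.mul_conj {g h : (ℕ → ℂ) → ℂ} (hg : Bdd g) (hh : Bdd h) :
    Bdd (fun x => g x * conj (h x)) := by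
  obtain ⟨C, hC⟩ := hg
  obtain ⟨D, hD⟩ := hh
  refine ⟨C * D, fun x hx => ?_⟩
  rw [norm_mul, RCLike.norm_conj]
  exact mul_le_mul (hC x hx) (hD x hx) (norm_nonneg _) (le_trans (norm_nonneg _) (hC x hx))

/-- `Φ` is a Lyapunov candidate and `P` the associated form. -/
structure GoodPhi (t β : ℝ) (Φ P : (ℕ → ℂ) → ℂ) : Prop where
  bdd : Bdd Φ
  cont : Continuous Φ
  contP : Continuous P
  ex : ∃ E : (ℕ → ℂ) → ℂ, Bdd E ∧ Continuous E ∧ ∀ f : ℂ → ℂ, DifferentiableOn ℂ f (ball 0 1) →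
    (∀ z ∈ ball (0 : ℂ) 1, deriv f z ≠ 0) → ∀ r : ℝ, 0 < r → r < 1 →
    HasDerivAt (wInt f t (fun z => Φ (XX f z))) ((qr r : ℂ) *
      (β * wInt f t (fun z => Φ (XX f z)) r - wInt f t (fun z => P (XX f z)) r +
        ((1 - r ^ 2 : ℝ) : ℂ) * wInt f t (fun z => E (XX f z)) r)) r

/-! ### Real parts and bounds -/

/-- The mean `∫ |f'| ^ t`. -/
def MM (f : ℂ → ℂ) (t : ℝ) (r : ℝ) : ℝ :=
  ∫ θ in (-π)..π, ‖deriv f (circleMap 0 r θ)‖ ^ t

lemma continuous_weight (hf : DifferentiableOn ℂ f (ball 0 1))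
    (hd : ∀ z ∈ ball (0 : ℂ) 1, deriv f z ≠ 0) (hr0 : 0 ≤ r) (hr1 : r < 1) :
    Continuous (fun θ => ‖deriv f (circleMap 0 r θ)‖ ^ t) := by
  have h : ContinuousOn (fun z => ‖deriv f z‖ ^ t) (ball 0 1) := by
    apply ContinuousOn.rpow_const (continuousOn_deriv hf).norm
    intro z hz
    exact Or.inl (norm_ne_zero_iff.mpr (hd z hz))
  exact h.comp_continuous (continuous_circleMap 0 r) (fun θ => circleMap_mem_unit hr0 hr1 θ)

end

end Vale.Agent.P142
end

section

open Complex MeasureTheory Metric Set Filter Topology intervalIntegral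
open scoped Real ComplexConjugate

namespace Vale.Agent.P142

noncomputable section

variable {f : ℂ → ℂ} {t β : ℝ} {r : ℝ}

/-! ### Dilations -/

lemma dil_mem {l : ℝ} (hl0 : 0 < l) (hl1 : l ≤ 1) {z : ℂ} (hz : z ∈ ball (0 : ℂ) 1) :
    (l : ℂ) * z ∈ ball (0 : ℂ) 1 := by
  rw [mem_ball_zero_iff] at *
  rw [norm_mul, Complex.norm_real, Real.norm_eq_abs, abs_of_pos hl0]
  nlinarith [norm_nonneg z]

end

end Vale.Agent.P142
end

section

open Complex MeasureTheory Metric Set Filter Topology intervalIntegral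
open scoped Real ComplexConjugate ENNReal

namespace Vale.Agent.P142

noncomputable section

variable {f : ℂ → ℂ} {t β : ℝ} {r : ℝ}

lemma MM_pos (hf : Univ f) (t : ℝ) (hr0 : 0 ≤ r) (hr1 : r < 1) : 0 < MM f t r := by
  have hd : ∀ z ∈ ball (0 : ℂ) 1, deriv f z ≠ 0 := fun z hz => univ_deriv_ne_zero hf hz
  have hc := continuous_weight (t := t) hf.1 hd hr0 hr1
  apply intervalIntegral.intervalIntegral_pos_of_pos (hc.intervalIntegrable _ _)
  · intro θ
    exact Real.rpow_pos_of_pos (norm_pos_iff.mpr (hd _ (circleMap_mem_unit hr0 hr1 θ))) _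
  · linarith [Real.pi_pos]

/-- A power bound for the means bounds `β_f(t)`. -/
theorem betaF_le (hf : Univ f) {C r₀ : ℝ} (hr₀ : 0 < r₀) (hr₁ : r₀ < 1)
    (h : ∀ r ∈ Ico r₀ 1, (1 - r) ^ β * MM f t r ≤ C) : betaF f t ≤ (β : EReal) := by
  have hC : 0 < C := by
    have h1 := h r₀ ⟨le_rfl, hr₁⟩
    have h2 : 0 < (1 - r₀) ^ β * MM f t r₀ :=
      mul_pos (Real.rpow_pos_of_pos (by linarith) _) (MM_pos hf t hr₀.le hr₁)
    linarith
  set C' : ℝ := (2 * π)⁻¹ * C with hC'
  have hC'0 : 0 < C' := by positivity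
  have hlogt : Tendsto (fun r : ℝ => Real.log (1 / (1 - r))) (𝓝[<] 1) atTop := by
    apply Real.tendsto_log_atTop.comp
    have h1 : Tendsto (fun r : ℝ => 1 - r) (𝓝[<] 1) (𝓝[>] 0) := by
      rw [tendsto_nhdsWithin_iff]
      constructor
      · have : Tendsto (fun r : ℝ => 1 - r) (𝓝 1) (𝓝 (1 - 1)) :=
          (continuous_const.sub continuous_id).tendsto 1
        rw [sub_self] at this
        exact this.mono_left nhdsWithin_le_nhds
      · filter_upwards [self_mem_nhdsWithin] with r hr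
        have : r < 1 := hr
        exact sub_pos.mpr this
    have h2 := tendsto_inv_nhdsGT_zero.comp h1
    refine h2.congr (fun r => ?_)
    simp [Function.comp]
  have hub : ∀ᶠ r : ℝ in 𝓝[<] 1, ((Real.log (intMean f t r) / Real.log (1 / (1 - r)) : ℝ) : EReal) ≤
      ((β + Real.log C' / Real.log (1 / (1 - r)) : ℝ) : EReal) := by
    have hev : ∀ᶠ r in 𝓝[<] (1 : ℝ), r ∈ Ico r₀ 1 := Ico_mem_nhdsLT hr₁
    filter_upwards [hev, hlogt.eventually_gt_atTop 0] with r hr hlog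
    rw [EReal.coe_le_coe_iff, div_le_iff₀ hlog, add_mul, div_mul_cancel₀ _ hlog.ne']
    have hr' : 0 < 1 - r := by linarith [hr.2]
    have hp : 0 < (1 - r) ^ β := Real.rpow_pos_of_pos hr' β
    have hMp := MM_pos hf t (le_trans hr₀.le hr.1) hr.2
    have h1 : intMean f t r ≤ C' * (1 - r) ^ (-β) := by
      have h2 := h r hr
      rw [intMean, hC', Real.rpow_neg hr'.le, mul_assoc]
      apply mul_le_mul_of_nonneg_left _ (by positivity)
      rw [← div_eq_mul_inv, le_div_iff₀ hp]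
      rw [mul_comm]
      exact h2
    have hIp : 0 < intMean f t r := by
      rw [intMean]
      exact mul_pos (by positivity) hMp
    calc Real.log (intMean f t r) ≤ Real.log (C' * (1 - r) ^ (-β)) := Real.log_le_log hIp h1
      _ = β * Real.log (1 / (1 - r)) + Real.log C' := by
        rw [Real.log_mul hC'0.ne' (Real.rpow_pos_of_pos hr' _).ne', Real.log_rpow hr', one_div,
          Real.log_inv]
        ring
  have hlim : Tendsto (fun r : ℝ => ((β + Real.log C' / Real.log (1 / (1 - r)) : ℝ) : EReal))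
      (𝓝[<] 1) (𝓝 (β : EReal)) := by
    rw [EReal.tendsto_coe]
    have := (hlogt.const_div_atTop (Real.log C')).const_add β
    rwa [add_zero] at this
  calc betaF f t ≤ limsup (fun r : ℝ =>
        ((β + Real.log C' / Real.log (1 / (1 - r)) : ℝ) : EReal)) (𝓝[<] 1) :=
        limsup_le_limsup hub
    _ = (β : EReal) := hlim.limsup_eq

/-- Young: passing from the exponent `t` to `t s` with `0 ≤ s ≤ 1`. -/
lemma MM_young (hf : Univ f) {s l : ℝ} (hs0 : 0 ≤ s) (hs1 : s ≤ 1) (hl : 0 < l) (hr0 : 0 ≤ r)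
    (hr1 : r < 1) : MM f (t * s) r ≤ l ^ s * (2 * π + l⁻¹ * MM f t r) := by
  have hd : ∀ z ∈ ball (0 : ℂ) 1, deriv f z ≠ 0 := fun z hz => univ_deriv_ne_zero hf hz
  have hpi : (-π) ≤ π := by linarith [Real.pi_pos]
  have hc := continuous_weight (t := t) hf.1 hd hr0 hr1
  have hc2 := continuous_weight (t := t * s) hf.1 hd hr0 hr1
  have hc3 : Continuous (fun θ => l⁻¹ * ‖deriv f (circleMap 0 r θ)‖ ^ t) :=
    continuous_const.mul hc
  have e : l ^ s * (2 * π + l⁻¹ * MM f t r) =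
      ∫ θ in (-π)..π, l ^ s * (1 + l⁻¹ * ‖deriv f (circleMap 0 r θ)‖ ^ t) := by
    rw [intervalIntegral.integral_const_mul, intervalIntegral.integral_add (by simp)
      (hc3.intervalIntegrable _ _), intervalIntegral.integral_const_mul, MM]
    simp only [intervalIntegral.integral_const, sub_neg_eq_add, smul_eq_mul, mul_one, mul_eq_mul_left_iff, add_left_inj]
    left
    ring
  rw [e, MM]
  have hc4 : Continuous (fun θ => l ^ s * (1 + l⁻¹ * ‖deriv f (circleMap 0 r θ)‖ ^ t)) :=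
    continuous_const.mul (continuous_const.add hc3)
  apply intervalIntegral.integral_mono_on hpi (hc2.intervalIntegrable _ _)
    (hc4.intervalIntegrable _ _)
  intro θ _
  set x := ‖deriv f (circleMap 0 r θ)‖ with hx
  have hx0 : 0 ≤ x := norm_nonneg _
  rw [Real.rpow_mul hx0]
  set y := x ^ t with hy
  have hy0 : 0 ≤ y := Real.rpow_nonneg hx0 _
  have hyl : 0 ≤ l⁻¹ * y := by (clear * - hl; positivity)
  have e2 : y = l * (l⁻¹ * y) := by field_simp
  have e3 : y ^ s = l ^ s * (l⁻¹ * y) ^ s := by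
    rw [← Real.mul_rpow hl.le hyl, ← e2]
  rw [e3]
  apply mul_le_mul_of_nonneg_left _ (Real.rpow_nonneg hl.le _)
  rcases le_or_gt (l⁻¹ * y) 1 with h | h
  · have := Real.rpow_le_one hyl h hs0
    linarith only [hyl, this]
  · have : (l⁻¹ * y) ^ s ≤ (l⁻¹ * y) ^ (1 : ℝ) := Real.rpow_le_rpow_of_exponent_le h.le hs1
    rw [Real.rpow_one] at this
    linarith only [this]

/-- The area integral through circle means. -/
lemma lintegral_ball_le (hf : Univ f) (t : ℝ) :
    ∫⁻ z in ball (0 : ℂ) 1, ENNReal.ofReal (‖deriv f z‖ ^ t) ≤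
      ∫⁻ r in Ioo (0 : ℝ) 1, ENNReal.ofReal (MM f t r) := by
  have hd : ∀ z ∈ ball (0 : ℂ) 1, deriv f z ≠ 0 := fun z hz => univ_deriv_ne_zero hf hz
  rw [← lintegral_indicator measurableSet_ball, ← Complex.lintegral_comp_polarCoord_symm]
  set g : ℂ → ℝ≥0∞ := (ball (0 : ℂ) 1).indicator (fun z => ENNReal.ofReal (‖deriv f z‖ ^ t)) with hg
  set k : ℝ × ℝ → ℝ≥0∞ := (Iio (1 : ℝ) ×ˢ univ).indicator
    (fun p => ENNReal.ofReal (‖deriv f (circleMap 0 p.1 p.2)‖ ^ t)) with hk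
  have hms : MeasurableSet (Iio (1 : ℝ) ×ˢ (univ : Set ℝ)) := measurableSet_Iio.prod MeasurableSet.univ
  have hkm : Measurable k := by
    apply Measurable.indicator _ hms
    apply ENNReal.measurable_ofReal.comp
    apply Measurable.pow_const
    apply Measurable.norm
    exact (measurable_deriv f).comp continuous_circleMap_uncurry.measurable
  have h1 : ∀ p ∈ polarCoord.target, ENNReal.ofReal p.1 • g (Complex.polarCoord.symm p) ≤ k p := by
    intro p hp
    have hp1 : 0 < p.1 := by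
      have := hp.1
      simpa using this
    have e : Complex.polarCoord.symm p = circleMap 0 p.1 p.2 := by
      rw [Complex.polarCoord_symm_apply, circleMap_zero, Complex.exp_mul_I]
      push_cast
      rfl
    rw [e, smul_eq_mul]
    by_cases h : p.1 < 1
    · have hb : circleMap 0 p.1 p.2 ∈ ball (0 : ℂ) 1 := circleMap_mem_unit hp1.le h _
      have hkp : k p = ENNReal.ofReal (‖deriv f (circleMap 0 p.1 p.2)‖ ^ t) := by
        rw [hk]
        exact indicator_of_mem (show p ∈ Iio (1 : ℝ) ×ˢ (univ : Set ℝ) from ⟨h, mem_univ _⟩) _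
      have hgp : g (circleMap 0 p.1 p.2) =
          ENNReal.ofReal (‖deriv f (circleMap 0 p.1 p.2)‖ ^ t) := by
        rw [hg]
        exact indicator_of_mem hb _
      rw [hkp, hgp]
      calc ENNReal.ofReal p.1 * ENNReal.ofReal (‖deriv f (circleMap 0 p.1 p.2)‖ ^ t)
          ≤ 1 * ENNReal.ofReal (‖deriv f (circleMap 0 p.1 p.2)‖ ^ t) := by
            gcongr
            exact ENNReal.ofReal_le_one.mpr h.le
        _ = _ := one_mul _
    · have hgp : g (circleMap 0 p.1 p.2) = 0 := by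
        rw [hg]
        apply indicator_of_notMem
        rw [mem_ball_zero_iff, norm_circleMap_zero, abs_of_pos hp1]
        exact h
      rw [hgp, mul_zero]
      exact bot_le
  have e2 : polarCoord.target = Ioi (0 : ℝ) ×ˢ Ioo (-π) π := rfl
  calc ∫⁻ p in polarCoord.target, ENNReal.ofReal p.1 • g (Complex.polarCoord.symm p)
      ≤ ∫⁻ p in polarCoord.target, k p :=
        setLIntegral_mono' polarCoord.open_target.measurableSet h1
    _ = ∫⁻ r in Ioi (0 : ℝ), ∫⁻ θ in Ioo (-π) π, k (r, θ) := by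
        rw [e2, Measure.volume_eq_prod, setLIntegral_prod _ (hkm.aemeasurable)]
    _ ≤ ∫⁻ r in Ioi (0 : ℝ), (Iio (1 : ℝ)).indicator (fun r => ENNReal.ofReal (MM f t r)) r := by
        apply setLIntegral_mono' measurableSet_Ioi
        intro r hr
        have hr0 : (0 : ℝ) < r := hr
        by_cases h : r < 1
        · rw [indicator_of_mem (show r ∈ Iio (1 : ℝ) from h)]
          have hkr : ∀ θ, k (r, θ) = ENNReal.ofReal (‖deriv f (circleMap 0 r θ)‖ ^ t) := by
            intro θ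
            rw [hk]
            exact indicator_of_mem
              (show ((r, θ) : ℝ × ℝ) ∈ Iio (1 : ℝ) ×ˢ (univ : Set ℝ) from ⟨h, mem_univ _⟩) _
          simp only [hkr]
          have hc := continuous_weight (t := t) hf.1 hd hr0.le h
          have hint : IntegrableOn (fun θ => ‖deriv f (circleMap 0 r θ)‖ ^ t) (Ioc (-π) π) :=
            (hc.integrableOn_Icc (a := -π) (b := π)).mono_set Ioc_subset_Icc_self
          rw [MM, intervalIntegral.integral_of_le (by linarith only [Real.pi_pos]),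
            ofReal_integral_eq_lintegral_ofReal hint
              (Eventually.of_forall fun θ => Real.rpow_nonneg (norm_nonneg _) _)]
          exact lintegral_mono_set Ioo_subset_Ioc_self
        · rw [indicator_of_notMem (show r ∉ Iio (1 : ℝ) from h)]
          have hkr : ∀ θ, k (r, θ) = 0 := by
            intro θ
            rw [hk]
            apply indicator_of_notMem
            intro hmem
            exact h hmem.1
          simp only [hkr, lintegral_const, MeasurableSet.univ, Measure.restrict_apply, univ_inter, Real.volume_Ioo, sub_neg_eq_add, zero_mul, Std.le_refl]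
    _ = ∫⁻ r in Ioo (0 : ℝ) 1, ENNReal.ofReal (MM f t r) := by
        rw [lintegral_indicator measurableSet_Iio, Measure.restrict_restrict measurableSet_Iio,
          Iio_inter_Ioi]

lemma MM_bdd_compact (hf : Univ f) (t : ℝ) {r₀ : ℝ} (hr₀ : r₀ < 1) :
    ∃ B : ℝ, ∀ r ∈ Ioo (0 : ℝ) r₀, MM f t r ≤ B := by
  have hd : ∀ z ∈ ball (0 : ℂ) 1, deriv f z ≠ 0 := fun z hz => univ_deriv_ne_zero hf hz
  have hc : ContinuousOn (fun z => ‖deriv f z‖ ^ t) (ball 0 1) := by
    apply ContinuousOn.rpow_const (continuousOn_deriv hf.1).norm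
    intro z hz
    exact Or.inl (norm_ne_zero_iff.mpr (hd z hz))
  have h1 := continuousOn_circle_integral hc
  have h2 : ContinuousOn (MM f t) (Icc 0 r₀) := by
    apply h1.mono
    intro r hr
    exact ⟨by linarith [hr.1], by linarith [hr.2]⟩
  obtain ⟨B, hB⟩ := isCompact_Icc.exists_bound_of_continuousOn h2
  exact ⟨B, fun r hr => le_trans (le_abs_self _) (hB r ⟨hr.1.le, hr.2.le⟩)⟩

/-- Area integrability from a power bound. -/
theorem lintegral_ball_lt_top (hf : Univ f) {C r₀ b : ℝ} (hr₁ : r₀ < 1)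
    (hb : b < 1) (h : ∀ r ∈ Ico r₀ 1, MM f t r ≤ C * (1 - r) ^ (-b)) :
    ∫⁻ z in ball (0 : ℂ) 1, ENNReal.ofReal (‖deriv f z‖ ^ t) < ⊤ := by
  refine lt_of_le_of_lt (lintegral_ball_le hf t) ?_
  obtain ⟨B, hB⟩ := MM_bdd_compact hf t hr₁
  have hint : IntegrableOn (fun r : ℝ => |B| + |C| * (1 - r) ^ (-b)) (Ioo 0 1) := by
    have h1 : IntervalIntegrable (fun x : ℝ => x ^ (-b)) volume 0 1 :=
      intervalIntegral.intervalIntegrable_rpow' (by linarith)
    have h2 := (h1.comp_sub_left 1)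
    simp only [sub_zero, sub_self] at h2
    have h3 : IntegrableOn (fun x : ℝ => (1 - x) ^ (-b)) (Ioo 0 1) := by
      have := h2.symm.1
      exact this.mono_set Ioo_subset_Ioc_self
    have h4 : IntegrableOn (fun _ : ℝ => |B|) (Ioo (0 : ℝ) 1) := by simp only [Real.enorm_abs, ne_eq, enorm_ne_top, not_false_eq_true, integrableOn_const_iff, enorm_eq_zero, Real.volume_Ioo, sub_zero, ENNReal.ofReal_one, ENNReal.one_lt_top, or_true]
    exact h4.add (h3.const_mul |C|)
  have hbound : ∀ r ∈ Ioo (0 : ℝ) 1, ENNReal.ofReal (MM f t r) ≤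
      ENNReal.ofReal (|B| + |C| * (1 - r) ^ (-b)) := by
    intro r hr
    apply ENNReal.ofReal_le_ofReal
    have hp : 0 ≤ (1 - r) ^ (-b) := Real.rpow_nonneg (by linarith [hr.2]) _
    rcases lt_or_ge r r₀ with h1 | h1
    · have h2 := hB r ⟨hr.1, h1⟩
      have h3 : 0 ≤ |C| * (1 - r) ^ (-b) := mul_nonneg (abs_nonneg _) hp
      linarith [le_abs_self B]
    · have h2 := h r ⟨h1, hr.2⟩
      have h3 : C * (1 - r) ^ (-b) ≤ |C| * (1 - r) ^ (-b) :=
        mul_le_mul_of_nonneg_right (le_abs_self C) hp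
      linarith [abs_nonneg B]
  refine lt_of_le_of_lt (setLIntegral_mono' measurableSet_Ioo hbound) ?_
  exact hint.lintegral_lt_top

/-- From the mean bound at `t` to area integrability at `t s`, when `β s < 1`. -/
theorem lintegral_ball_lt_top_of_mean (hf : Univ f) {C r₀ s : ℝ} (hr₀ : 0 < r₀)
    (hr₁ : r₀ < 1) (h : ∀ r ∈ Ico r₀ 1, (1 - r) ^ β * MM f t r ≤ C) (hs0 : 0 ≤ s) (hs1 : s ≤ 1)
    (hb : β * s < 1) :
    ∫⁻ z in ball (0 : ℂ) 1, ENNReal.ofReal (‖deriv f z‖ ^ (t * s)) < ⊤ := by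
  apply lintegral_ball_lt_top hf (C := 2 * π + C) hr₁ hb
  intro r hr
  have hr' : 0 < 1 - r := by linarith [hr.2]
  have hl : 0 < (1 - r) ^ (-β) := Real.rpow_pos_of_pos hr' _
  have h1 := MM_young (t := t) hf hs0 hs1 hl (le_trans hr₀.le hr.1) hr.2
  have e1 : ((1 - r) ^ (-β)) ^ s = (1 - r) ^ (-(β * s)) := by
    rw [← Real.rpow_mul hr'.le]; ring_nf
  have e2 : ((1 - r) ^ (-β))⁻¹ = (1 - r) ^ β := by
    rw [Real.rpow_neg hr'.le, inv_inv]
  rw [e1, e2] at h1
  refine le_trans h1 ?_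
  rw [mul_comm]
  apply mul_le_mul_of_nonneg_right _ (Real.rpow_nonneg hr'.le _)
  linarith [h r hr]

/-! ### Conformal maps onto the disc -/

/-- Change of variables: `∫_W |φ'| ^ s dA = ∫_D |f'| ^ (2 - s) dA` for the inverse `f` of `φ`. -/
theorem exists_inverse {W : Set ℂ} (hW : IsOpen W) {φ : ℂ → ℂ} (hφ : DifferentiableOn ℂ φ W)
    (hbij : BijOn φ W (ball 0 1)) : ∃ f : ℂ → ℂ, Univ f ∧ ∀ s : ℝ,
    ∫⁻ w in W, ENNReal.ofReal (‖deriv φ w‖ ^ s) =
      ∫⁻ z in ball (0 : ℂ) 1, ENNReal.ofReal (‖deriv f z‖ ^ (2 - s)) := by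
  set f : ℂ → ℂ := Function.invFunOn φ W with hf
  have hinv : InvOn f φ W (ball 0 1) := hbij.invOn_invFunOn
  have hbij' : BijOn f (ball 0 1) W := (bijOn_comm hinv).mpr hbij
  have hder : ∀ z ∈ ball (0 : ℂ) 1, HasDerivAt f (deriv φ (f z))⁻¹ z := by
    intro z hz
    have ha : f z ∈ W := hbij'.mapsTo hz
    have hd : HasStrictDerivAt φ (deriv φ (f z)) (f z) :=
      (hφ.analyticAt (hW.mem_nhds ha)).hasStrictDerivAt
    have hne : deriv φ (f z) ≠ 0 := injOn_deriv_ne_zero hW hφ hbij.injOn ha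
    have hev : ∀ᶠ x in 𝓝 (f z), f (φ x) = x := by
      filter_upwards [hW.mem_nhds ha] with x hx
      exact hinv.1 hx
    have h1 := hd.to_local_left_inverse hne hev
    rw [hinv.2 hz] at h1
    exact h1.hasDerivAt
  have hfU : Univ f := ⟨fun z hz => (hder z hz).differentiableAt.differentiableWithinAt,
    hbij'.injOn⟩
  refine ⟨f, hfU, fun s => ?_⟩
  have h1 := lintegral_image_eq_lintegral_abs_det_fderiv_mul volume (s := ball (0 : ℂ) 1)
    (f := f) (f' := fun z => (ContinuousLinearMap.toSpanSingleton ℂ (deriv f z)).restrictScalars ℝ)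
    measurableSet_ball (fun z hz =>
      (((hfU.1.differentiableAt (isOpen_ball.mem_nhds hz)).hasDerivAt.hasFDerivAt).restrictScalars
        ℝ).hasFDerivWithinAt) hfU.2 (fun w => ENNReal.ofReal (‖deriv φ w‖ ^ s))
  rw [hbij'.image_eq] at h1
  rw [h1]
  apply setLIntegral_congr_fun measurableSet_ball
  intro z hz
  simp only [abs_det_holo]
  have hne : deriv f z ≠ 0 := univ_deriv_ne_zero hfU hz
  have hpos : 0 < ‖deriv f z‖ := norm_pos_iff.mpr hne
  have e : deriv φ (f z) = (deriv f z)⁻¹ := by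
    rw [(hder z hz).deriv, inv_inv]
  rw [e, norm_inv, Real.inv_rpow hpos.le, ← ENNReal.ofReal_mul (by positivity)]
  congr 1
  rw [Real.rpow_sub hpos, Real.rpow_two, div_eq_mul_inv]

end

end Vale.Agent.P142
end

section

open Complex MeasureTheory Metric Set Filter Topology
open scoped Real ComplexConjugate ENNReal Nat

namespace Vale.Agent.P142

noncomputable section

variable {F f k : ℂ → ℂ} {z : ℂ}

/-! ### Logarithms of nonvanishing functions -/

/-- A holomorphic logarithm of a nonvanishing function on the disc. -/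
lemma exists_logf (hk : DifferentiableOn ℂ k (ball 0 1))
    (hne : ∀ z ∈ ball (0 : ℂ) 1, k z ≠ 0) :
    ∃ L : ℂ → ℂ, (∀ z ∈ ball (0 : ℂ) 1, HasDerivAt L (deriv k z / k z) z) ∧
      (∀ z ∈ ball (0 : ℂ) 1, k z = Complex.exp (L z)) ∧ L 0 = Complex.log (k 0) := by
  have hk' := hk.deriv isOpen_ball
  have hq : DifferentiableOn ℂ (fun z => deriv k z / k z) (ball 0 1) := hk'.fun_div hk hne
  obtain ⟨h, hh⟩ := hq.isExactOn_ball
  have h0 : (0 : ℂ) ∈ ball (0 : ℂ) 1 := mem_ball_self one_pos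
  have hE : ∀ z ∈ ball (0 : ℂ) 1, HasDerivAt (fun z => k z * Complex.exp (-(h z))) 0 z := by
    intro z hz
    have h1 : HasDerivAt k (deriv k z) z :=
      (hk.differentiableAt (isOpen_ball.mem_nhds hz)).hasDerivAt
    have h2 := h1.fun_mul ((hh z hz).fun_neg.cexp)
    refine h2.congr_deriv ?_
    have := hne z hz
    field_simp
    ring
  have hconst : ∀ z ∈ ball (0 : ℂ) 1, k z * Complex.exp (-(h z)) =
      k 0 * Complex.exp (-(h 0)) := by
    intro z hz
    exact (convex_ball (0 : ℂ) 1).is_const_of_fderivWithin_eq_zero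
      (fun x hx => (hE x hx).differentiableAt.differentiableWithinAt)
      (fun x hx => by
        rw [fderivWithin_eq_fderiv (isOpen_ball.uniqueDiffWithinAt hx)
          (hE x hx).differentiableAt]
        have := (hE x hx).hasFDerivAt.fderiv
        rw [this]
        ext
        simp) hz h0
  have hne0 := hne 0 h0
  refine ⟨fun z => Complex.log (k 0) + (h z - h 0), ?_, ?_, by simp⟩
  · intro z hz
    exact ((hh z hz).sub_const _).const_add _
  · intro z hz
    rw [Complex.exp_add, Complex.exp_log hne0, Complex.exp_sub]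
    have h1 := hconst z hz
    rw [Complex.exp_neg, Complex.exp_neg] at h1
    have e1 := Complex.exp_ne_zero (h z)
    have e2 := Complex.exp_ne_zero (h 0)
    field_simp at h1 ⊢
    linear_combination h1

/-! ### The second coefficient -/

/-- `|a₂| ≤ 2`, written for the function `R = ζ / F`. -/
theorem norm_tc_one_le_two (hF : DifferentiableOn ℂ F (ball 0 1)) (hinj : InjOn F (ball 0 1))
    (h0 : F 0 = 0) (h1 : deriv F 0 = 1) : ‖tc (Rfun F) 1‖ ≤ 2 := by
  have h00 : (0 : ℂ) ∈ ball (0 : ℂ) 1 := mem_ball_self one_pos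
  have hds := dslope_diff hF
  have hdne : ∀ z ∈ ball (0 : ℂ) 1, dslope F 0 z ≠ 0 := fun z hz => dslope_ne hinj h0 h1 hz
  obtain ⟨L, hL1, hL2, hL3⟩ := exists_logf hds hdne
  have hd0 : dslope F 0 0 = 1 := by rw [dslope_same, h1]
  rw [hd0, Complex.log_one] at hL3
  -- square root
  set s : ℂ → ℂ := fun z => Complex.exp (L z / 2) with hs
  have hsd : DifferentiableOn ℂ s (ball 0 1) := fun z hz =>
    ((hL1 z hz).div_const 2).cexp.differentiableAt.differentiableWithinAt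
  have hs2 : ∀ z ∈ ball (0 : ℂ) 1, s z ^ 2 = dslope F 0 z := by
    intro z hz
    rw [hL2 z hz, hs, ← Complex.exp_nat_mul]
    congr 1
    push_cast
    ring
  have hs0 : s 0 = 1 := by simp [hs, hL3]
  have hsne : ∀ z, s z ≠ 0 := fun z => Complex.exp_ne_zero _
  have hsq : ∀ z ∈ ball (0 : ℂ) 1, z ^ 2 ∈ ball (0 : ℂ) 1 := by
    intro z hz
    rw [mem_ball_zero_iff] at hz ⊢
    rw [norm_pow]
    have := norm_nonneg z
    nlinarith only [hz, this]
  set g : ℂ → ℂ := fun z => z * s (z ^ 2) with hg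
  have hsqd : DifferentiableOn ℂ (fun z => s (z ^ 2)) (ball 0 1) := by
    intro z hz
    exact ((hsd.differentiableAt (isOpen_ball.mem_nhds (hsq z hz))).comp z
      (differentiableAt_pow 2)).differentiableWithinAt
  have hgd : DifferentiableOn ℂ g (ball 0 1) := differentiableOn_id.mul hsqd
  have hg2 : ∀ z ∈ ball (0 : ℂ) 1, g z ^ 2 = F (z ^ 2) := by
    intro z hz
    rw [hg]
    simp only
    rw [mul_pow, hs2 _ (hsq z hz), F_eq_mul_dslope h0 (z ^ 2)]
  have hg0 : g 0 = 0 := by simp [hg]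
  have hginj : InjOn g (ball 0 1) := by
    intro a ha b hb hab
    have h2 : F (a ^ 2) = F (b ^ 2) := by rw [← hg2 a ha, ← hg2 b hb, hab]
    have h3 := hinj (hsq a ha) (hsq b hb) h2
    rcases sq_eq_sq_iff_eq_or_eq_neg.mp h3 with h4 | h4
    · exact h4
    · subst h4
      simp only [hg, neg_sq] at hab
      have h5 : b * s (b ^ 2) = 0 := by linear_combination (-1 / 2 : ℂ) * hab
      rcases mul_eq_zero.mp h5 with h6 | h6
      · rw [h6, neg_zero]
      · exact absurd h6 (hsne _)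
  have hgd0 : HasDerivAt g 1 0 := by
    have h2 := (hasDerivAt_id (0 : ℂ)).fun_mul
      (hsqd.differentiableAt (isOpen_ball.mem_nhds h00)).hasDerivAt
    simp only [id, zero_mul, add_zero, one_mul] at h2
    rw [show (0 : ℂ) ^ 2 = 0 by norm_num, hs0] at h2
    exact h2
  have hA := area_theorem hgd hginj hg0 hgd0.deriv 1
  simp only [Finset.range_one, Finset.sum_singleton] at hA
  -- `v = 1 / s`
  set v : ℂ → ℂ := fun z => (s z)⁻¹ with hv
  have hvd : DifferentiableOn ℂ v (ball 0 1) := hsd.inv fun z _ => hsne z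
  have hRg : ∀ z ∈ ball (0 : ℂ) 1, Rfun g z = v (z ^ 2) := by
    intro z hz
    rw [Rfun, hv]
    simp only
    congr 1
    by_cases hz0 : z = 0
    · rw [hz0, dslope_same, hgd0.deriv]; simp [hs0]
    · rw [dslope_of_ne _ hz0, slope_def_field, hg0, hg]
      simp only
      field_simp
      ring
  have hRF : ∀ z ∈ ball (0 : ℂ) 1, Rfun F z = v z ^ 2 := by
    intro z hz
    rw [Rfun, hv]
    simp only
    rw [inv_pow, hs2 z hz]
  have hmem : ∀ᶠ z in 𝓝 (0 : ℂ), z ∈ ball (0 : ℂ) 1 := isOpen_ball.mem_nhds h00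
  have hv0 : v 0 = 1 := by simp [hv, hs0]
  have hvd0 := (hvd.differentiableAt (isOpen_ball.mem_nhds h00)).hasDerivAt
  have e1 : tc (Rfun F) 1 = 2 * deriv v 0 := by
    have h2 : Rfun F =ᶠ[𝓝 0] fun z => v z ^ 2 := by
      filter_upwards [hmem] with z hz using hRF z hz
    rw [tc, iteratedDeriv_one, h2.deriv_eq, (hvd0.fun_pow 2).deriv, hv0]
    simp
  have e2 : tc (Rfun g) 2 = deriv v 0 := by
    have h2 : deriv (Rfun g) =ᶠ[𝓝 0] fun z => deriv v (z ^ 2) * (2 * z) := by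
      filter_upwards [isOpen_ball.mem_nhds h00] with z hz
      have h3 : Rfun g =ᶠ[𝓝 z] fun z => v (z ^ 2) := by
        filter_upwards [isOpen_ball.mem_nhds hz] with y hy using hRg y hy
      rw [h3.deriv_eq]
      have h4 := (hvd.differentiableAt (isOpen_ball.mem_nhds (hsq z hz))).hasDerivAt
      have h5 := h4.comp z (hasDerivAt_pow 2 z)
      have h6 := h5.deriv
      simp only [Function.comp_def] at h6
      rw [h6]
      push_cast
      ring
    rw [tc, iteratedDeriv_succ, iteratedDeriv_one, h2.deriv_eq]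
    have hv' := hvd.deriv isOpen_ball
    have h4 : DifferentiableAt ℂ (fun z => deriv v (z ^ 2)) 0 := by
      have h5 : DifferentiableAt ℂ (deriv v) ((0 : ℂ) ^ 2) := by
        rw [show (0 : ℂ) ^ 2 = 0 by norm_num]
        exact hv'.differentiableAt (isOpen_ball.mem_nhds h00)
      exact h5.comp (0 : ℂ) (differentiableAt_pow 2)
    have h7 : HasDerivAt (fun z : ℂ => 2 * z) 2 0 := by
      simpa using (hasDerivAt_id (0 : ℂ)).const_mul 2
    have h6 := (h4.hasDerivAt.fun_mul h7).deriv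
    rw [h6]
    simp only [mul_zero, zero_add]
    rw [show (0 : ℂ) ^ 2 = 0 by norm_num]
    have : ((2 ! : ℕ) : ℂ) = 2 := by norm_num [Nat.factorial]
    rw [this]
    ring
  rw [e1, norm_mul]
  have h3 : ‖deriv v 0‖ ≤ 1 := by
    rw [← e2]
    have h4 : ‖tc (Rfun g) (0 + 2)‖ ^ 2 ≤ 1 := by simpa only [zero_add, sq_le_one_iff_abs_le_one, abs_norm, CharP.cast_eq_zero, one_mul] using hA
    have h5 := norm_nonneg (tc (Rfun g) (0 + 2))
    have h6 : ‖tc (Rfun g) (0 + 2)‖ ≤ 1 := by nlinarith only [h4]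
    simpa only [ge_iff_le, zero_add] using h6
  simp only [Complex.norm_ofNat]
  linarith

/-- Koebe quarter theorem: omitted values have modulus at least `1 / 4`. -/
theorem quarter (hF : DifferentiableOn ℂ F (ball 0 1)) (hinj : InjOn F (ball 0 1))
    (h0 : F 0 = 0) (h1 : deriv F 0 = 1) {c : ℂ} (hc : ∀ z ∈ ball (0 : ℂ) 1, F z ≠ c) :
    1 ≤ 4 * ‖c‖ := by
  have h00 : (0 : ℂ) ∈ ball (0 : ℂ) 1 := mem_ball_self one_pos
  have hc0 : c ≠ 0 := fun h => hc 0 h00 (by rw [h0, h])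
  have hcs : ∀ z ∈ ball (0 : ℂ) 1, c - F z ≠ 0 := fun z hz => sub_ne_zero.mpr (hc z hz).symm
  set G : ℂ → ℂ := fun z => c * F z / (c - F z) with hG
  have hGd : DifferentiableOn ℂ G (ball 0 1) :=
    (hF.const_mul c).fun_div ((differentiableOn_const c).sub hF) hcs
  have hGinj : InjOn G (ball 0 1) := by
    intro a ha b hb hab
    apply hinj ha hb
    simp only [hG] at hab
    rw [div_eq_div_iff (hcs a ha) (hcs b hb)] at hab
    have h2 : c ^ 2 * (F a - F b) = 0 := by linear_combination hab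
    rcases mul_eq_zero.mp h2 with h3 | h3
    · exact absurd (pow_eq_zero_iff (two_ne_zero)|>.mp h3) hc0
    · exact sub_eq_zero.mp h3
  have hG0 : G 0 = 0 := by simp [hG, h0]
  have hFd0 : HasDerivAt F 1 0 := by
    rw [← h1]; exact (hF.differentiableAt (isOpen_ball.mem_nhds h00)).hasDerivAt
  have hGd0 : HasDerivAt G 1 0 := by
    have h2 := (hFd0.const_mul c).fun_div (hFd0.const_sub c) (hcs 0 h00)
    refine h2.congr_deriv ?_
    rw [h0]
    field_simp
    ring
  have b1 := norm_tc_one_le_two hF hinj h0 h1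
  have b2 := norm_tc_one_le_two hGd hGinj hG0 hGd0.deriv
  have hR : ∀ z ∈ ball (0 : ℂ) 1, Rfun G z = Rfun F z - z / c := by
    intro z hz
    by_cases hz0 : z = 0
    · rw [hz0, Rfun, Rfun, dslope_same, dslope_same, hGd0.deriv, h1]; simp
    · rw [Rfun, Rfun, dslope_of_ne _ hz0, dslope_of_ne _ hz0, slope_def_field, slope_def_field,
        hG0, h0, hG]
      simp only
      have hFz : F z ≠ 0 := by
        intro h
        exact hz0 (hinj hz h00 (by rw [h, h0]))
      have := hcs z hz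
      simp only [sub_zero]
      field_simp
  have hRFd := (Rfun_diff hF hinj h0 h1).differentiableAt (isOpen_ball.mem_nhds h00)
  have e1 : tc (Rfun G) 1 = tc (Rfun F) 1 - 1 / c := by
    have h2 : Rfun G =ᶠ[𝓝 0] fun z => Rfun F z - z / c := by
      filter_upwards [isOpen_ball.mem_nhds h00] with z hz using hR z hz
    rw [tc, tc, iteratedDeriv_one, iteratedDeriv_one, h2.deriv_eq,
      (hRFd.hasDerivAt.fun_sub ((hasDerivAt_id' (0 : ℂ)).div_const c)).deriv]
    simp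
  have h3 : ‖1 / c‖ ≤ 4 := by
    have e2 : 1 / c = tc (Rfun F) 1 - tc (Rfun G) 1 := by rw [e1]; ring
    rw [e2]
    exact le_trans (norm_sub_le _ _) (by linarith only [b1, b2])
  rw [norm_div, norm_one, div_le_iff₀ (norm_pos_iff.mpr hc0)] at h3
  exact h3

/-- For nonvanishing univalent `k`: `(1 - |z| ^ 2) |k'| ≤ 4 |k|`. -/
theorem nonvanish_bound (hk : Univ k) (hne : ∀ z ∈ ball (0 : ℂ) 1, k z ≠ 0)
    (hz : z ∈ ball (0 : ℂ) 1) : (1 - ‖z‖ ^ 2) * ‖deriv k z‖ ≤ 4 * ‖k z‖ := by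
  have hT := koebeT_univ hk hz
  have hu := unit_pos hz
  have hd := univ_deriv_ne_zero hk hz
  have hden : ((1 - ‖z‖ ^ 2 : ℝ) : ℂ) * deriv k z ≠ 0 :=
    mul_ne_zero (by exact_mod_cast hu.ne') hd
  have h := quarter hT.1 hT.2 (koebeT_zero k z) (koebeT_deriv hk hz)
    (c := -(k z) / (((1 - ‖z‖ ^ 2 : ℝ) : ℂ) * deriv k z)) (fun ζ hζ => by
      rw [koebeT]
      intro h
      rw [div_left_inj' hden] at h
      have h2 : k ((ζ + z) / (1 + conj z * ζ)) = 0 := by linear_combination h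
      exact hne _ (mob_mem hz hζ) h2)
  rw [norm_div, norm_neg, norm_mul, Complex.norm_real, Real.norm_eq_abs, abs_of_pos hu,
    ← mul_div_assoc, le_div_iff₀ (mul_pos hu (norm_pos_iff.mpr hd)), one_mul] at h
  exact h

/-- Growth of nonvanishing univalent functions. -/
theorem growth (hk : Univ k) (hne : ∀ z ∈ ball (0 : ℂ) 1, k z ≠ 0)
    (hz : z ∈ ball (0 : ℂ) 1) : ‖k z‖ ≤ ‖k 0‖ * (4 * (1 - ‖z‖) ^ (-2 : ℝ)) := by
  obtain ⟨L, hL1, hL2, hL3⟩ := exists_logf hk.1 hne
  have h00 : (0 : ℂ) ∈ ball (0 : ℂ) 1 := mem_ball_self one_pos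
  rw [mem_ball_zero_iff] at hz
  by_cases hz0 : z = 0
  · rw [hz0, norm_zero, sub_zero, Real.one_rpow]
    linarith [norm_nonneg (k 0)]
  have hzn : 0 < ‖z‖ := norm_pos_iff.mpr hz0
  set r : ℝ := ‖z‖ with hr
  -- along the segment
  have hmem : ∀ x ∈ Icc (0 : ℝ) 1, (x : ℂ) * z ∈ ball (0 : ℂ) 1 := by
    intro x hx
    rw [mem_ball_zero_iff, norm_mul, Complex.norm_real, Real.norm_eq_abs, abs_of_nonneg hx.1]
    nlinarith only [hz, hzn, hx.2]
  have hnorm : ∀ x ∈ Icc (0 : ℝ) 1, ‖(x : ℂ) * z‖ = x * r := by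
    intro x hx
    rw [norm_mul, Complex.norm_real, Real.norm_eq_abs, abs_of_nonneg hx.1]
  have hder : ∀ x ∈ Icc (0 : ℝ) 1, HasDerivAt (fun x : ℝ => L ((x : ℂ) * z) - L 0)
      (deriv k ((x : ℂ) * z) / k ((x : ℂ) * z) * z) x := by
    intro x hx
    have h1 := hL1 _ (hmem x hx)
    have h2 : HasDerivAt (fun x : ℝ => (x : ℂ) * z) z x := by
      simpa only [ofRealCLM_apply, ofReal_one, one_mul] using (Complex.ofRealCLM.hasDerivAt (x := x)).mul_const z
    exact (h1.comp_of_eq x h2 rfl).sub_const (L 0)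
  have hBd : ∀ x ∈ Icc (0 : ℝ) 1, HasDerivAt
      (fun x : ℝ => 2 * (Real.log (1 + x * r) - Real.log (1 - x * r)))
      (4 * r / (1 - (x * r) ^ 2)) x := by
    intro x hx
    have hxr : x * r < 1 := by nlinarith only [hz, hzn, hx.2]
    have hxr0 : 0 ≤ x * r := mul_nonneg hx.1 hzn.le
    have p1 : (1 + x * r) ≠ 0 := by positivity
    have p2 : (1 - x * r) ≠ 0 := by linarith
    have h1 : HasDerivAt (fun x : ℝ => 1 + x * r) r x := by
      simpa using ((hasDerivAt_id x).mul_const r).const_add 1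
    have h2 : HasDerivAt (fun x : ℝ => 1 - x * r) (-r) x := by
      simpa using ((hasDerivAt_id x).mul_const r).const_sub 1
    refine (((h1.log p1).fun_sub (h2.log p2)).const_mul 2).congr_deriv ?_
    have p3 : 1 - (x * r) ^ 2 = (1 + x * r) * (1 - x * r) := by ring
    rw [p3, div_sub_div _ _ p1 p2, ← mul_div_assoc]
    congr 1
    ring
  have key := image_norm_le_of_norm_deriv_right_le_deriv_boundary'
    (f := fun x : ℝ => L ((x : ℂ) * z) - L 0)
    (f' := fun x : ℝ => deriv k ((x : ℂ) * z) / k ((x : ℂ) * z) * z)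
    (a := 0) (b := 1)
    (fun x hx => (hder x hx).continuousAt.continuousWithinAt)
    (fun x hx => (hder x ⟨hx.1, hx.2.le⟩).hasDerivWithinAt)
    (B := fun x : ℝ => 2 * (Real.log (1 + x * r) - Real.log (1 - x * r)))
    (B' := fun x : ℝ => 4 * r / (1 - (x * r) ^ 2))
    (by simp)
    (fun x hx => (hBd x hx).continuousAt.continuousWithinAt)
    (fun x hx => (hBd x ⟨hx.1, hx.2.le⟩).hasDerivWithinAt)
    (fun x hx => by
      have hx' : x ∈ Icc (0 : ℝ) 1 := ⟨hx.1, hx.2.le⟩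
      have h1 := nonvanish_bound hk hne (hmem x hx')
      rw [hnorm x hx'] at h1
      have hxr : x * r < 1 := by nlinarith only [hz, hx.1, hx.2]
      have hxr0 : 0 ≤ x * r := mul_nonneg hx.1 hzn.le
      have p3 : 0 < 1 - (x * r) ^ 2 := by nlinarith only [hxr, hxr0]
      have hkp : 0 < ‖k ((x : ℂ) * z)‖ := norm_pos_iff.mpr (hne _ (hmem x hx'))
      rw [norm_mul, norm_div, ← hr, div_mul_eq_mul_div, div_le_div_iff₀ hkp p3]
      nlinarith only [hzn, h1])
    (right_mem_Icc.mpr zero_le_one)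
  simp only [ofReal_one, one_mul] at key
  have e1 : ‖k z‖ = ‖k 0‖ * Real.exp ((L z - L 0).re) := by
    rw [hL2 z (mem_ball_zero_iff.mpr hz), hL2 0 h00, Complex.norm_exp, Complex.norm_exp,
      ← Real.exp_add, sub_re]
    congr 1
    ring
  rw [e1]
  apply mul_le_mul_of_nonneg_left _ (norm_nonneg _)
  have h2 : (L z - L 0).re ≤ 2 * (Real.log (1 + r) - Real.log (1 - r)) :=
    le_trans (Complex.re_le_norm _) key
  have hr1 : 0 < 1 - r := by linarith
  calc Real.exp ((L z - L 0).re) ≤ Real.exp (2 * (Real.log (1 + r) - Real.log (1 - r))) :=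
        Real.exp_le_exp.mpr h2
    _ = (1 + r) ^ 2 * (1 - r) ^ (-2 : ℝ) := by
        rw [mul_sub, Real.exp_sub, Real.rpow_neg hr1.le, ← div_eq_mul_inv]
        congr 1
        · rw [mul_comm, Real.exp_mul, Real.exp_log (by linarith), Real.rpow_two]
        · rw [mul_comm, Real.exp_mul, Real.exp_log hr1]
    _ ≤ 4 * (1 - r) ^ (-2 : ℝ) := by
        apply mul_le_mul_of_nonneg_right _ (Real.rpow_nonneg hr1.le _)
        nlinarith only [hz, hzn]

/-- A univalent function on the disc omits a value. -/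
theorem exists_omitted (hf : Univ f) : ∃ c : ℂ, ∀ z ∈ ball (0 : ℂ) 1, f z ≠ c := by
  by_contra hcon
  push Not at hcon
  have hsurj : SurjOn f (ball 0 1) univ := fun c _ => by
    obtain ⟨z, hz, h⟩ := hcon c
    exact ⟨z, hz, h⟩
  have hbij : BijOn f (ball 0 1) univ := ⟨fun _ _ => mem_univ _, hf.2, hsurj⟩
  set g : ℂ → ℂ := Function.invFunOn f (ball 0 1) with hg
  have hinv : InvOn g f (ball 0 1) univ := hbij.invOn_invFunOn
  have hbij' : BijOn g univ (ball 0 1) := (bijOn_comm hinv).mpr hbij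
  have hder : ∀ w : ℂ, HasDerivAt g (deriv f (g w))⁻¹ w := by
    intro w
    have ha : g w ∈ ball (0 : ℂ) 1 := hbij'.mapsTo (mem_univ w)
    have hd : HasStrictDerivAt f (deriv f (g w)) (g w) :=
      (hf.1.analyticAt (isOpen_ball.mem_nhds ha)).hasStrictDerivAt
    have hne : deriv f (g w) ≠ 0 := univ_deriv_ne_zero hf ha
    have hev : ∀ᶠ x in 𝓝 (g w), g (f x) = x := by
      filter_upwards [isOpen_ball.mem_nhds ha] with x hx
      exact hinv.1 hx
    have h1 := hd.to_local_left_inverse hne hev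
    rw [hinv.2 (mem_univ w)] at h1
    exact h1.hasDerivAt
  have hdiff : Differentiable ℂ g := fun w => (hder w).differentiableAt
  have hb : Bornology.IsBounded (range g) := by
    apply isBounded_ball.subset
    rintro _ ⟨w, rfl⟩
    exact hbij'.mapsTo (mem_univ w)
  have h2 := hdiff.apply_eq_apply_of_bounded hb (0 : ℂ) 1
  exact zero_ne_one (hbij'.injOn (mem_univ _) (mem_univ _) h2)

end

end Vale.Agent.P142
end

section

open Finset
open scoped Nat

namespace Vale.Agent.P142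

noncomputable section

/-! ### Alternating transvectant sums -/

/-! ### Pochhammer weights -/

/-- Rising factorial. -/
def ris (a : ℝ) (k : ℕ) : ℝ := ∏ i ∈ range k, (a + i)

lemma ris_zero (a : ℝ) : ris a 0 = 1 := by simp [ris]

lemma ris_succ (a : ℝ) (k : ℕ) : ris a (k + 1) = ris a k * (a + k) := by
  simp [ris, prod_range_succ]

lemma ris_pos {a : ℝ} (ha : 0 < a) (k : ℕ) : 0 < ris a k := by
  apply prod_pos
  intro i _
  positivity

/-- `(a)_k / k!`. -/
def cc (a : ℝ) (k : ℕ) : ℝ := ris a k / k !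

lemma cc_pos {a : ℝ} (ha : 0 < a) (k : ℕ) : 0 < cc a k := by
  have := ris_pos ha k
  unfold cc
  positivity

lemma cc_zero (a : ℝ) : cc a 0 = 1 := by simp [cc, ris_zero]

lemma cc_succ (a : ℝ) (k : ℕ) : cc a (k + 1) = cc a k * (a + k) / (k + 1) := by
  rw [cc, cc, ris_succ, Nat.factorial_succ]
  push_cast
  have : (k ! : ℝ) ≠ 0 := by exact_mod_cast Nat.factorial_ne_zero k
  have h2 : (k : ℝ) + 1 ≠ 0 := by positivity
  field_simp

/-! ### Orthogonality -/

/-! ### Bessel's inequality -/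

end

end Vale.Agent.P142
end

section

open Complex MeasureTheory Metric Set Filter Topology intervalIntegral
open scoped Real ComplexConjugate ENNReal

namespace Vale.Agent.P142

noncomputable section

variable {g : ℂ → ℂ} {r A : ℝ}

/-- Quadratic mean. -/
def mean2 (g : ℂ → ℂ) (r : ℝ) : ℝ := (2 * π)⁻¹ * ∫ θ in (-π)..π, ‖g (circleMap 0 r θ)‖ ^ 2

lemma hasSum_mean2 (hg : DifferentiableOn ℂ g (ball 0 1)) (hr0 : 0 ≤ r) (hr1 : r < 1) :
    HasSum (fun k => ‖tc g k‖ ^ 2 * r ^ (2 * k)) (mean2 g r) := by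
  have h := parseval hr0 hr1 hg.continuousOn (fun z hz => hasSum_tc hg hz)
    (fun z hz => hasSum_tc hg hz)
  have h1 : ∀ z : ℂ, z * conj z = ((‖z‖ ^ 2 : ℝ) : ℂ) := fun z => by
    rw [mul_conj, normSq_eq_norm_sq]
  simp only [h1] at h
  rw [intervalIntegral.integral_ofReal] at h
  have h2 : HasSum (fun n : ℕ => ((2 * π * (‖tc g n‖ ^ 2 * r ^ (2 * n)) : ℝ) : ℂ))
      ((∫ θ in (-π)..π, ‖g (circleMap 0 r θ)‖ ^ 2 : ℝ) : ℂ) := by
    refine hasSum_of_eq (fun n => ?_) h
    push_cast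
    ring
  have h3 := Complex.hasSum_ofReal.mp h2
  have h4 := h3.mul_left (2 * π)⁻¹
  unfold mean2
  have hpi : (2 * π : ℝ) ≠ 0 := by positivity
  have e : (fun i : ℕ => (2 * π)⁻¹ * (2 * π * (‖tc g i‖ ^ 2 * r ^ (2 * i)))) =
      fun k => ‖tc g k‖ ^ 2 * r ^ (2 * k) := by
    ext k
    (clear * -; field_simp)
  rw [e] at h4
  exact h4

/-- Radial beta weight. -/
def bw (A : ℝ) (k : ℕ) (r : ℝ) : ℝ := 2 * r ^ (2 * k + 1) * (1 - r ^ 2) ^ A

lemma bw_nonneg (A : ℝ) (k : ℕ) (hr : r ∈ Ioo (0 : ℝ) 1) : 0 ≤ bw A k r := by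
  have h1 : 0 ≤ 1 - r ^ 2 := by nlinarith only [hr.1, hr.2]
  have h2 := Real.rpow_nonneg h1 A
  have h3 : 0 ≤ r ^ (2 * k + 1) := pow_nonneg hr.1.le _
  unfold bw
  positivity

lemma bw_zero_aux (hA : -1 < A) : IntegrableOn (bw A 0) (Ioc 0 1) ∧
    ∫ r in (0 : ℝ)..1, bw A 0 r = 1 / (A + 1) := by
  have hA1 : 0 < A + 1 := by linarith
  have hc : ContinuousOn (fun r : ℝ => -(1 - r ^ 2) ^ (A + 1) / (A + 1)) (Icc 0 1) := by
    apply ContinuousOn.div_const
    apply ContinuousOn.neg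
    apply ContinuousOn.rpow_const (by fun_prop)
    intro x _
    exact Or.inr hA1.le
  have hd : ∀ r ∈ Ioo (0 : ℝ) 1, HasDerivAt (fun r : ℝ => -(1 - r ^ 2) ^ (A + 1) / (A + 1))
      (bw A 0 r) r := by
    intro r hr
    have hu : 0 < 1 - r ^ 2 := by nlinarith only [hr.1, hr.2]
    have h2 : HasDerivAt (fun s : ℝ => 1 - s ^ 2) (-(2 * r)) r := by
      have := (hasDerivAt_pow 2 r).const_sub 1
      simpa using this
    have h3 := ((h2.rpow_const (p := A + 1) (Or.inl hu.ne')).fun_neg).div_const (A + 1)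
    refine h3.congr_deriv ?_
    rw [bw, add_sub_cancel_right]
    field_simp
    ring
  have hi := intervalIntegral.integrableOn_deriv_of_nonneg hc hd (fun r hr => bw_nonneg A 0 hr)
  refine ⟨hi, ?_⟩
  rw [intervalIntegral.integral_eq_sub_of_hasDerivAt_of_le zero_le_one hc hd
    ((intervalIntegrable_iff_integrableOn_Ioc_of_le zero_le_one).mpr hi)]
  simp only [one_pow, sub_self, ne_eq, OfNat.ofNat_ne_zero, not_false_eq_true, zero_pow, sub_zero,
    Real.one_rpow]
  rw [Real.zero_rpow hA1.ne']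
  ring

lemma bw_integrable (hA : -1 < A) (k : ℕ) : IntegrableOn (bw A k) (Ioc 0 1) := by
  have h0 := (bw_zero_aux hA).1
  rw [integrableOn_Ioc_iff_integrableOn_Ioo] at h0 ⊢
  refine Integrable.mono' h0 ?_ ?_
  · apply Measurable.aestronglyMeasurable
    unfold bw
    fun_prop
  · rw [ae_restrict_iff' measurableSet_Ioo]
    refine Eventually.of_forall fun r hr => ?_
    rw [Real.norm_eq_abs, abs_of_nonneg (bw_nonneg A k hr)]
    have h1 : 0 ≤ 1 - r ^ 2 := by nlinarith only [hr.1, hr.2]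
    have h2 := Real.rpow_nonneg h1 A
    unfold bw
    have h3 : r ^ (2 * k + 1) ≤ r ^ (2 * 0 + 1) :=
      pow_le_pow_of_le_one hr.1.le hr.2.le (by omega)
    gcongr

lemma bw_integral (hA : -1 < A) (k : ℕ) :
    ∫ r in (0 : ℝ)..1, bw A k r = 1 / ((A + 1) * cc (A + 2) k) := by
  have hA1 : 0 < A + 1 := by linarith
  have hA2 : 0 < A + 2 := by linarith
  induction k with
  | zero => rw [(bw_zero_aux hA).2, cc_zero, mul_one]
  | succ k ih =>
    have hc : ContinuousOn (fun r : ℝ => r ^ (2 * k + 2) * (1 - r ^ 2) ^ (A + 1)) (Icc 0 1) := by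
      apply ContinuousOn.mul (by fun_prop)
      apply ContinuousOn.rpow_const (by fun_prop)
      intro x _
      exact Or.inr hA1.le
    have hd : ∀ r ∈ Ioo (0 : ℝ) 1, HasDerivAt
        (fun r : ℝ => r ^ (2 * k + 2) * (1 - r ^ 2) ^ (A + 1))
        ((k + 1) * bw A k r - (k + A + 2) * bw A (k + 1) r) r := by
      intro r hr
      have hu : 0 < 1 - r ^ 2 := by nlinarith only [hr.1, hr.2]
      have h2 : HasDerivAt (fun s : ℝ => 1 - s ^ 2) (-(2 * r)) r := by
        have := (hasDerivAt_pow 2 r).const_sub 1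
        simpa using this
      have h3 := h2.rpow_const (p := A + 1) (Or.inl hu.ne')
      have h4 := hasDerivAt_pow (2 * k + 2) r
      refine (h4.fun_mul h3).congr_deriv ?_
      rw [bw, bw, add_sub_cancel_right, Real.rpow_add_one hu.ne']
      have e1 : 2 * k + 2 - 1 = 2 * k + 1 := by omega
      have e2 : 2 * (k + 1) + 1 = 2 * k + 1 + 2 := by ring
      rw [e1, e2, pow_add r (2 * k + 1) 2, pow_succ r (2 * k + 1)]
      push_cast
      ring
    have hI1 := bw_integrable hA k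
    have hI2 := bw_integrable hA (k + 1)
    have hi1 : IntervalIntegrable (bw A k) volume 0 1 :=
      (intervalIntegrable_iff_integrableOn_Ioc_of_le zero_le_one).mpr hI1
    have hi2 : IntervalIntegrable (bw A (k + 1)) volume 0 1 :=
      (intervalIntegrable_iff_integrableOn_Ioc_of_le zero_le_one).mpr hI2
    have h5 := intervalIntegral.integral_eq_sub_of_hasDerivAt_of_le zero_le_one hc hd
      ((hi1.const_mul _).sub (hi2.const_mul _))
    rw [intervalIntegral.integral_sub (hi1.const_mul _) (hi2.const_mul _),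
      intervalIntegral.integral_const_mul, intervalIntegral.integral_const_mul, ih] at h5
    have e0 : (1 : ℝ) ^ (2 * k + 2) * (1 - 1 ^ 2) ^ (A + 1) -
        (0 : ℝ) ^ (2 * k + 2) * (1 - 0 ^ 2) ^ (A + 1) = 0 := by
      rw [one_pow, one_pow, sub_self, Real.zero_rpow hA1.ne', zero_pow (by omega)]
      ring
    rw [e0] at h5
    have hcc := cc_pos hA2 k
    have hk : (0 : ℝ) < k + A + 2 := by
      have : (0 : ℝ) ≤ k := Nat.cast_nonneg k
      linarith only [hA]
    have hk1 : (k : ℝ) + 1 ≠ 0 := by (clear * -; positivity)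
    have hk2 : 0 < A + 2 + k := by linarith only [hA]
    rw [cc_succ]
    rw [eq_div_iff (by (clear * - hA1 hcc hA2; positivity))]
    have h6 : (k + A + 2) * ∫ r in (0 : ℝ)..1, bw A (k + 1) r = (k + 1) * (1 / ((A + 1) * cc (A + 2) k)) := by
      linarith only [h5]
    field_simp at h6 ⊢
    linear_combination h6

lemma bw_lintegral (hA : -1 < A) (k : ℕ) :
    ∫⁻ r in Ioo (0 : ℝ) 1, ENNReal.ofReal (bw A k r) =
      ENNReal.ofReal (1 / ((A + 1) * cc (A + 2) k)) := by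
  have h1 := bw_integrable hA k
  rw [integrableOn_Ioc_iff_integrableOn_Ioo] at h1
  rw [← ofReal_integral_eq_lintegral_ofReal h1, ← bw_integral hA k,
    intervalIntegral.integral_of_le zero_le_one, integral_Ioc_eq_integral_Ioo]
  rw [EventuallyLE, ae_restrict_iff' measurableSet_Ioo]
  exact Eventually.of_forall fun r hr => bw_nonneg A k hr

/-- Weighted area norm in coefficients. -/
theorem lintegral_mean2 (hg : DifferentiableOn ℂ g (ball 0 1)) (hA : -1 < A) :
    ∫⁻ r in Ioo (0 : ℝ) 1, ENNReal.ofReal (bw A 0 r * mean2 g r) =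
      ∑' k : ℕ, ENNReal.ofReal (‖tc g k‖ ^ 2 / ((A + 1) * cc (A + 2) k)) := by
  have h1 : ∀ r ∈ Ioo (0 : ℝ) 1, ENNReal.ofReal (bw A 0 r * mean2 g r) =
      ∑' k : ℕ, ENNReal.ofReal (‖tc g k‖ ^ 2 * bw A k r) := by
    intro r hr
    have hs := hasSum_mean2 hg hr.1.le hr.2
    have hs2 := hs.mul_left (bw A 0 r)
    rw [← hs2.tsum_eq, ENNReal.ofReal_tsum_of_nonneg _ hs2.summable]
    · congr 1
      ext k
      congr 1
      rw [bw, bw]
      ring
    · intro k
      have := bw_nonneg A 0 hr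
      have h3 : 0 ≤ r ^ (2 * k) := pow_nonneg hr.1.le _
      (clear * - this h3; positivity)
  rw [setLIntegral_congr_fun measurableSet_Ioo h1, lintegral_tsum]
  · congr 1
    ext k
    have h2 : ∀ r, ENNReal.ofReal (‖tc g k‖ ^ 2 * bw A k r) =
        ENNReal.ofReal (‖tc g k‖ ^ 2) * ENNReal.ofReal (bw A k r) := fun r =>
      ENNReal.ofReal_mul (by positivity)
    simp only [h2]
    rw [lintegral_const_mul' _ _ ENNReal.ofReal_ne_top, bw_lintegral hA k,
      ← ENNReal.ofReal_mul (by positivity)]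
    congr 1
    ring
  · intro k
    apply Measurable.aemeasurable
    apply ENNReal.measurable_ofReal.comp
    unfold bw
    fun_prop

end

end Vale.Agent.P142
end

section

open Complex MeasureTheory Metric Set Filter Topology intervalIntegral
open scoped Real ComplexConjugate ENNReal

namespace Vale.Agent.P142

noncomputable section

variable {a : ℝ}

lemma cc_two (n : ℕ) : cc 2 n = n + 1 := by
  induction n with
  | zero => simp [cc_zero]
  | succ n ih =>
    rw [cc_succ, ih]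
    have : (n : ℝ) + 1 ≠ 0 := by positivity
    push_cast
    field_simp
    ring

end

end Vale.Agent.P142
end

section

open Complex MeasureTheory Metric Set Filter Topology intervalIntegral
open scoped Real ComplexConjugate ENNReal Nat

namespace Vale.Agent.P142

namespace FF

noncomputable section

variable {f : ℂ → ℂ} {z : ℂ}

/-! ### Taylor coefficients of divided differences -/

/-! ### Jets of `Afun` on the diagonal -/

/-! ### The area theorem in the fixed frame -/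

/-- Polar coordinates on the disc. -/
lemma lintegral_ball_polar {H : ℂ → ℝ≥0∞} (hH : Measurable H) :
    ∫⁻ z in ball (0 : ℂ) 1, H z = ∫⁻ r in Ioo (0 : ℝ) 1, ENNReal.ofReal r *
      ∫⁻ θ in Ioo (-π) π, H (circleMap 0 r θ) := by
  rw [← lintegral_indicator measurableSet_ball, ← Complex.lintegral_comp_polarCoord_symm]
  have hgm : Measurable ((ball (0 : ℂ) 1).indicator H) := hH.indicator measurableSet_ball
  have e0 : ∀ p : ℝ × ℝ, Complex.polarCoord.symm p = circleMap 0 p.1 p.2 := by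
    intro p
    rw [Complex.polarCoord_symm_apply, circleMap_zero, Complex.exp_mul_I]
    push_cast
    rfl
  simp only [e0]
  have hm : Measurable (fun p : ℝ × ℝ => ENNReal.ofReal p.1 •
      (ball (0 : ℂ) 1).indicator H (circleMap 0 p.1 p.2)) := by
    simp only [smul_eq_mul]
    exact (ENNReal.measurable_ofReal.comp measurable_fst).mul
      (hgm.comp continuous_circleMap_uncurry.measurable)
  have e2 : polarCoord.target = Ioi (0 : ℝ) ×ˢ Ioo (-π) π := rfl
  rw [e2, Measure.volume_eq_prod, setLIntegral_prod _ (hm.aemeasurable)]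
  have e3 : ∀ r ∈ Ioi (0 : ℝ), (∫⁻ θ in Ioo (-π) π, ENNReal.ofReal r •
      (ball (0 : ℂ) 1).indicator H (circleMap 0 r θ)) =
      (Iio (1 : ℝ)).indicator (fun r => ENNReal.ofReal r *
      ∫⁻ θ in Ioo (-π) π, H (circleMap 0 r θ)) r := by
    intro r hr
    have hr0 : (0 : ℝ) < r := hr
    by_cases h : r < 1
    · rw [indicator_of_mem (show r ∈ Iio (1 : ℝ) from h)]
      have h1 : ∀ θ, (ball (0 : ℂ) 1).indicator H (circleMap 0 r θ) = H (circleMap 0 r θ) :=
        fun θ => indicator_of_mem (circleMap_mem_unit hr0.le h θ) _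
      simp only [h1, smul_eq_mul]
      rw [lintegral_const_mul' _ _ ENNReal.ofReal_ne_top]
    · rw [indicator_of_notMem (show r ∉ Iio (1 : ℝ) from h)]
      have h1 : ∀ θ, (ball (0 : ℂ) 1).indicator H (circleMap 0 r θ) = 0 := by
        intro θ
        apply indicator_of_notMem
        rw [mem_ball_zero_iff, norm_circleMap_zero, abs_of_pos hr0]
        exact h
      simp only [h1, smul_eq_mul, mul_zero, lintegral_const, MeasurableSet.univ, Measure.restrict_apply, univ_inter, Real.volume_Ioo, sub_neg_eq_add, zero_mul]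
  rw [setLIntegral_congr_fun measurableSet_Ioi e3, lintegral_indicator measurableSet_Iio,
    Measure.restrict_restrict measurableSet_Iio, Iio_inter_Ioi]

/-- Dirichlet integral in coefficients. -/
lemma dirichlet {h : ℂ → ℂ} (hh : DifferentiableOn ℂ h (ball 0 1)) :
    ∫⁻ z in ball (0 : ℂ) 1, ENNReal.ofReal (‖deriv h z‖ ^ 2) =
      ENNReal.ofReal π * ∑' k : ℕ, ENNReal.ofReal (((k : ℝ) + 1) * ‖tc h (k + 1)‖ ^ 2) := by
  have hd := hh.deriv isOpen_ball
  have hm : Measurable (fun z : ℂ => ENNReal.ofReal (‖deriv h z‖ ^ 2)) :=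
    ENNReal.measurable_ofReal.comp (((measurable_deriv h).norm).pow_const 2)
  rw [lintegral_ball_polar hm]
  have h1 := lintegral_mean2 hd (show (-1 : ℝ) < 0 by norm_num)
  have e1 : ∀ k : ℕ, ENNReal.ofReal (‖tc (deriv h) k‖ ^ 2 / ((0 + 1) * cc (0 + 2) k)) =
      ENNReal.ofReal (((k : ℝ) + 1) * ‖tc h (k + 1)‖ ^ 2) := by
    intro k
    congr 1
    rw [zero_add, zero_add, cc_two, tc_deriv, norm_mul]
    have : ‖(k : ℂ) + 1‖ = (k : ℝ) + 1 := by
      have h2 : ((k : ℂ) + 1) = (((k : ℝ) + 1 : ℝ) : ℂ) := by push_cast; ring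
      rw [h2, Complex.norm_real, Real.norm_eq_abs, abs_of_pos (by positivity)]
    rw [this]
    have hk : (k : ℝ) + 1 ≠ 0 := by positivity
    field_simp
  simp only [e1] at h1
  rw [← h1, ← lintegral_const_mul' _ _ ENNReal.ofReal_ne_top]
  apply setLIntegral_congr_fun measurableSet_Ioo
  intro r hr
  have hc : Continuous (fun θ : ℝ => ‖deriv h (circleMap 0 r θ)‖ ^ 2) :=
    ((hd.continuousOn.comp_continuous (continuous_circleMap 0 r)
      (fun θ => circleMap_mem_unit hr.1.le hr.2 θ)).norm).pow 2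
  have hint : IntegrableOn (fun θ => ‖deriv h (circleMap 0 r θ)‖ ^ 2) (Ioo (-π) π) :=
    (hc.integrableOn_Icc (a := -π) (b := π)).mono_set Ioo_subset_Icc_self
  simp only
  rw [← ofReal_integral_eq_lintegral_ofReal hint (Eventually.of_forall fun θ => by positivity),
    ← ENNReal.ofReal_mul hr.1.le, ← ENNReal.ofReal_mul Real.pi_pos.le]
  congr 1
  rw [mean2, bw, intervalIntegral.integral_of_le (by linarith [Real.pi_pos]),
    integral_Ioc_eq_integral_Ioo]
  simp only [Real.rpow_zero]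
  have hpi : π ≠ 0 := Real.pi_ne_zero
  field_simp
  ring

end

end FF

end Vale.Agent.P142
end

section

open Complex MeasureTheory Metric Set Filter Topology intervalIntegral
open scoped Real ComplexConjugate ENNReal

namespace Vale.Agent.P142

noncomputable section

variable {f k h : ℂ → ℂ} {z : ℂ} {t r : ℝ}

lemma lintegral_pow_lt_top (ht : 0 < t) :
    ∫⁻ w in ball (0 : ℂ) 1, ENNReal.ofReal (‖w‖ ^ (t - 2)) < ⊤ := by
  have hm : Measurable (fun w : ℂ => ENNReal.ofReal (‖w‖ ^ (t - 2))) := by fun_prop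
  rw [FF.lintegral_ball_polar hm]
  have hint : IntegrableOn (fun r : ℝ => 2 * π * r ^ (t - 1)) (Ioo 0 1) := by
    have h1 : IntervalIntegrable (fun x : ℝ => x ^ (t - 1)) volume 0 1 :=
      intervalIntegral.intervalIntegrable_rpow' (by linarith)
    exact (h1.1.mono_set Ioo_subset_Ioc_self).const_mul _
  refine lt_of_le_of_lt (setLIntegral_mono' measurableSet_Ioo (g := fun r : ℝ =>
    ENNReal.ofReal (2 * π * r ^ (t - 1))) ?_) hint.lintegral_lt_top
  intro r hr
  have e1 : ∀ θ : ℝ, ENNReal.ofReal (‖circleMap 0 r θ‖ ^ (t - 2)) = ENNReal.ofReal (r ^ (t - 2)) := by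
    intro θ
    rw [norm_circleMap_zero, abs_of_pos hr.1]
  simp only [e1, lintegral_const, Measure.restrict_apply, MeasurableSet.univ, univ_inter,
    Real.volume_Ioo]
  have hp : 0 ≤ r ^ (t - 2) := Real.rpow_nonneg hr.1.le _
  rw [← ENNReal.ofReal_mul hp, ← ENNReal.ofReal_mul hr.1.le]
  apply ENNReal.ofReal_le_ofReal
  apply le_of_eq
  have e2 : r ^ (t - 1) = r * r ^ (t - 2) := by
    rw [show t - 1 = (t - 2) + 1 by ring, Real.rpow_add_one hr.1.ne']
    ring
  rw [e2]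
  ring

/-- The weighted area of the image. -/
lemma area_pow {K : ℂ → ℂ} (hK : Univ K) (hKb : ∀ z ∈ ball (0 : ℂ) 1, K z ∈ ball (0 : ℂ) 1) :
    ∫⁻ z in ball (0 : ℂ) 1, ENNReal.ofReal (‖deriv K z‖ ^ 2 * ‖K z‖ ^ (t - 2)) ≤
      ∫⁻ w in ball (0 : ℂ) 1, ENNReal.ofReal (‖w‖ ^ (t - 2)) := by
  have h1 := lintegral_image_eq_lintegral_abs_det_fderiv_mul volume (s := ball (0 : ℂ) 1)
    (f := K) (f' := fun z => (ContinuousLinearMap.toSpanSingleton ℂ (deriv K z)).restrictScalars ℝ)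
    measurableSet_ball (fun z hz =>
      (((hK.1.differentiableAt (isOpen_ball.mem_nhds hz)).hasDerivAt.hasFDerivAt).restrictScalars
        ℝ).hasFDerivWithinAt) hK.2 (fun w => ENNReal.ofReal (‖w‖ ^ (t - 2)))
  simp only [abs_det_holo] at h1
  calc ∫⁻ z in ball (0 : ℂ) 1, ENNReal.ofReal (‖deriv K z‖ ^ 2 * ‖K z‖ ^ (t - 2))
      = ∫⁻ z in ball (0 : ℂ) 1, ENNReal.ofReal (‖deriv K z‖ ^ 2) *
          ENNReal.ofReal (‖K z‖ ^ (t - 2)) := by
        congr 1; ext z; rw [ENNReal.ofReal_mul (by positivity)]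
    _ = ∫⁻ w in K '' ball (0 : ℂ) 1, ENNReal.ofReal (‖w‖ ^ (t - 2)) := h1.symm
    _ ≤ _ := lintegral_mono_set (by rintro _ ⟨z, hz, rfl⟩; exact hKb z hz)

lemma iteratedDeriv_dil (hh : DifferentiableOn ℂ h (ball 0 1)) {ρ : ℝ} (h0 : 0 < ρ)
    (h1 : ρ ≤ 1) (n : ℕ) : ∀ z ∈ ball (0 : ℂ) 1,
    iteratedDeriv n (fun z => h (ρ * z)) z = (ρ : ℂ) ^ n * iteratedDeriv n h (ρ * z) := by
  induction n with
  | zero => intro z _; simp
  | succ n ih =>
    intro z hz
    rw [iteratedDeriv_succ]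
    have e : iteratedDeriv n (fun z => h (ρ * z)) =ᶠ[𝓝 z] fun z =>
        (ρ : ℂ) ^ n * iteratedDeriv n h (ρ * z) := by
      filter_upwards [isOpen_ball.mem_nhds hz] with y hy using ih y hy
    rw [e.deriv_eq]
    have h2 := hasDerivAt_iteratedDeriv hh (dil_mem h0 h1 hz) n
    have h3 : HasDerivAt (fun z : ℂ => (ρ : ℂ) * z) ρ z := by
      simpa using (hasDerivAt_id z).const_mul (ρ : ℂ)
    have h4 := (h2.comp z h3).const_mul ((ρ : ℂ) ^ n)
    have h5 := h4.deriv
    simp only [Function.comp_def] at h5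
    rw [h5]
    ring

lemma tc_dil (hh : DifferentiableOn ℂ h (ball 0 1)) {ρ : ℝ} (h0 : 0 < ρ) (h1 : ρ ≤ 1) (n : ℕ) :
    tc (fun z => h (ρ * z)) n = (ρ : ℂ) ^ n * tc h n := by
  rw [tc, tc, iteratedDeriv_dil hh h0 h1 n 0 (mem_ball_self one_pos), mul_zero]
  ring

/-- Coefficient bound for `h = k ^ (t / 2)`. -/
theorem coef_bound (hk : Univ k) (hne : ∀ z ∈ ball (0 : ℂ) 1, k z ≠ 0) (ht : 0 < t)
    (hh : DifferentiableOn ℂ h (ball 0 1))
    (hd : ∀ z ∈ ball (0 : ℂ) 1, ‖deriv h z‖ ^ 2 = (t / 2) ^ 2 * (‖deriv k z‖ ^ 2 * ‖k z‖ ^ (t - 2))) :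
    ∃ B : ℝ, 0 ≤ B ∧ ∀ ρ ∈ Ioo (0 : ℝ) 1, ∀ N : ℕ,
      ∑ n ∈ Finset.range N, ((n : ℝ) + 1) * ‖tc h (n + 1)‖ ^ 2 * ρ ^ (2 * (n + 1)) ≤
        B * (1 - ρ) ^ (-(2 * t)) := by
  set A : ℝ≥0∞ := ∫⁻ w in ball (0 : ℂ) 1, ENNReal.ofReal (‖w‖ ^ (t - 2)) with hA
  have hAt : A ≠ ⊤ := (lintegral_pow_lt_top ht).ne
  have h00 : (0 : ℂ) ∈ ball (0 : ℂ) 1 := mem_ball_self one_pos
  have hk0 : 0 < ‖k 0‖ := norm_pos_iff.mpr (hne 0 h00)
  refine ⟨π⁻¹ * ((t / 2) ^ 2 * A.toReal) * (4 * ‖k 0‖) ^ t, by (clear * - ht hk0; positivity), ?_⟩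
  intro ρ hρ N
  have hρ1 : 0 < 1 - ρ := by linarith [hρ.2]
  set M : ℝ := ‖k 0‖ * (4 * (1 - ρ) ^ (-2 : ℝ)) with hM
  have hMp : 0 < M := by
    have := Real.rpow_pos_of_pos hρ1 (-2 : ℝ)
    (clear * - hk0 hρ1; positivity)
  have hmem : ∀ z ∈ ball (0 : ℂ) 1, (ρ : ℂ) * z ∈ ball (0 : ℂ) 1 := fun z hz =>
    dil_mem hρ.1 hρ.2.le hz
  have hlt : ∀ z ∈ ball (0 : ℂ) 1, ‖(ρ : ℂ) * z‖ < ρ := by
    intro z hz
    rw [mem_ball_zero_iff] at hz
    rw [norm_mul, Complex.norm_real, Real.norm_eq_abs, abs_of_pos hρ.1]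
    nlinarith only [hz, hρ.1]
  -- the scaled map
  set K : ℂ → ℂ := fun z => (M : ℂ)⁻¹ * k (ρ * z) with hK
  have hMc : (M : ℂ) ≠ 0 := by exact_mod_cast hMp.ne'
  have hρc : (ρ : ℂ) ≠ 0 := by exact_mod_cast hρ.1.ne'
  have hder : ∀ (g : ℂ → ℂ), DifferentiableOn ℂ g (ball 0 1) → ∀ (c : ℂ), ∀ z ∈ ball (0 : ℂ) 1,
      HasDerivAt (fun z => c * g (ρ * z)) (c * (deriv g (ρ * z) * ρ)) z := by
    intro g hg c z hz
    have h2 := (hg.differentiableAt (isOpen_ball.mem_nhds (hmem z hz))).hasDerivAt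
    have h3 : HasDerivAt (fun z : ℂ => (ρ : ℂ) * z) ρ z := by
      simpa using (hasDerivAt_id z).const_mul (ρ : ℂ)
    exact (h2.comp z h3).const_mul c
  have hKU : Univ K := by
    constructor
    · intro z hz
      exact (hder k hk.1 _ z hz).differentiableAt.differentiableWithinAt
    · intro a ha b hb hab
      have h1 := mul_left_cancel₀ (inv_ne_zero hMc) hab
      exact mul_left_cancel₀ hρc (hk.2 (hmem a ha) (hmem b hb) h1)
  have hKb : ∀ z ∈ ball (0 : ℂ) 1, K z ∈ ball (0 : ℂ) 1 := by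
    intro z hz
    rw [mem_ball_zero_iff, hK]
    simp only
    rw [norm_mul, norm_inv, Complex.norm_real, Real.norm_eq_abs, abs_of_pos hMp,
      inv_mul_lt_iff₀ hMp, mul_one]
    refine lt_of_le_of_lt (growth hk hne (hmem z hz)) ?_
    rw [hM]
    apply mul_lt_mul_of_pos_left _ hk0
    apply mul_lt_mul_of_pos_left _ (by norm_num)
    apply Real.rpow_lt_rpow_of_neg hρ1 _ (by norm_num)
    linarith [hlt z hz]
  set c : ℝ := M ^ (-(t / 2)) with hc
  have hcp : 0 < c := Real.rpow_pos_of_pos hMp _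
  set H : ℂ → ℂ := fun z => (c : ℂ) * h (ρ * z) with hH
  have hHd : DifferentiableOn ℂ H (ball 0 1) := fun z hz =>
    (hder h hh _ z hz).differentiableAt.differentiableWithinAt
  have hHn : ∀ z ∈ ball (0 : ℂ) 1, ‖deriv H z‖ ^ 2 =
      (t / 2) ^ 2 * (‖deriv K z‖ ^ 2 * ‖K z‖ ^ (t - 2)) := by
    intro z hz
    rw [(hder h hh c z hz).deriv, (hder k hk.1 _ z hz).deriv, hK]
    simp only [norm_mul, norm_inv, Complex.norm_real, Real.norm_eq_abs, abs_of_pos hMp,
      abs_of_pos hcp, abs_of_pos hρ.1]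
    have h1 := hd _ (hmem z hz)
    have hkz : 0 < ‖k (ρ * z)‖ := norm_pos_iff.mpr (hne _ (hmem z hz))
    rw [mul_pow, mul_pow, h1, Real.mul_rpow (by (clear * - hk0 hρ1; positivity)) hkz.le]
    have e1 : c ^ 2 = M⁻¹ ^ 2 * M⁻¹ ^ (t - 2) := by
      rw [hc, ← Real.rpow_two (M⁻¹), ← Real.rpow_add (by (clear * - hk0 hρ1; positivity)), ← Real.rpow_mul_natCast hMp.le,
        ← Real.rpow_neg_one M, ← Real.rpow_mul hMp.le]
      congr 1
      push_cast
      ring
    rw [e1]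
    ring
  have h2 := FF.dirichlet hHd
  have h3 : ∫⁻ z in ball (0 : ℂ) 1, ENNReal.ofReal (‖deriv H z‖ ^ 2) ≤
      ENNReal.ofReal ((t / 2) ^ 2) * A := by
    rw [setLIntegral_congr_fun measurableSet_ball (g := fun z => ENNReal.ofReal ((t / 2) ^ 2) *
      ENNReal.ofReal (‖deriv K z‖ ^ 2 * ‖K z‖ ^ (t - 2))) (fun z hz => by
        simp only
        rw [hHn z hz, ENNReal.ofReal_mul (by positivity)])]
    rw [lintegral_const_mul' _ _ ENNReal.ofReal_ne_top]
    exact mul_le_mul_right (area_pow hKU hKb) _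
  rw [h2] at h3
  -- coefficients of `H`
  have htc : ∀ n, ‖tc H n‖ ^ 2 = c ^ 2 * (ρ ^ (2 * n) * ‖tc h n‖ ^ 2) := by
    intro n
    have e1 : tc H n = c * ((ρ : ℂ) ^ n * tc h n) := by
      have hhd : DifferentiableOn ℂ (fun z => h (ρ * z)) (ball 0 1) := by
        intro z hz
        have := (hder h hh 1 z hz).differentiableAt.differentiableWithinAt (s := ball (0 : ℂ) 1)
        simpa using this
      rw [← tc_dil hh hρ.1 hρ.2.le n, hH, tc, tc, iteratedDeriv_const_mul_field]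
      ring
    rw [e1, norm_mul, norm_mul, norm_pow, Complex.norm_real, Complex.norm_real, Real.norm_eq_abs,
      Real.norm_eq_abs, abs_of_pos hcp, abs_of_pos hρ.1]
    ring
  have h4 : ENNReal.ofReal π * ENNReal.ofReal (∑ n ∈ Finset.range N,
      ((n : ℝ) + 1) * ‖tc H (n + 1)‖ ^ 2) ≤ ENNReal.ofReal ((t / 2) ^ 2) * A := by
    refine le_trans (mul_le_mul_right ?_ _) h3
    rw [ENNReal.ofReal_sum_of_nonneg (fun i _ => by (clear * -; positivity))]
    exact ENNReal.sum_le_tsum _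
  have h5 : ∑ n ∈ Finset.range N, ((n : ℝ) + 1) * ‖tc H (n + 1)‖ ^ 2 ≤
      π⁻¹ * ((t / 2) ^ 2 * A.toReal) := by
    rw [← ENNReal.ofReal_mul Real.pi_pos.le] at h4
    have h6 := ENNReal.toReal_mono (ENNReal.mul_ne_top ENNReal.ofReal_ne_top hAt) h4
    rw [ENNReal.toReal_ofReal (mul_nonneg Real.pi_pos.le (Finset.sum_nonneg fun i _ => by
      (clear * -; positivity))), ENNReal.toReal_mul, ENNReal.toReal_ofReal (by positivity)] at h6
    rw [← div_eq_inv_mul, le_div_iff₀ Real.pi_pos]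
    linarith only [h6]
  have e6 : ∑ n ∈ Finset.range N, ((n : ℝ) + 1) * ‖tc h (n + 1)‖ ^ 2 * ρ ^ (2 * (n + 1)) =
      (c ^ 2)⁻¹ * ∑ n ∈ Finset.range N, ((n : ℝ) + 1) * ‖tc H (n + 1)‖ ^ 2 := by
    rw [Finset.mul_sum]
    apply Finset.sum_congr rfl
    intro n _
    rw [htc]
    (clear * - hcp; field_simp)
  have e7 : (c ^ 2)⁻¹ = (4 * ‖k 0‖) ^ t * (1 - ρ) ^ (-(2 * t)) := by
    have hp : 0 ≤ (1 - ρ) ^ (-2 : ℝ) := Real.rpow_nonneg hρ1.le _
    rw [hc, ← Real.rpow_mul_natCast hMp.le, ← Real.rpow_neg hMp.le,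
      show -(-(t / 2) * ((2 : ℕ) : ℝ)) = t by push_cast; ring, hM,
      show ‖k 0‖ * (4 * (1 - ρ) ^ (-2 : ℝ)) = 4 * ‖k 0‖ * (1 - ρ) ^ (-2 : ℝ) by ring,
      Real.mul_rpow (by positivity) hp, ← Real.rpow_mul hρ1.le]
    congr 2
    ring
  rw [e6, e7]
  have hp2 : 0 ≤ (4 * ‖k 0‖) ^ t * (1 - ρ) ^ (-(2 * t)) :=
    mul_nonneg (Real.rpow_nonneg (by positivity) _) (Real.rpow_nonneg hρ1.le _)
  calc _ ≤ (4 * ‖k 0‖) ^ t * (1 - ρ) ^ (-(2 * t)) * (π⁻¹ * ((t / 2) ^ 2 * A.toReal)) :=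
        mul_le_mul_of_nonneg_left h5 hp2
    _ = _ := by ring

/-! ### Means -/

lemma pow_mid (hr0 : 0 ≤ r) (hr1 : r < 1) (n : ℕ) :
    ((n : ℝ) + 1) * (1 - r) * r ^ (2 * n) ≤ ((1 + r) / 2) ^ (2 * n) := by
  have h1 : r ≤ ((1 + r) / 2) ^ 2 := by nlinarith [sq_nonneg (1 - r)]
  have h2 : r ^ n ≤ ((1 + r) / 2) ^ (2 * n) := by
    rw [pow_mul]
    exact pow_le_pow_left₀ hr0 h1 n
  have h3 : ((n : ℝ) + 1) * (1 - r) * r ^ n ≤ 1 := by
    have h4 : (1 - r) * ∑ i ∈ Finset.range (n + 1), r ^ i = 1 - r ^ (n + 1) :=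
      mul_neg_geom_sum r (n + 1)
    have h5 : ((n : ℝ) + 1) * r ^ n ≤ ∑ i ∈ Finset.range (n + 1), r ^ i := by
      have h6 : ∑ _i ∈ Finset.range (n + 1), r ^ n ≤ ∑ i ∈ Finset.range (n + 1), r ^ i := by
        apply Finset.sum_le_sum
        intro i hi
        exact pow_le_pow_of_le_one hr0 hr1.le (by rw [Finset.mem_range] at hi; omega)
      rw [Finset.sum_const, Finset.card_range, nsmul_eq_mul] at h6
      push_cast at h6
      exact h6
    have h7 : 0 ≤ r ^ (n + 1) := pow_nonneg hr0 _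
    nlinarith only [h4, h7, hr1, h5]
  have h8 : 0 ≤ r ^ n := pow_nonneg hr0 n
  calc ((n : ℝ) + 1) * (1 - r) * r ^ (2 * n) = (((n : ℝ) + 1) * (1 - r) * r ^ n) * r ^ n := by
        rw [two_mul, pow_add]; ring
    _ ≤ 1 * r ^ n := mul_le_mul_of_nonneg_right h3 h8
    _ ≤ _ := by rw [one_mul]; exact h2

lemma le_of_fin {a : ℕ → ℝ} {s b : ℝ} (h : HasSum a s)
    (hb : ∀ N, ∑ n ∈ Finset.range N, a n ≤ b) : s ≤ b :=
  le_of_tendsto' h.tendsto_sum_nat hb

/-- The mean of `|h'| ^ 2`. -/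
lemma mean2_deriv_le (hh : DifferentiableOn ℂ h (ball 0 1)) {B : ℝ}
    (hc : ∀ ρ ∈ Ioo (0 : ℝ) 1, ∀ N : ℕ,
      ∑ n ∈ Finset.range N, ((n : ℝ) + 1) * ‖tc h (n + 1)‖ ^ 2 * ρ ^ (2 * (n + 1)) ≤
        B * (1 - ρ) ^ (-(2 * t))) (hr : r ∈ Ico (1 / 2 : ℝ) 1) :
    mean2 (deriv h) r ≤ 4 * 2 ^ (2 * t) * B * (1 - r) ^ (-(1 + 2 * t)) := by
  have hr0 : 0 ≤ r := by linarith [hr.1]
  have hr1 : 0 < 1 - r := by linarith [hr.2]
  have hs := hasSum_mean2 (hh.deriv isOpen_ball) hr0 hr.2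
  apply le_of_fin hs
  intro N
  set ρ : ℝ := (1 + r) / 2 with hρ
  have hρ1 : ρ ∈ Ioo (0 : ℝ) 1 := ⟨by rw [hρ]; linarith only [hr0], by rw [hρ]; linarith [hr.2]⟩
  have h1 := hc ρ hρ1 N
  have e1 : (1 - ρ) ^ (-(2 * t)) = 2 ^ (2 * t) * (1 - r) ^ (-(2 * t)) := by
    rw [show 1 - ρ = (1 - r) * 2⁻¹ by rw [hρ]; ring, Real.mul_rpow hr1.le (by norm_num),
      Real.inv_rpow (by norm_num), Real.rpow_neg (by norm_num : (0 : ℝ) ≤ 2), inv_inv]
    ring
  rw [e1] at h1
  have e2 : (1 - r) ^ (-(1 + 2 * t)) = (1 - r)⁻¹ * (1 - r) ^ (-(2 * t)) := by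
    rw [show -(1 + 2 * t) = -1 + -(2 * t) by ring, Real.rpow_add hr1, Real.rpow_neg_one]
  have h2 : ∀ n : ℕ, ‖tc (deriv h) n‖ ^ 2 * r ^ (2 * n) ≤
      4 * (1 - r)⁻¹ * (((n : ℝ) + 1) * ‖tc h (n + 1)‖ ^ 2 * ρ ^ (2 * (n + 1))) := by
    intro n
    rw [tc_deriv, norm_mul]
    have e3 : ‖(n : ℂ) + 1‖ = (n : ℝ) + 1 := by
      have h2 : ((n : ℂ) + 1) = (((n : ℝ) + 1 : ℝ) : ℂ) := by push_cast; ring
      rw [h2, Complex.norm_real, Real.norm_eq_abs, abs_of_pos (by positivity)]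
    rw [e3]
    have h3 := pow_mid hr0 hr.2 n
    rw [← hρ] at h3
    have h4 : 1 ≤ 4 * ρ ^ 2 := by
      have : 1 / 2 ≤ ρ := by rw [hρ]; linarith only [hr0]
      nlinarith only [hr0, hρ]
    have h5 : 0 ≤ ρ ^ (2 * n) := pow_nonneg hρ1.1.le _
    have h6 : ((n : ℝ) + 1) * r ^ (2 * n) ≤ (1 - r)⁻¹ * ρ ^ (2 * n) := by
      rw [← div_eq_inv_mul, le_div_iff₀ hr1]
      linarith only [h3]
    have h7 : 0 ≤ (1 - r)⁻¹ := by positivity
    have h8 : ρ ^ (2 * n) ≤ 4 * ρ ^ (2 * (n + 1)) := by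
      rw [show 2 * (n + 1) = 2 * n + 2 by ring, pow_add]
      nlinarith only [h4, h5]
    calc (((n : ℝ) + 1) * ‖tc h (n + 1)‖) ^ 2 * r ^ (2 * n)
        = (((n : ℝ) + 1) * ‖tc h (n + 1)‖ ^ 2) * (((n : ℝ) + 1) * r ^ (2 * n)) := by ring
      _ ≤ (((n : ℝ) + 1) * ‖tc h (n + 1)‖ ^ 2) * ((1 - r)⁻¹ * (4 * ρ ^ (2 * (n + 1)))) := by
          apply mul_le_mul_of_nonneg_left _ (by (clear * -; positivity))
          exact le_trans h6 (mul_le_mul_of_nonneg_left h8 h7)
      _ = _ := by ring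
  calc ∑ n ∈ Finset.range N, ‖tc (deriv h) n‖ ^ 2 * r ^ (2 * n)
      ≤ ∑ n ∈ Finset.range N, 4 * (1 - r)⁻¹ *
          (((n : ℝ) + 1) * ‖tc h (n + 1)‖ ^ 2 * ρ ^ (2 * (n + 1))) :=
        Finset.sum_le_sum fun n _ => h2 n
    _ = 4 * (1 - r)⁻¹ * ∑ n ∈ Finset.range N,
          (((n : ℝ) + 1) * ‖tc h (n + 1)‖ ^ 2 * ρ ^ (2 * (n + 1))) := by rw [Finset.mul_sum]
    _ ≤ 4 * (1 - r)⁻¹ * (B * (2 ^ (2 * t) * (1 - r) ^ (-(2 * t)))) :=
        mul_le_mul_of_nonneg_left h1 (by positivity)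
    _ = _ := by rw [e2]; ring

/-- The mean of `|h| ^ 2`. -/
lemma mean2_le (hh : DifferentiableOn ℂ h (ball 0 1)) (ht : 1 / 2 < t) {B : ℝ} (hB : 0 ≤ B)
    (hc : ∀ ρ ∈ Ioo (0 : ℝ) 1, ∀ N : ℕ,
      ∑ n ∈ Finset.range N, ((n : ℝ) + 1) * ‖tc h (n + 1)‖ ^ 2 * ρ ^ (2 * (n + 1)) ≤
        B * (1 - ρ) ^ (-(2 * t))) (hr : r ∈ Ico (1 / 2 : ℝ) 1) :
    mean2 h r ≤ (‖tc h 0‖ ^ 2 + 6 * B / (2 * t - 1)) * (1 - r) ^ (-(2 * t - 1)) := by
  have hr0 : 0 < r := by linarith only [hr.1]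
  have hr1 : 0 < 1 - r := by linarith [hr.2]
  have ht1 : 0 < 2 * t - 1 := by linarith
  have hs := hasSum_mean2 hh hr0.le hr.2
  have hs1 := (hasSum_nat_add_iff' 1).mpr hs
  rw [Finset.sum_range_one, mul_zero, pow_zero, mul_one] at hs1
  set P : ℝ := (1 - r) ^ (-(2 * t - 1)) with hP
  have hP1 : 1 ≤ P := Real.one_le_rpow_of_pos_of_le_one_of_nonpos hr1 (by linarith) (by linarith)
  have key : mean2 h r - ‖tc h 0‖ ^ 2 ≤ 6 * B / (2 * t - 1) * P := by
    apply le_of_fin hs1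
    intro N
    -- integrate the coefficient bound over `[0, r]`
    have hd : ∀ x ∈ uIcc 0 r, HasDerivAt (fun x : ℝ => B / (2 * t - 1) * (1 - x) ^ (-(2 * t - 1)))
        (B * (1 - x) ^ (-(2 * t))) x := by
      intro x hx
      rw [uIcc_of_le hr0.le] at hx
      have hx1 : 0 < 1 - x := by linarith [hx.2]
      have h2 : HasDerivAt (fun x : ℝ => 1 - x) (-1) x := by
        simpa using (hasDerivAt_id x).const_sub 1
      refine ((h2.rpow_const (p := -(2 * t - 1)) (Or.inl hx1.ne')).const_mul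
        (B / (2 * t - 1))).congr_deriv ?_
      rw [show -(2 * t - 1) - 1 = -(2 * t) by ring]
      (clear * - ht1 hx1; field_simp)
    have hcont : ContinuousOn (fun x : ℝ => B * (1 - x) ^ (-(2 * t))) (uIcc 0 r) := by
      apply ContinuousOn.const_mul
      apply ContinuousOn.rpow_const (by fun_prop)
      intro x hx
      rw [uIcc_of_le hr0.le] at hx
      left
      linarith only [hr1, hx.2]
    have hI := intervalIntegral.integral_eq_sub_of_hasDerivAt hd hcont.intervalIntegrable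
    have hpc : Continuous (fun x : ℝ => ∑ n ∈ Finset.range N,
        ((n : ℝ) + 1) * ‖tc h (n + 1)‖ ^ 2 * x ^ (2 * (n + 1))) := by fun_prop
    have hmono : ∫ x in (0 : ℝ)..r, ∑ n ∈ Finset.range N,
        ((n : ℝ) + 1) * ‖tc h (n + 1)‖ ^ 2 * x ^ (2 * (n + 1)) ≤
        ∫ x in (0 : ℝ)..r, B * (1 - x) ^ (-(2 * t)) := by
      apply intervalIntegral.integral_mono_on_of_le_Ioo hr0.le (hpc.intervalIntegrable _ _)
        hcont.intervalIntegrable
      intro x hx
      exact hc x ⟨hx.1, by linarith only [hr1, hx.2]⟩ N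
    rw [hI, intervalIntegral.integral_finsetSum (fun n _ => by
      apply Continuous.intervalIntegrable; fun_prop)] at hmono
    simp only [intervalIntegral.integral_const_mul, integral_pow, sub_zero, Real.one_rpow] at hmono
    have h3 : ∀ n : ℕ, r / 3 * (‖tc h (n + 1)‖ ^ 2 * r ^ (2 * (n + 1))) ≤
        ((n : ℝ) + 1) * ‖tc h (n + 1)‖ ^ 2 * ((r ^ (2 * (n + 1) + 1) - 0 ^ (2 * (n + 1) + 1)) /
          (((2 * (n + 1) : ℕ) : ℝ) + 1)) := by
      intro n
      rw [zero_pow (by omega), sub_zero, pow_succ]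
      have h4 : (1 : ℝ) / 3 ≤ ((n : ℝ) + 1) / (((2 * (n + 1) : ℕ) : ℝ) + 1) := by
        rw [div_le_div_iff₀ (by norm_num) (by positivity)]
        push_cast
        have : (0 : ℝ) ≤ n := Nat.cast_nonneg n
        linarith only []
      have h5 : 0 ≤ ‖tc h (n + 1)‖ ^ 2 * (r ^ (2 * (n + 1)) * r) := by (clear * - hr0; positivity)
      calc r / 3 * (‖tc h (n + 1)‖ ^ 2 * r ^ (2 * (n + 1)))
          = 1 / 3 * (‖tc h (n + 1)‖ ^ 2 * (r ^ (2 * (n + 1)) * r)) := by ring
        _ ≤ ((n : ℝ) + 1) / (((2 * (n + 1) : ℕ) : ℝ) + 1) *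
            (‖tc h (n + 1)‖ ^ 2 * (r ^ (2 * (n + 1)) * r)) := mul_le_mul_of_nonneg_right h4 h5
        _ = _ := by ring
    have h6 : r / 3 * ∑ n ∈ Finset.range N, ‖tc h (n + 1)‖ ^ 2 * r ^ (2 * (n + 1)) ≤
        B / (2 * t - 1) * P := by
      rw [Finset.mul_sum]
      refine le_trans (Finset.sum_le_sum fun n _ => h3 n) (le_trans hmono ?_)
      have : 0 ≤ B / (2 * t - 1) := by (clear * - hB ht1; positivity)
      rw [← hP]
      linarith only [this]
    have h7 : 0 ≤ ∑ n ∈ Finset.range N, ‖tc h (n + 1)‖ ^ 2 * r ^ (2 * (n + 1)) :=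
      Finset.sum_nonneg fun n _ => by (clear * - hr0; positivity)
    have h8 : 1 / 6 * ∑ n ∈ Finset.range N, ‖tc h (n + 1)‖ ^ 2 * r ^ (2 * (n + 1)) ≤
        B / (2 * t - 1) * P := by
      refine le_trans (mul_le_mul_of_nonneg_right ?_ h7) h6
      linarith only [hr.1]
    calc _ ≤ 6 * (B / (2 * t - 1) * P) := by linarith only [h8]
      _ = _ := by ring
  have h9 : ‖tc h 0‖ ^ 2 ≤ ‖tc h 0‖ ^ 2 * P := le_mul_of_one_le_right (by positivity) hP1
  calc mean2 h r ≤ ‖tc h 0‖ ^ 2 * P + 6 * B / (2 * t - 1) * P := by linarith only [key, h9]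
    _ = _ := by ring

/-- Integral means of the derivative for `1 / 2 < t < 2`. -/
theorem pos_mean (hf : Univ f) (ht : 1 / 2 < t) (ht2 : t < 2) :
    ∃ C : ℝ, ∀ r ∈ Ico (1 / 2 : ℝ) 1, (1 - r) ^ (3 * t - 1) * MM f t r ≤ C := by
  obtain ⟨c, hc⟩ := exists_omitted hf
  set k : ℂ → ℂ := fun z => f z - c with hk
  have hkU : Univ k := ⟨hf.1.sub_const c, fun a ha b hb hab => hf.2 ha hb (by
    simp only [hk] at hab
    linear_combination hab)⟩
  have hne : ∀ z ∈ ball (0 : ℂ) 1, k z ≠ 0 := fun z hz => sub_ne_zero.mpr (hc z hz)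
  have hkd : ∀ z, deriv k z = deriv f z := fun z => by rw [hk, deriv_sub_const]
  obtain ⟨L, hL1, hL2, hL3⟩ := exists_logf hkU.1 hne
  set h : ℂ → ℂ := fun z => Complex.exp (((t / 2 : ℝ) : ℂ) * L z) with hh
  have hhd : ∀ z ∈ ball (0 : ℂ) 1, HasDerivAt h (h z * (((t / 2 : ℝ) : ℂ) * (deriv k z / k z))) z :=
    fun z hz => ((hL1 z hz).const_mul _).cexp
  have hhD : DifferentiableOn ℂ h (ball 0 1) := fun z hz =>
    (hhd z hz).differentiableAt.differentiableWithinAt
  have hhn : ∀ z ∈ ball (0 : ℂ) 1, ‖h z‖ = ‖k z‖ ^ (t / 2) := by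
    intro z hz
    rw [hL2 z hz, hh, Complex.norm_exp, Complex.norm_exp, re_ofReal_mul, ← Real.exp_mul]
    congr 1
    ring
  have ht0 : 0 < t := by linarith only [ht]
  have hkp : ∀ z ∈ ball (0 : ℂ) 1, 0 < ‖k z‖ := fun z hz => norm_pos_iff.mpr (hne z hz)
  have hdn : ∀ z ∈ ball (0 : ℂ) 1, ‖deriv h z‖ = ‖k z‖ ^ (t / 2) * (t / 2 * (‖deriv k z‖ / ‖k z‖)) := by
    intro z hz
    rw [(hhd z hz).deriv, norm_mul, norm_mul, norm_div, hhn z hz, Complex.norm_real,
      Real.norm_eq_abs, abs_of_pos (by positivity)]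
  have hd : ∀ z ∈ ball (0 : ℂ) 1, ‖deriv h z‖ ^ 2 =
      (t / 2) ^ 2 * (‖deriv k z‖ ^ 2 * ‖k z‖ ^ (t - 2)) := by
    intro z hz
    rw [hdn z hz, Real.rpow_sub (hkp z hz), Real.rpow_two, mul_pow, ← Real.rpow_mul_natCast
      (hkp z hz).le]
    have e : t / 2 * ((2 : ℕ) : ℝ) = t := by push_cast; ring
    rw [e]
    have := (hkp z hz).ne'
    (clear * - this ht; field_simp)
  obtain ⟨B, hB, hco⟩ := coef_bound hkU hne ht0 hhD hd
  set C1 : ℝ := 4 * 2 ^ (2 * t) * B with hC1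
  set C2 : ℝ := ‖tc h 0‖ ^ 2 + 6 * B / (2 * t - 1) with hC2
  refine ⟨(2 / t) ^ t * (2 * π) * (C1 + C2), ?_⟩
  intro r hr
  have hr0 : 0 ≤ r := by linarith only [hr.1]
  have hr1 : 0 < 1 - r := by linarith only [hr.2]
  have m1 := mean2_deriv_le hhD hco hr
  have m2 := mean2_le hhD ht hB hco hr
  have hmem := fun θ : ℝ => circleMap_mem_unit hr0 hr.2 θ
  -- pointwise Young
  have hpt : ∀ z ∈ ball (0 : ℂ) 1, ‖deriv f z‖ ^ t ≤ (2 / t) ^ t *
      (‖deriv h z‖ ^ 2 * (1 - r) ^ (2 - t) + ‖h z‖ ^ 2 * (1 - r) ^ (-t)) := by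
    intro z hz
    have hkz := hkp z hz
    have e1 : ‖deriv f z‖ ^ t = (2 / t) ^ t * ((‖deriv h z‖ ^ 2) ^ (t / 2) *
        (‖h z‖ ^ 2) ^ (1 - t / 2)) := by
      rw [← Real.rpow_natCast_mul (norm_nonneg _), ← Real.rpow_natCast_mul (norm_nonneg _),
        show ((2 : ℕ) : ℝ) * (t / 2) = t by push_cast; ring,
        show ((2 : ℕ) : ℝ) * (1 - t / 2) = 2 - t by push_cast; ring, hdn z hz, hhn z hz,
        Real.mul_rpow (by positivity) (by (clear * - ht hkz; positivity)), Real.mul_rpow (by positivity) (by (clear * - hkz; positivity)),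
        Real.div_rpow (norm_nonneg _) hkz.le, hkd, ← Real.rpow_mul hkz.le, ← Real.rpow_mul hkz.le]
      have e2 : ‖k z‖ ^ (t / 2 * t) * ‖k z‖ ^ (t / 2 * (2 - t)) = ‖k z‖ ^ t := by
        rw [← Real.rpow_add hkz]; congr 1; ring
      have e3 : (2 / t) ^ t * (t / 2) ^ t = 1 := by
        rw [← Real.mul_rpow (by positivity) (by positivity)]
        have : 2 / t * (t / 2) = 1 := by field_simp
        rw [this, Real.one_rpow]
      have e4 : ‖k z‖ ^ t ≠ 0 := (Real.rpow_pos_of_pos hkz t).ne'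
      calc ‖deriv f z‖ ^ t = 1 * (‖k z‖ ^ t / ‖k z‖ ^ t) * ‖deriv f z‖ ^ t := by
            rw [div_self e4]; ring
        _ = ((2 / t) ^ t * (t / 2) ^ t) *
            ((‖k z‖ ^ (t / 2 * t) * ‖k z‖ ^ (t / 2 * (2 - t))) / ‖k z‖ ^ t) * ‖deriv f z‖ ^ t := by
            rw [e2, e3]
        _ = _ := by ring
    rw [e1]
    apply mul_le_mul_of_nonneg_left _ (Real.rpow_nonneg (by positivity) _)
    set x := ‖deriv h z‖ ^ 2 with hx
    set y := ‖h z‖ ^ 2 with hy
    have hx0 : 0 ≤ x := by (clear * -; positivity)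
    have hy0 : 0 ≤ y := by (clear * -; positivity)
    set u := (1 - r) ^ (2 - t) with hu
    set v := (1 - r) ^ (-t) with hv
    have hu0 : 0 < u := Real.rpow_pos_of_pos hr1 _
    have hv0 : 0 < v := Real.rpow_pos_of_pos hr1 _
    have huv : u ^ (t / 2) * v ^ (1 - t / 2) = 1 := by
      rw [hu, hv, ← Real.rpow_mul hr1.le, ← Real.rpow_mul hr1.le, ← Real.rpow_add hr1]
      have : (2 - t) * (t / 2) + -t * (1 - t / 2) = 0 := by ring
      rw [this, Real.rpow_zero]
    have h1 := Real.geom_mean_le_arith_mean2_weighted (w₁ := t / 2) (w₂ := 1 - t / 2)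
      (p₁ := x * u) (p₂ := y * v) (by positivity) (by linarith only [ht2]) (by (clear * - hr1; positivity)) (by (clear * - hr1; positivity))
      (by ring)
    rw [Real.mul_rpow hx0 hu0.le, Real.mul_rpow hy0 hv0.le] at h1
    have h2 : x ^ (t / 2) * u ^ (t / 2) * (y ^ (1 - t / 2) * v ^ (1 - t / 2)) =
        x ^ (t / 2) * y ^ (1 - t / 2) := by
      calc _ = x ^ (t / 2) * y ^ (1 - t / 2) * (u ^ (t / 2) * v ^ (1 - t / 2)) := by ring
        _ = _ := by rw [huv, mul_one]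
    rw [h2] at h1
    have h3 : 0 ≤ x * u := by (clear * - hr1; positivity)
    have h4 : 0 ≤ y * v := by (clear * - hr1; positivity)
    nlinarith only [h1, h4, ht, ht2, h3]
  -- integrate
  have hd' : ∀ z ∈ ball (0 : ℂ) 1, deriv f z ≠ 0 := fun z hz => univ_deriv_ne_zero hf hz
  have hc1 := continuous_weight (t := t) hf.1 hd' hr0 hr.2
  have hc2 : Continuous (fun θ : ℝ => ‖deriv h (circleMap 0 r θ)‖ ^ 2) :=
    (((hhD.deriv isOpen_ball).continuousOn.comp_continuous (continuous_circleMap 0 r) hmem).norm).pow 2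
  have hc3 : Continuous (fun θ : ℝ => ‖h (circleMap 0 r θ)‖ ^ 2) :=
    ((hhD.continuousOn.comp_continuous (continuous_circleMap 0 r) hmem).norm).pow 2
  have hpi : (-π) ≤ π := by linarith only [Real.pi_pos]
  have hM : MM f t r ≤ (2 / t) ^ t * (2 * π) *
      (mean2 (deriv h) r * (1 - r) ^ (2 - t) + mean2 h r * (1 - r) ^ (-t)) := by
    have e1 : (2 / t) ^ t * (2 * π) *
      (mean2 (deriv h) r * (1 - r) ^ (2 - t) + mean2 h r * (1 - r) ^ (-t)) =
      ∫ θ in (-π)..π, (2 / t) ^ t * (‖deriv h (circleMap 0 r θ)‖ ^ 2 * (1 - r) ^ (2 - t) +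
        ‖h (circleMap 0 r θ)‖ ^ 2 * (1 - r) ^ (-t)) := by
      rw [intervalIntegral.integral_const_mul, intervalIntegral.integral_add
        ((hc2.mul_const _).intervalIntegrable _ _) ((hc3.mul_const _).intervalIntegrable _ _),
        intervalIntegral.integral_mul_const, intervalIntegral.integral_mul_const, mean2, mean2]
      have : (2 * π : ℝ) ≠ 0 := by positivity
      (clear * - ht; field_simp)
    rw [e1, MM]
    apply intervalIntegral.integral_mono_on hpi (hc1.intervalIntegrable _ _)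
    · apply Continuous.intervalIntegrable
      exact continuous_const.mul ((hc2.mul_const _).add (hc3.mul_const _))
    · intro θ _
      exact hpt _ (hmem θ)
  have hq : 0 ≤ (1 - r) ^ (3 * t - 1) := Real.rpow_nonneg hr1.le _
  have q1 : (1 - r) ^ (3 * t - 1) * ((1 - r) ^ (-(1 + 2 * t)) * (1 - r) ^ (2 - t)) = 1 := by
    rw [← Real.rpow_add hr1, ← Real.rpow_add hr1]
    have : 3 * t - 1 + (-(1 + 2 * t) + (2 - t)) = 0 := by ring
    rw [this, Real.rpow_zero]
  have q2 : (1 - r) ^ (3 * t - 1) * ((1 - r) ^ (-(2 * t - 1)) * (1 - r) ^ (-t)) = 1 := by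
    rw [← Real.rpow_add hr1, ← Real.rpow_add hr1]
    have : 3 * t - 1 + (-(2 * t - 1) + -t) = 0 := by ring
    rw [this, Real.rpow_zero]
  have hcc : 0 ≤ (2 / t) ^ t * (2 * π) :=
    mul_nonneg (Real.rpow_nonneg (by positivity) _) (by positivity)
  have n1 : 0 ≤ (1 - r) ^ (2 - t) := Real.rpow_nonneg hr1.le _
  have n2 : 0 ≤ (1 - r) ^ (-t) := Real.rpow_nonneg hr1.le _
  calc (1 - r) ^ (3 * t - 1) * MM f t r ≤ (1 - r) ^ (3 * t - 1) * ((2 / t) ^ t * (2 * π) *
      (mean2 (deriv h) r * (1 - r) ^ (2 - t) + mean2 h r * (1 - r) ^ (-t))) :=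
        mul_le_mul_of_nonneg_left hM hq
    _ ≤ (1 - r) ^ (3 * t - 1) * ((2 / t) ^ t * (2 * π) *
      (C1 * (1 - r) ^ (-(1 + 2 * t)) * (1 - r) ^ (2 - t) +
        C2 * (1 - r) ^ (-(2 * t - 1)) * (1 - r) ^ (-t))) := by
        apply mul_le_mul_of_nonneg_left _ hq
        apply mul_le_mul_of_nonneg_left _ hcc
        exact add_le_add (mul_le_mul_of_nonneg_right m1 n1) (mul_le_mul_of_nonneg_right m2 n2)
    _ = (2 / t) ^ t * (2 * π) * (C1 *
          ((1 - r) ^ (3 * t - 1) * ((1 - r) ^ (-(1 + 2 * t)) * (1 - r) ^ (2 - t))) + C2 *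
          ((1 - r) ^ (3 * t - 1) * ((1 - r) ^ (-(2 * t - 1)) * (1 - r) ^ (-t)))) := by ring
    _ = _ := by rw [q1, q2]; ring

/-- Area integrability for `0 < t < 2 / 3`. -/
theorem lintegral_pos_range (hf : Univ f) (ht0 : 0 < t) (ht : t < 2 / 3) :
    ∫⁻ z in ball (0 : ℂ) 1, ENNReal.ofReal (‖deriv f z‖ ^ t) < ⊤ := by
  obtain ⟨u, hu1, hu2⟩ := exists_between (max_lt ht (by norm_num : (1 / 2 : ℝ) < 2 / 3))
  have hu3 : t < u := lt_of_le_of_lt (le_max_left _ _) hu1
  have hu4 : 1 / 2 < u := lt_of_le_of_lt (le_max_right _ _) hu1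
  have hu0 : 0 < u := by linarith only [hu4]
  obtain ⟨C, hC⟩ := pos_mean hf hu4 (by linarith only [hu2])
  have hs1 : t / u ≤ 1 := (div_le_one hu0).mpr hu3.le
  have hs0 : 0 ≤ t / u := by positivity
  have h := lintegral_ball_lt_top_of_mean (s := t / u) hf (by norm_num) (by norm_num) hC hs0 hs1
    (by nlinarith only [hs1, hu2, hu4])
  have e : u * (t / u) = t := by field_simp
  rwa [e] at h

end

end Vale.Agent.P142
end

section

/-! Brennan's conjecture from block F and the landed classical range. -/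

open Complex MeasureTheory Metric Set Filter Topology
open scoped Real ENNReal

namespace Vale.Agent.P142.Brn

/-- The disc form: `∫_D |f'|^t dA < ∞` for every univalent `f` and `-2 < t < 2/3`. -/
theorem disc_form (hF : BlockF) {f : ℂ → ℂ} (hf : DifferentiableOn ℂ f (ball 0 1))
    (hinj : InjOn f (ball 0 1)) {t : ℝ} (ht1 : -2 < t) (ht2 : t < 2 / 3) :
    ∫⁻ z in ball (0 : ℂ) 1, ENNReal.ofReal (‖deriv f z‖ ^ t) < ⊤ := by
  rcases lt_trichotomy t 0 with h | h | h
  · have := hF f hf hinj (-t) (by linarith only [h]) (by linarith)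
    rwa [neg_neg] at this
  · subst h
    simp only [Real.rpow_zero, ENNReal.ofReal_one, lintegral_const, one_mul,
      Measure.restrict_apply MeasurableSet.univ, univ_inter]
    exact measure_ball_lt_top
  · exact Vale.Agent.P142.lintegral_pos_range ⟨hf, hinj⟩ h ht2

/-- Brennan's conjecture from block F. -/
theorem brennan_of (hF : BlockF) :
    (∀ (W : Set ℂ) (φ : ℂ → ℂ), IsOpen W → DifferentiableOn ℂ φ W → BijOn φ W (ball 0 1) →
      ∀ s : ℝ, 4 / 3 < s → s < 4 → ∫⁻ w in W, ENNReal.ofReal (‖deriv φ w‖ ^ s) < ⊤) ∧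
    (∀ f : ℂ → ℂ, DifferentiableOn ℂ f (ball 0 1) → InjOn f (ball 0 1) →
      ∀ t : ℝ, -2 < t → t < 2 / 3 →
        ∫⁻ z in ball (0 : ℂ) 1, ENNReal.ofReal (‖deriv f z‖ ^ t) < ⊤) := by
  refine ⟨?_, fun f hf hinj t ht1 ht2 => disc_form hF hf hinj ht1 ht2⟩
  intro W φ hW hφ hbij s hs1 hs2
  obtain ⟨f, hf, hint⟩ := Vale.Agent.P142.exists_inverse hW hφ hbij
  rw [hint s]
  exact disc_form hF hf.1 hf.2 (by linarith only [hs2]) (by linarith)

end Vale.Agent.P142.Brn
end

section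

/-! From block F to `B_S(-2) ≤ 1`. -/

open Complex MeasureTheory Metric Set Filter Topology
open scoped Real ENNReal

namespace Vale.Agent.P142.Brn.G1s

noncomputable section

variable {f : ℂ → ℂ} {p r s : ℝ}

/-- The circle means of `|f'|^(-p)` as a series. -/
lemma exists_series (hf : Univ f) (p : ℝ) : ∃ G : ℂ → ℂ, DifferentiableOn ℂ G (ball 0 1) ∧
    (∀ z ∈ ball (0 : ℂ) 1, ‖G z‖ ^ 2 = ‖deriv f z‖ ^ (-p)) ∧
    ∀ r : ℝ, 0 ≤ r → r < 1 → HasSum (fun n : ℕ => 2 * π * (‖tc G n‖ ^ 2 * r ^ (2 * n)))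
      (MM f (-p) r) := by
  obtain ⟨G, hG, hGp⟩ := Par6.exists_G one_pos (hf.1.deriv isOpen_ball)
    (fun z hz => univ_deriv_ne_zero hf hz) p
  refine ⟨G, hG, fun z hz => (hGp z hz).2, fun r hr0 hr1 => ?_⟩
  have h := Par6.parseval_sq hr0 hr1 hG.continuousOn (fun z hz => hasSum_tc hG hz)
  have e : ∫ θ in (-π)..π, ‖G (circleMap 0 r θ)‖ ^ 2 = MM f (-p) r := by
    unfold MM
    congr 1
    ext θ
    exact (hGp _ (circleMap_mem_unit hr0 hr1 θ)).2
  rwa [e] at h

lemma MM_mono (hf : Univ f) (p : ℝ) (hr0 : 0 ≤ r) (hrs : r ≤ s) (hs1 : s < 1) :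
    MM f (-p) r ≤ MM f (-p) s := by
  obtain ⟨G, hG, _, hS⟩ := exists_series hf p
  refine hasSum_le (fun n => ?_) (hS r hr0 (by linarith)) (hS s (by linarith) hs1)
  have : r ^ (2 * n) ≤ s ^ (2 * n) := pow_le_pow_left₀ hr0 hrs _
  have := Real.pi_pos
  gcongr

/-- The circle means are bounded by the area integral. -/
lemma mm_area (hf : Univ f) (hI : ∫⁻ z in ball (0 : ℂ) 1, ENNReal.ofReal (‖deriv f z‖ ^ (-p)) < ⊤) :
    ∃ C : ℝ, 0 < C ∧ ∀ r : ℝ, 1 / 2 ≤ r → r < 1 → (1 - r) * MM f (-p) r ≤ C := by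
  set I : ℝ≥0∞ := ∫⁻ z in ball (0 : ℂ) 1, ENNReal.ofReal (‖deriv f z‖ ^ (-p)) with hIdef
  refine ⟨2 * I.toReal + 1, by positivity, fun r hr hr1 => ?_⟩
  have hm : Measurable (fun z => ENNReal.ofReal (‖deriv f z‖ ^ (-p))) :=
    ENNReal.measurable_ofReal.comp ((measurable_deriv f).norm.pow_const _)
  have hd : ∀ z ∈ ball (0 : ℂ) 1, deriv f z ≠ 0 := fun z hz => univ_deriv_ne_zero hf hz
  have hr0 : (0 : ℝ) ≤ r := by linarith
  have hMpos := MM_pos hf (-p) hr0 hr1
  have h1 : ENNReal.ofReal ((1 - r) * (1 / 2 * MM f (-p) r)) ≤ I := by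
    rw [hIdef, FF.lintegral_ball_polar hm]
    calc ENNReal.ofReal ((1 - r) * (1 / 2 * MM f (-p) r))
        = ∫⁻ _ in Ioo r 1, ENNReal.ofReal (1 / 2 * MM f (-p) r) := by
          rw [setLIntegral_const, Real.volume_Ioo, ← ENNReal.ofReal_mul (by positivity), mul_comm]
      _ ≤ ∫⁻ ρ in Ioo r 1, ENNReal.ofReal ρ *
          ∫⁻ θ in Ioo (-π) π, ENNReal.ofReal (‖deriv f (circleMap 0 ρ θ)‖ ^ (-p)) := by
          apply setLIntegral_mono' measurableSet_Ioo
          intro ρ hρ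
          have hρ0 : 0 ≤ ρ := by linarith only [hr, hρ.1]
          have hc := continuous_weight (t := -p) hf.1 hd hρ0 hρ.2
          have hint : IntegrableOn (fun θ => ‖deriv f (circleMap 0 ρ θ)‖ ^ (-p)) (Ioo (-π) π) :=
            (hc.integrableOn_Icc (a := -π) (b := π)).mono_set Ioo_subset_Icc_self
          rw [← ofReal_integral_eq_lintegral_ofReal hint
            (Eventually.of_forall fun θ => Real.rpow_nonneg (norm_nonneg _) _),
            ← ENNReal.ofReal_mul hρ0]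
          apply ENNReal.ofReal_le_ofReal
          have e : ∫ θ in Ioo (-π) π, ‖deriv f (circleMap 0 ρ θ)‖ ^ (-p) = MM f (-p) ρ := by
            rw [MM, intervalIntegral.integral_of_le (by linarith only [Real.pi_pos]),
              integral_Ioc_eq_integral_Ioo]
          rw [e]
          have h2 := MM_mono hf p hr0 hρ.1.le hρ.2
          have h3 : (1 / 2 : ℝ) ≤ ρ := by linarith [hρ.1]
          (clear * - h3 h2 hMpos; gcongr)
      _ ≤ _ := lintegral_mono_set (Ioo_subset_Ioo_left hr0)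
  have h2 := ENNReal.toReal_mono hI.ne h1
  rw [ENNReal.toReal_ofReal (by
    have : 0 ≤ 1 - r := by linarith only [hr1]
    positivity)] at h2
  linarith only [h2]

/-- A polynomial lower bound for `|f'|`. -/
lemma deriv_lower (hf : Univ f)
    (hI : ∫⁻ z in ball (0 : ℂ) 1, ENNReal.ofReal (‖deriv f z‖ ^ (-p)) < ⊤) :
    ∃ C : ℝ, 0 < C ∧ ∀ z ∈ ball (0 : ℂ) 1, 1 / 2 ≤ ‖z‖ →
      ‖deriv f z‖ ^ (-p) ≤ C * (1 - ‖z‖) ^ (-2 : ℝ) := by
  obtain ⟨C, hC, hCb⟩ := mm_area hf hI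
  obtain ⟨G, hG, hGn, hS⟩ := exists_series hf p
  refine ⟨4 * C, by positivity, fun z hz hz2 => ?_⟩
  have hz1 : ‖z‖ < 1 := by simpa using hz
  set r := ‖z‖ with hr
  have hr0 : 0 < r := by linarith
  set s := √r with hs
  have hs0 : 0 < s := Real.sqrt_pos.mpr hr0
  have hss : s * s = r := Real.mul_self_sqrt hr0.le
  have hs1 : s < 1 := by nlinarith only [hz1, hss]
  have hsr : r ≤ s := by nlinarith only [hss, hs0, hs1]
  have hGs : DifferentiableOn ℂ G (ball 0 1) := hG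
  -- partial sums
  have hpart : ∀ N : ℕ, ‖∑ n ∈ Finset.range N, tc G n * z ^ n‖ ^ 2 ≤
      MM f (-p) s / (2 * π) * (1 - r)⁻¹ := by
    intro N
    have h1 : ‖∑ n ∈ Finset.range N, tc G n * z ^ n‖ ≤
        ∑ n ∈ Finset.range N, (‖tc G n‖ * s ^ n) * s ^ n := by
      refine le_trans (norm_sum_le _ _) (le_of_eq ?_)
      apply Finset.sum_congr rfl
      intro n _
      rw [norm_mul, norm_pow, ← hr, ← hss, mul_pow]
      ring
    have hcs := Finset.sum_mul_sq_le_sq_mul_sq (Finset.range N) (fun n => ‖tc G n‖ * s ^ n)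
      (fun n => s ^ n)
    have h2 : ∑ n ∈ Finset.range N, (‖tc G n‖ * s ^ n) ^ 2 ≤ MM f (-p) s / (2 * π) := by
      rw [le_div_iff₀ (by positivity), Finset.sum_mul]
      have := sum_le_hasSum (Finset.range N) (fun n _ => by (clear * - hz2; positivity)) (hS s hs0.le hs1)
      refine le_trans (le_of_eq ?_) this
      apply Finset.sum_congr rfl
      intro n _
      rw [mul_pow, ← pow_mul, mul_comm n 2]
      ring
    have h3 : ∑ n ∈ Finset.range N, (s ^ n) ^ 2 ≤ (1 - r)⁻¹ := by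
      have hsum := hasSum_geometric_of_lt_one hr0.le hz1
      refine le_trans (le_of_eq ?_) (sum_le_hasSum (Finset.range N) (fun i _ => by positivity) hsum)
      apply Finset.sum_congr rfl
      intro n _
      rw [← pow_mul, mul_comm n 2, pow_mul, sq, hss]
    have h0 : 0 ≤ ∑ n ∈ Finset.range N, (s ^ n) ^ 2 := Finset.sum_nonneg fun i _ => by positivity
    have hMp := MM_pos hf (-p) hs0.le hs1
    calc ‖∑ n ∈ Finset.range N, tc G n * z ^ n‖ ^ 2
        ≤ (∑ n ∈ Finset.range N, (‖tc G n‖ * s ^ n) * s ^ n) ^ 2 := by (clear * - h1; gcongr)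
      _ ≤ _ := hcs
      _ ≤ MM f (-p) s / (2 * π) * (1 - r)⁻¹ := by (clear * - h2 h3 hz2 hMp; gcongr)
  have hlim : ‖G z‖ ^ 2 ≤ MM f (-p) s / (2 * π) * (1 - r)⁻¹ := by
    have h := (hasSum_tc hGs hz).tendsto_sum_nat
    exact le_of_tendsto ((h.norm).pow 2) (Eventually.of_forall hpart)
  have h1r : 0 < 1 - r := by linarith only [hz1]
  have h1s : 0 < 1 - s := by linarith only [hs1]
  have h3 : MM f (-p) s ≤ C * (1 - s)⁻¹ := by
    have := hCb s (by linarith only [hz2, hsr]) hs1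
    rw [← div_eq_mul_inv, le_div_iff₀ h1s]
    linarith only [this]
  have h4 : (1 - s)⁻¹ ≤ 2 * (1 - r)⁻¹ := by
    rw [inv_le_comm₀ h1s (by positivity), mul_inv, inv_inv]
    nlinarith only [hss, hs1]
  have h5 : (1 - r) ^ (-2 : ℝ) = (1 - r)⁻¹ * (1 - r)⁻¹ := by
    rw [Real.rpow_neg h1r.le, Real.rpow_two, sq, mul_inv]
  rw [hGn z hz] at hlim
  rw [h5]
  have hi : 0 < (1 - r)⁻¹ := by positivity
  have hpi : (1 : ℝ) ≤ 2 * π := by linarith only [Real.pi_gt_three]
  calc ‖deriv f z‖ ^ (-p) ≤ MM f (-p) s / (2 * π) * (1 - r)⁻¹ := hlim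
    _ ≤ MM f (-p) s * (1 - r)⁻¹ := by
        gcongr
        exact div_le_self (MM_pos hf (-p) hs0.le hs1).le hpi
    _ ≤ (C * (2 * (1 - r)⁻¹)) * (1 - r)⁻¹ := by
        have : C * (1 - s)⁻¹ ≤ C * (2 * (1 - r)⁻¹) := by (clear * - h4 hC; gcongr)
        gcongr
        linarith only [h3, this]
    _ ≤ 4 * C * ((1 - r)⁻¹ * (1 - r)⁻¹) := by nlinarith only [hC]

/-- `β_f(-2) ≤ 1 + ε`. -/
lemma betaF_le_add (hF : BlockF) (hf : Univ f) {ε : ℝ} (hε : 0 < ε) (hε1 : ε < 1) :
    betaF f (-2) ≤ ((1 + 2 * ε : ℝ) : EReal) := by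
  have hI2 := hF f hf.1 hf.2 (2 - ε) (by linarith) (by linarith)
  have hI1 := hF f hf.1 hf.2 1 (by norm_num) (by norm_num)
  obtain ⟨C, hC, hCb⟩ := mm_area hf hI2
  obtain ⟨D, hD, hDb⟩ := deriv_lower hf hI1
  have hd : ∀ z ∈ ball (0 : ℂ) 1, deriv f z ≠ 0 := fun z hz => univ_deriv_ne_zero hf hz
  apply betaF_le hf (C := D ^ ε * C) (r₀ := 1 / 2) (by norm_num) (by norm_num)
  intro r hr
  have hr1 : 0 < 1 - r := by linarith [hr.2]
  have hr0 : 0 ≤ r := by linarith only [hr.1]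
  have h1 : MM f (-2) r ≤ (D * (1 - r) ^ (-2 : ℝ)) ^ ε * MM f (-(2 - ε)) r := by
    unfold MM
    rw [← intervalIntegral.integral_const_mul]
    have hc1 := continuous_weight (t := -2) hf.1 hd hr0 hr.2
    have hc2 := continuous_weight (t := -(2 - ε)) hf.1 hd hr0 hr.2
    apply intervalIntegral.integral_mono_on (by linarith [Real.pi_pos])
      (hc1.intervalIntegrable _ _) ((continuous_const.mul hc2).intervalIntegrable _ _)
    intro θ _
    have hmem := circleMap_mem_unit hr0 hr.2 θ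
    have hn : ‖circleMap 0 r θ‖ = r := by rw [norm_circleMap_zero, abs_of_nonneg hr0]
    have h2 := hDb _ hmem (by rw [hn]; exact hr.1)
    rw [hn] at h2
    have hdp : 0 < ‖deriv f (circleMap 0 r θ)‖ := norm_pos_iff.mpr (hd _ hmem)
    have e : ‖deriv f (circleMap 0 r θ)‖ ^ (-2 : ℝ) =
        (‖deriv f (circleMap 0 r θ)‖ ^ (-1 : ℝ)) ^ ε *
          ‖deriv f (circleMap 0 r θ)‖ ^ (-(2 - ε)) := by
      rw [← Real.rpow_mul hdp.le, ← Real.rpow_add hdp]
      congr 1
      ring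
    rw [e]
    have h0 : 0 ≤ ‖deriv f (circleMap 0 r θ)‖ ^ (-1 : ℝ) := by positivity
    exact mul_le_mul_of_nonneg_right (Real.rpow_le_rpow h0 h2 hε.le) (by positivity)
  have h2 := hCb r hr.1 hr.2
  have hDe : 0 < D ^ ε := by positivity
  have e1 : (D * (1 - r) ^ (-2 : ℝ)) ^ ε = D ^ ε * (1 - r) ^ (-(2 * ε)) := by
    rw [Real.mul_rpow hD.le (by positivity), ← Real.rpow_mul hr1.le]
    congr 2
    ring
  have e2 : (1 - r) ^ (1 + 2 * ε) * (1 - r) ^ (-(2 * ε)) = 1 - r := by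
    rw [← Real.rpow_add hr1]
    simp
  have hp : 0 < (1 - r) ^ (1 + 2 * ε) := Real.rpow_pos_of_pos hr1 _
  calc (1 - r) ^ (1 + 2 * ε) * MM f (-2) r
      ≤ (1 - r) ^ (1 + 2 * ε) * ((D * (1 - r) ^ (-2 : ℝ)) ^ ε * MM f (-(2 - ε)) r) := by (clear * - h1 hr1; gcongr)
    _ = D ^ ε * (((1 - r) ^ (1 + 2 * ε) * (1 - r) ^ (-(2 * ε))) * MM f (-(2 - ε)) r) := by
        rw [e1]; ring
    _ = D ^ ε * ((1 - r) * MM f (-(2 - ε)) r) := by rw [e2]
    _ ≤ D ^ ε * C := by (clear * - h2 hD; gcongr)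

theorem betaF_neg_two_le (hF : BlockF) (hf : Univ f) : betaF f (-2) ≤ 1 := by
  by_contra h
  rw [not_le] at h
  have h' : ((1 : ℝ) : EReal) < betaF f (-2) := by exact_mod_cast h
  obtain ⟨x, hx1, hx2⟩ := EReal.lt_iff_exists_real_btwn.mp h'
  have hx : 1 < x := by exact_mod_cast hx1
  set ε : ℝ := min ((x - 1) / 2) (1 / 2) with hε
  have h0 : 0 < ε := lt_min (by linarith only [hx]) (by norm_num)
  have h1 : ε < 1 := lt_of_le_of_lt (min_le_right _ _) (by norm_num)
  have h2 : ε ≤ (x - 1) / 2 := min_le_left _ _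
  have h3 := betaF_le_add hF hf h0 h1
  have h4 : ((1 + 2 * ε : ℝ) : EReal) ≤ (x : EReal) := by
    rw [EReal.coe_le_coe_iff]
    linarith only [h2]
  exact absurd (lt_of_lt_of_le hx2 (h3.trans h4)) (lt_irrefl _)

theorem BS_neg_two_le (hF : BlockF) : BS (-2) ≤ 1 := by
  unfold BS
  exact iSup₂_le fun f hf => betaF_neg_two_le hF ⟨hf.1, hf.2.1⟩

end

end Vale.Agent.P142.Brn.G1s
end

section

/-! P142 (Brennan), block G2: the Koebe function shows `1 ≤ B_S(-2)` -/

open Complex MeasureTheory Metric Set Filter Topology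
open scoped Real

namespace Vale.Agent.P142.Brn

noncomputable section

/-- a rotated Koebe function -/
def koe (z : ℂ) : ℂ := z / (1 + z) ^ 2

lemma koe_ne {z : ℂ} (hz : z ∈ ball (0 : ℂ) 1) : 1 + z ≠ 0 := by
  rw [mem_ball_zero_iff] at hz
  intro h
  have h1 : z = -1 := by linear_combination h
  rw [h1, norm_neg, norm_one] at hz
  exact lt_irrefl _ hz

lemma koe_ne' {z : ℂ} (hz : z ∈ ball (0 : ℂ) 1) : 1 - z ≠ 0 := by
  rw [mem_ball_zero_iff] at hz
  intro h
  have h1 : z = 1 := by linear_combination -h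
  rw [h1, norm_one] at hz
  exact lt_irrefl _ hz

lemma koe_deriv {z : ℂ} (hz : z ∈ ball (0 : ℂ) 1) :
    HasDerivAt koe ((1 - z) / (1 + z) ^ 3) z := by
  have h := koe_ne hz
  have h1 : HasDerivAt (fun z : ℂ => (1 + z) ^ 2) (2 * (1 + z)) z := by
    have h0 : HasDerivAt (fun z : ℂ => 1 + z) 1 z := (hasDerivAt_id' z).const_add 1
    exact (h0.pow 2).congr_deriv (by simp)
  have h2 : HasDerivAt (fun z : ℂ => z / (1 + z) ^ 2)
      ((1 * (1 + z) ^ 2 - z * (2 * (1 + z))) / ((1 + z) ^ 2) ^ 2) z :=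
    (hasDerivAt_id' z).div h1 (pow_ne_zero 2 h)
  refine (h2.congr_deriv ?_)
  field_simp
  ring

lemma koe_mem : koe ∈ ClassS := by
  refine ⟨fun z hz => (koe_deriv hz).differentiableAt.differentiableWithinAt, ?_, ?_, ?_⟩
  · intro z hz w hw h
    have h1 := koe_ne hz
    have h2 := koe_ne hw
    unfold koe at h
    rw [div_eq_div_iff (pow_ne_zero 2 h1) (pow_ne_zero 2 h2)] at h
    have h3 : (z - w) * (1 - z * w) = 0 := by linear_combination h
    rcases mul_eq_zero.1 h3 with h4 | h4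
    · exact sub_eq_zero.1 h4
    · exfalso
      have h5 : z * w = 1 := (sub_eq_zero.1 h4).symm
      have h6 : ‖z * w‖ = 1 := by rw [h5, norm_one]
      rw [mem_ball_zero_iff] at hz hw
      rw [norm_mul] at h6
      nlinarith only [hw, h6, hz, norm_nonneg w]
  · simp [koe]
  · have := (koe_deriv (z := 0) (by simp)).deriv
    rw [this]
    simp

lemma koe_circle {r θ : ℝ} (hr0 : 0 ≤ r) (hr1 : r < 1) : circleMap 0 r θ ∈ ball (0 : ℂ) 1 := by
  rw [mem_ball_zero_iff]
  simp only [circleMap, zero_add, norm_mul, norm_exp_ofReal_mul_I, mul_one, norm_real,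
    Real.norm_eq_abs, abs_of_nonneg hr0]
  exact hr1

lemma koe_pos {r θ : ℝ} (hr0 : 0 ≤ r) (hr1 : r < 1) :
    0 < ‖deriv koe (circleMap 0 r θ)‖ := by
  have hz := koe_circle (θ := θ) hr0 hr1
  rw [(koe_deriv hz).deriv]
  exact norm_pos_iff.2 (div_ne_zero (koe_ne' hz) (pow_ne_zero 3 (koe_ne hz)))

lemma koe_bound {r θ : ℝ} (hr0 : 1 / 2 ≤ r) (hr1 : r < 1) (hθ : |θ| ≤ 1 - r) :
    (2 * (1 - r)) ^ (-2 : ℝ) ≤ ‖deriv koe (circleMap 0 r θ)‖ ^ (-2 : ℝ) := by
  have hr : 0 ≤ r := by linarith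
  have hz := koe_circle (θ := θ) hr hr1
  refine Real.rpow_le_rpow_of_nonpos (koe_pos hr hr1) ?_ (by norm_num)
  rw [(koe_deriv hz).deriv, norm_div, norm_pow]
  have h1 : ‖1 - circleMap 0 r θ‖ ≤ 2 * (1 - r) := by
    have e : 1 - circleMap 0 r θ = ((1 - r : ℝ) : ℂ) - (r : ℂ) * (exp (I * θ) - 1) := by
      simp only [circleMap, zero_add]
      rw [mul_comm I (θ : ℂ)]
      push_cast
      ring
    rw [e]
    refine (norm_sub_le _ _).trans ?_
    rw [norm_mul, norm_real, norm_real, Real.norm_eq_abs, Real.norm_eq_abs,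
      abs_of_nonneg (by linarith only [hr1] : (0 : ℝ) ≤ 1 - r), abs_of_nonneg hr]
    have h2 := Real.norm_exp_I_mul_ofReal_sub_one_le (x := θ)
    rw [Real.norm_eq_abs] at h2
    nlinarith only [hθ, h2, hr0, hr1]
  have h2 : 1 ≤ ‖1 + circleMap 0 r θ‖ := by
    refine le_trans ?_ (Complex.re_le_norm _)
    have e : (1 + circleMap 0 r θ).re = 1 + r * Real.cos θ := by
      simp only [circleMap, zero_add, add_re, one_re, re_ofReal_mul, exp_ofReal_mul_I_re]
    rw [e]
    have h3 : 0 ≤ Real.cos θ := by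
      apply Real.cos_nonneg_of_mem_Icc
      have := Real.two_le_pi
      rw [abs_le] at hθ
      constructor <;> linarith only [hr0, hθ, this]
    nlinarith only [h3, hr0]
  have h3 : 1 ≤ ‖1 + circleMap 0 r θ‖ ^ 3 := one_le_pow₀ h2
  calc ‖1 - circleMap 0 r θ‖ / ‖1 + circleMap 0 r θ‖ ^ 3 ≤ ‖1 - circleMap 0 r θ‖ / 1 :=
        div_le_div_of_nonneg_left (norm_nonneg _) one_pos h3
    _ ≤ 2 * (1 - r) := by rw [div_one]; exact h1

lemma koe_cont {r : ℝ} (hr0 : 0 ≤ r) (hr1 : r < 1) :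
    Continuous (fun θ : ℝ => ‖deriv koe (circleMap 0 r θ)‖ ^ (-2 : ℝ)) := by
  refine Continuous.rpow_const ?_ (fun θ => Or.inl (koe_pos hr0 hr1).ne')
  refine Continuous.norm ?_
  have e : (fun θ : ℝ => deriv koe (circleMap 0 r θ))
      = fun θ : ℝ => (1 - circleMap 0 r θ) / (1 + circleMap 0 r θ) ^ 3 := by
    funext θ
    exact (koe_deriv (koe_circle hr0 hr1)).deriv
  rw [e]
  have hc := continuous_circleMap (0 : ℂ) r
  exact (continuous_const.sub hc).div ((continuous_const.add hc).pow 3)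
    (fun θ => pow_ne_zero 3 (koe_ne (koe_circle hr0 hr1)))

lemma koe_mean {r : ℝ} (hr0 : 1 / 2 ≤ r) (hr1 : r < 1) :
    1 / (4 * π * (1 - r)) ≤ intMean koe (-2) r := by
  have hr : 0 ≤ r := by linarith
  have hs : 0 < 1 - r := by linarith
  have hpi := Real.two_le_pi
  have hc := koe_cont hr hr1
  have h1 : ∫ _θ in (-(1 - r))..(1 - r), (2 * (1 - r)) ^ (-2 : ℝ)
      ≤ ∫ θ in (-(1 - r))..(1 - r), ‖deriv koe (circleMap 0 r θ)‖ ^ (-2 : ℝ) := by
    refine intervalIntegral.integral_mono_on (by linarith) intervalIntegrable_const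
      (hc.intervalIntegrable _ _) (fun θ hθ => koe_bound hr0 hr1 (abs_le.2 hθ))
  have h2 : ∫ θ in (-(1 - r))..(1 - r), ‖deriv koe (circleMap 0 r θ)‖ ^ (-2 : ℝ)
      ≤ ∫ θ in (-π)..π, ‖deriv koe (circleMap 0 r θ)‖ ^ (-2 : ℝ) := by
    refine intervalIntegral.integral_mono_interval (by linarith) (by linarith) (by linarith)
      (Filter.Eventually.of_forall fun θ => Real.rpow_nonneg (norm_nonneg _) _)
      (hc.intervalIntegrable _ _)
  rw [intervalIntegral.integral_const, smul_eq_mul] at h1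
  have h3 : (2 * (1 - r)) ^ (-2 : ℝ) = ((2 * (1 - r)) ^ 2)⁻¹ := by
    rw [Real.rpow_neg (by linarith)]
    norm_cast
  rw [h3] at h1
  unfold intMean
  have h4 := h1.trans h2
  calc 1 / (4 * π * (1 - r)) = (2 * π)⁻¹ * ((1 - r - -(1 - r)) * ((2 * (1 - r)) ^ 2)⁻¹) := by
        field_simp
        ring
    _ ≤ _ := by
        refine mul_le_mul_of_nonneg_left h4 ?_
        positivity

lemma koe_log {r : ℝ} (hr0 : 1 / 2 ≤ r) (hr1 : r < 1) :
    1 - Real.log (4 * π) / Real.log (1 / (1 - r))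
      ≤ Real.log (intMean koe (-2) r) / Real.log (1 / (1 - r)) := by
  have hs : 0 < 1 - r := by linarith only [hr1]
  have hL : 0 < Real.log (1 / (1 - r)) := by
    apply Real.log_pos
    rw [lt_div_iff₀ hs]
    linarith only [hr0]
  have hpi := Real.pi_pos
  rw [le_div_iff₀ hL, sub_mul, div_mul_cancel₀ _ hL.ne', one_mul]
  have h1 : Real.log (1 / (1 - r)) - Real.log (4 * π) = Real.log (1 / (4 * π * (1 - r))) := by
    rw [← Real.log_div (by positivity) (by positivity)]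
    congr 1
    field_simp
  rw [h1]
  exact Real.log_le_log (by positivity) (koe_mean hr0 hr1)

lemma koe_tend :
    Tendsto (fun r : ℝ => 1 - Real.log (4 * π) / Real.log (1 / (1 - r))) (𝓝[<] 1) (𝓝 1) := by
  have h1 : Tendsto (fun r : ℝ => 1 - r) (𝓝[<] 1) (𝓝[>] 0) := by
    refine tendsto_nhdsWithin_iff.2 ⟨?_, ?_⟩
    · have : Tendsto (fun r : ℝ => 1 - r) (𝓝 1) (𝓝 (1 - 1)) :=
        (continuous_const.sub continuous_id).tendsto 1
      rw [sub_self] at this
      exact this.mono_left nhdsWithin_le_nhds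
    · filter_upwards [self_mem_nhdsWithin] with r hr
      rw [mem_Iio] at hr
      rw [mem_Ioi]
      linarith
  have h2 : Tendsto (fun r : ℝ => 1 / (1 - r)) (𝓝[<] 1) atTop := by
    have := tendsto_inv_nhdsGT_zero.comp h1
    refine this.congr (fun r => ?_)
    simp
  have h3 := Real.tendsto_log_atTop.comp h2
  have h4 : Tendsto (fun r : ℝ => Real.log (4 * π) / Real.log (1 / (1 - r))) (𝓝[<] 1) (𝓝 0) :=
    Tendsto.div_atTop tendsto_const_nhds h3
  have h5 := (tendsto_const_nhds (x := (1 : ℝ))).sub h4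
  rwa [sub_zero] at h5

theorem one_le_betaF_koe : (1 : EReal) ≤ betaF koe (-2) := by
  have h1 : Tendsto (fun r : ℝ =>
      ((1 - Real.log (4 * π) / Real.log (1 / (1 - r)) : ℝ) : EReal)) (𝓝[<] 1) (𝓝 (1 : EReal)) :=
    (continuous_coe_real_ereal.tendsto 1).comp koe_tend
  rw [← h1.limsup_eq]
  unfold betaF
  refine Filter.limsup_le_limsup ?_
  have h2 : ∀ᶠ r : ℝ in 𝓝[<] 1, 1 / 2 ≤ r :=
    nhdsWithin_le_nhds (Filter.eventually_of_mem (Ioi_mem_nhds (by norm_num : (1 / 2 : ℝ) < 1))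
      (fun r hr => le_of_lt hr))
  filter_upwards [h2, self_mem_nhdsWithin] with r hr hr'
  exact EReal.coe_le_coe_iff.2 (koe_log hr hr')

/-- Block G2: the integral means spectrum at `-2` is at least `1`. -/
theorem one_le_BS : (1 : EReal) ≤ BS (-2) :=
  one_le_betaF_koe.trans (le_iSup₂ (f := fun f (_ : f ∈ ClassS) => betaF f (-2)) koe koe_mem)

end

end Vale.Agent.P142.Brn
end
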